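import Vale.Agent.P231.H766.Unif

/-!
# P231, stage 3, block N: compactness of the unit tangent bundle, derivatives in the time
-/

set_option maxSynthPendingDepth 3
set_option linter.unusedSectionVars false
set_option linter.unusedVariables false

open Bundle Manifold Set Filter Module MeasureTheory
open scoped ContDiff Manifold Topology

namespace Vale.Agent.P231.S3N

noncomputable section

open Vale.Agent.P234 Vale.Agent.P231 Vale.Agent.P231.Fm Vale.Agent.P231.W Vale.Agent.P231.WF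

section Abs

variable {X : Type*} {DX : Dif X} {W : Type*} [NormedAddCommGroup W] [NormedSpace ℝ W]

/-- the time derivative of a smooth vector valued function on a cylinder is smooth -/
theorem map_derivW {f : X × ℝ → W} (hf : (DX.prod (Dif.lin ℝ)).Map (Dif.lin W) f) :
    (DX.prod (Dif.lin ℝ)).Map (Dif.lin W) (fun p => deriv (fun r => f (p.1, r)) p.2) := by
  intro E _ _ _ u x hu
  have hs : Sm (fun y => (u y).2) x := hu.2
  have h0 : Sm (fun p : E × ℝ => f ((u p.1).1, p.2)) (x, (u x).2) :=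
    hf (u := fun p : E × ℝ => ((u p.1).1, p.2))
      ⟨DX.comp (u := fun y => (u y).1) (g := Prod.fst) (x := ((x, (u x).2) : E × ℝ)) hu.1
        (Sm.of_contDiff contDiff_fst _), Sm.of_contDiff contDiff_snd _⟩
  have h1 : Sm (fun p : E × ℝ => fderiv ℝ (fun p : E × ℝ => f ((u p.1).1, p.2)) p
      ((0 : E), (1 : ℝ))) (x, (u x).2) :=
    Sm.comp (f := fun L : E × ℝ →L[ℝ] W => L ((0 : E), (1 : ℝ)))
      (Sm.of_contDiff (ContinuousLinearMap.apply ℝ W ((0 : E), (1 : ℝ))).contDiff _) h0.fderiv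
  have h2 : Sm (fun y : E => fderiv ℝ (fun p : E × ℝ => f ((u p.1).1, p.2)) (y, (u y).2)
      ((0 : E), (1 : ℝ))) x :=
    Sm.comp (f := fun p : E × ℝ => fderiv ℝ (fun p : E × ℝ => f ((u p.1).1, p.2)) p
      ((0 : E), (1 : ℝ))) (g := fun y : E => (y, (u y).2)) h1
      (Sm.prodMk (Sm.of_contDiff contDiff_id _) hs)
  have h3 : Tendsto (fun y : E => (y, (u y).2)) (𝓝 x) (𝓝 (x, (u x).2)) :=
    (continuousAt_id.prodMk hs.continuousAt).tendsto
  refine h2.congr ?_
  filter_upwards [h3.eventually h0.eventually] with y hy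
  have h4 : HasFDerivAt (fun r : ℝ => ((y, r) : E × ℝ)) (ContinuousLinearMap.inr ℝ E ℝ) (u y).2 :=
    hasFDerivAt_prodMk_right y (u y).2
  have h5 := HasFDerivAt.comp (u y).2 (g := fun p : E × ℝ => f ((u p.1).1, p.2))
    hy.differentiableAt.hasFDerivAt h4
  have h6 := h5.hasDerivAt.deriv
  exact Eq.symm (by simpa [Function.comp_def] using h6)

theorem contDiff_sliceW {f : X × ℝ → W} (hf : (DX.prod (Dif.lin ℝ)).Map (Dif.lin W) f) {x : X}
    (hx : DX.At (fun _ : ℝ => x) 0) : ContDiff ℝ ∞ (fun r => f (x, r)) := by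
  refine contDiff_iff_contDiffAt.2 fun r => ?_
  have h : Sm (fun r : ℝ => f (x, r)) r :=
    hf (u := fun r : ℝ => (x, r)) ⟨Dif.At_const hx r, Sm.of_contDiff contDiff_id _⟩
  exact h.contDiffAt

end Abs

attribute [local instance] topUT

variable {E : Type*} [NormedAddCommGroup E] [NormedSpace ℝ E]
  {M : Type*} [MetricSpace M] [ChartedSpace E M]
  [RiemannianBundle (fun x : M => TangentSpace 𝓘(ℝ, E) x)]
  [FiniteDimensional ℝ E] [IsManifold 𝓘(ℝ, E) ∞ M]
  [IsContMDiffRiemannianBundle 𝓘(ℝ, E) ∞ E (fun x : M => TangentSpace 𝓘(ℝ, E) x)]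
  [CompactSpace M] [ConnectedSpace M] [IsRiemannianManifold 𝓘(ℝ, E) M]

variable {V : Type} [NormedAddCommGroup V] [NormedSpace ℝ V] [FiniteDimensional ℝ V]
  {W : Type*} [NormedAddCommGroup W] [NormedSpace ℝ W]

theorem cont_UT {f : UT E M × V → W}
    (hf : ((dUT E M).prod (Dif.lin V)).Map (Dif.lin W) f) : Continuous f :=
  (locSec_dUT.prod (locSec_lin V)).continuous (D' := Dif.lin W) (plotsCont_lin W) hf

theorem cont_UT0 {f : UT E M → W} (hf : (dUT E M).Map (Dif.lin W) f) : Continuous f :=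
  locSec_dUT.continuous (D' := Dif.lin W) (plotsCont_lin W) hf

/-- a continuous function on `UT × V` is bounded on bounded sets -/
theorem bdd_UT {f : UT E M × V → W} (hf : Continuous f) (R : ℝ) :
    ∃ C, 0 ≤ C ∧ ∀ u p, ‖p‖ ≤ R → ‖f (u, p)‖ ≤ C := by
  have : CompactSpace (UT E M) := compactSpace_UT
  have hpr : ProperSpace V := FiniteDimensional.proper ℝ V
  have hK : IsCompact ((univ : Set (UT E M)) ×ˢ Metric.closedBall (0 : V) R) :=
    isCompact_univ.prod (isCompact_closedBall _ _)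
  obtain ⟨C, hC⟩ := hK.exists_bound_of_continuousOn hf.continuousOn
  refine ⟨max C 0, le_max_right _ _, fun u p hp => (hC (u, p) ⟨mem_univ _, ?_⟩).trans
    (le_max_left _ _)⟩
  rwa [mem_closedBall_zero_iff]

theorem bdd_UT0 {f : UT E M → W} (hf : Continuous f) : ∃ C, 0 ≤ C ∧ ∀ u, ‖f u‖ ≤ C := by
  have : CompactSpace (UT E M) := compactSpace_UT
  obtain ⟨C, hC⟩ := (isCompact_univ (X := UT E M)).exists_bound_of_continuousOn hf.continuousOn
  exact ⟨max C 0, le_max_right _ _, fun u => (hC u (mem_univ _)).trans (le_max_left _ _)⟩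

/-- uniform continuity in the second variable on compact sets: closeness to the value at a
distinguished compact part -/
theorem unif_UT {V' : Type} [NormedAddCommGroup V'] [NormedSpace ℝ V'] [FiniteDimensional ℝ V']
    {f : UT E M × (V × V') → W} (hf : Continuous f) (R : ℝ) {η : ℝ} (hη : 0 < η) :
    ∃ ρ, 0 < ρ ∧ ∀ u, ∀ p : V, ‖p‖ ≤ R → ∀ q : V', ‖q‖ ≤ ρ →
      ‖f (u, (p, q)) - f (u, (p, 0))‖ ≤ η := by
  have : CompactSpace (UT E M) := compactSpace_UT
  have hpr : ProperSpace V := FiniteDimensional.proper ℝ V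
  have hK : IsCompact ((univ : Set (UT E M)) ×ˢ Metric.closedBall (0 : V) R) :=
    isCompact_univ.prod (isCompact_closedBall _ _)
  have h1 : ∀ᶠ q in 𝓝 (0 : V'), ∀ x ∈ (univ : Set (UT E M)) ×ˢ Metric.closedBall (0 : V) R,
      ‖f (x.1, (x.2, q)) - f (x.1, (x.2, 0))‖ < η := by
    refine hK.eventually_forall_of_forall_eventually fun x _ => ?_
    have h2 : Continuous fun z : V' × (UT E M × V) =>
        ‖f (z.2.1, (z.2.2, z.1)) - f (z.2.1, (z.2.2, 0))‖ :=
      ((hf.comp (by fun_prop)).sub (hf.comp (by fun_prop))).norm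
    have h3 := h2.continuousAt (x := ((0 : V'), x))
    refine h3.eventually (gt_mem_nhds ?_)
    simpa using hη
  obtain ⟨ρ, hρ, h⟩ := Metric.eventually_nhds_iff.1 h1
  refine ⟨ρ / 2, by positivity, fun u p hp q hq => (h (y := q) ?_ (u, p) ⟨mem_univ _, ?_⟩).le⟩
  · rw [dist_zero_right]
    linarith
  · rwa [mem_closedBall_zero_iff]

end

end Vale.Agent.P231.S3N
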