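import Vale.Agent.P231.S3N.Pt
import Vale.Agent.P231.S3R.Stage
import Vale.Agent.P231.Co.On
import Vale.Agent.P231.WF.UecUT

/-!
# P231, stage 3, block N: the energy of the loops of a smooth family, smoothness and invariance
-/

set_option maxSynthPendingDepth 3
set_option linter.unusedSectionVars false
set_option linter.unusedVariables false

open Bundle Manifold Set Filter Module MeasureTheory
open scoped ContDiff Manifold Topology ENNReal

namespace Vale.Agent.P231.S3N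

noncomputable section

open Vale.Agent.P234 Vale.Agent.P231 Vale.Agent.P231.Fm Vale.Agent.P231.W Vale.Agent.P231.H775
open Vale.Agent.P231.X3 Vale.Agent.P231.H997 Vale.Agent.P231.WR Vale.Agent.P231.S2N
open Vale.Agent.P231.H766

variable {E : Type*} [NormedAddCommGroup E] [NormedSpace ℝ E] [FiniteDimensional ℝ E]
  {M : Type*} [MetricSpace M] [ChartedSpace E M] [IsManifold 𝓘(ℝ, E) ∞ M]
  [RiemannianBundle (fun x : M => TangentSpace 𝓘(ℝ, E) x)]
  [IsContMDiffRiemannianBundle 𝓘(ℝ, E) ∞ E (fun x : M => TangentSpace 𝓘(ℝ, E) x)]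

variable {X : Type*} {DX : Dif X} {A : CAct DX} {C : X → M}

variable (E) in
/-- the energy of the loop of `b` -/
def E1 (A : CAct DX) (C : X → M) (b : X) : ℝ :=
  ∫ t in (0 : ℝ)..1, nm (C (A.φ b t)) (WC.vl (fun s => C (A.φ b s)) t : E) ^ 2

variable (E) in
/-- the squared speed of the loop of `b` -/
def spd (A : CAct DX) (C : X → M) (b : X) (t : ℝ) : ℝ :=
  nm (C (A.φ b t)) (WC.vl (fun s => C (A.φ b s)) t : E) ^ 2

theorem map_spd {V : Type*} [NormedAddCommGroup V] [NormedSpace ℝ V] {G : X × V → M}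
    (hG : (DX.prod (Dif.lin V)).Map (dM E M) G) :
    ((DX.prod (Dif.lin V)).prod (Dif.lin ℝ)).Map (Dif.lin ℝ)
      (fun q => spd E A (fun b => G (b, q.1.2)) q.1.1 q.2) := by
  intro W _ _ _ u x hu
  have h1 : ∀ᶠ y in 𝓝 x, DX.At (fun y => (u y).1.1) y := DX.open' hu.1.1
  have h2 : ∀ᶠ y in 𝓝 x, Sm (fun y => (u y).1.2) y :=
    (show Sm (fun y => (u y).1.2) x from hu.1.2).eventually
  have h3 : ∀ᶠ y in 𝓝 x, Sm (fun y => (u y).2) y := (show Sm (fun y => (u y).2) x from hu.2).eventually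
  have key : ∀ᶠ y in 𝓝 x, ContDiffAt ℝ ∞
      (fun y => spd E A (fun b => G (b, (u y).1.2)) (u y).1.1 (u y).2) y := by
    filter_upwards [h1, h2, h3] with y k1 k2 k3
    have a1 : DX.At (fun p : W × ℝ => A.φ (u p.1).1.1 p.2) (y, (u y).2) :=
      A.at_phi (DX.comp (u := fun y => (u y).1.1) (g := Prod.fst) (x := ((y, (u y).2) : W × ℝ)) k1
        (Sm.of_contDiff contDiff_fst _)) (Sm.of_contDiff contDiff_snd _)
    have a2 : Sm (fun p : W × ℝ => (u p.1).1.2) (y, (u y).2) :=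
      Sm.comp (f := fun y => (u y).1.2) (g := fun p : W × ℝ => p.1) k2
        (Sm.of_contDiff contDiff_fst _)
    have a3 : (dM E M).At (fun p : W × ℝ => G (A.φ (u p.1).1.1 p.2, (u p.1).1.2)) (y, (u y).2) :=
      hG (u := fun p : W × ℝ => (A.φ (u p.1).1.1 p.2, (u p.1).1.2)) ⟨a1, a2⟩
    have a4 : ContMDiffAt 𝓘(ℝ, W × ℝ) 𝓘(ℝ, E) ∞
        (fun p : W × ℝ => G (A.φ (u p.1).1.1 p.2, (u p.1).1.2)) (y, (u y).2) :=
      Filter.Eventually.self_of_nhds (show ∀ᶠ z in 𝓝 (y, (u y).2), ContMDiffAt 𝓘(ℝ, W × ℝ) 𝓘(ℝ, E) ∞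
        (fun p : W × ℝ => G (A.φ (u p.1).1.1 p.2, (u p.1).1.2)) z from a3)
    have a5 := SmV_dv (E := E) (H := fun y s => G (A.φ (u y).1.1 s, (u y).1.2)) (s := y)
      (τ := fun y => (u y).2) a4 k3.contDiffAt
    exact a5.norm_sq
  exact key

theorem map_E1 {V : Type*} [NormedAddCommGroup V] [NormedSpace ℝ V] {G : X × V → M}
    (hG : (DX.prod (Dif.lin V)).Map (dM E M) G) :
    (DX.prod (Dif.lin V)).Map (Dif.lin ℝ) (fun p => E1 E A (fun b => G (b, p.2)) p.1) :=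
  H766.map_integral (map_spd (A := A) hG) 1

theorem map_E1' (hC : DX.Map (dM E M) C) : DX.Map (Dif.lin ℝ) (E1 E A C) := by
  have h0 : (DX.prod (Dif.lin ℝ)).Map (dM E M) (fun p : X × ℝ => C p.1) := by
    intro W _ _ _ u x h
    exact hC h.1
  have h1 : (DX.prod (Dif.lin ℝ)).Map (Dif.lin ℝ) (fun p => E1 E A (fun b => C b) p.1) :=
    map_E1 (A := A) (G := fun p : X × ℝ => C p.1) h0
  intro W _ _ _ u x h
  have h2 : (DX.prod (Dif.lin ℝ)).At (fun y : W => (u y, (0 : ℝ))) x :=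
    ⟨h, Sm.of_contDiff contDiff_const x⟩
  have h3 : (Dif.lin ℝ).At ((fun p : X × ℝ => E1 E A (fun b => C b) p.1) ∘
    fun y : W => (u y, (0 : ℝ))) x := h1 h2
  exact h3

/-- the loop of a point is smooth -/
theorem cmd_loop (hC : DX.Map (dM E M) C) {b : X} (hb : DX.At (fun _ : ℝ => b) 0) :
    ContMDiff 𝓘(ℝ, ℝ) 𝓘(ℝ, E) ∞ (fun t => C (A.φ b t)) := fun t => by
  have h1 : (dM E M).At (fun t : ℝ => C (A.φ b t)) t :=
    hC (A.at_phi (Dif.At_const hb t) (Sm.of_contDiff contDiff_id _))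
  exact Filter.Eventually.self_of_nhds (show ∀ᶠ z in 𝓝 t, ContMDiffAt 𝓘(ℝ, ℝ) 𝓘(ℝ, E) ∞
        (fun t : ℝ => C (A.φ b t)) z from h1)

theorem spd_phi (hC : DX.Map (dM E M) C) {b : X} (hb : DX.At (fun _ : ℝ => b) 0) (s t : ℝ) :
    spd E A C (A.φ b s) t = spd E A C b (s + t) := by
  unfold spd
  have e1 : (fun r => C (A.φ (A.φ b s) r)) = fun r => (fun r => C (A.φ b r)) (s + r) := by
    funext r
    rw [A.add]
  have h2 : (WC.vl (fun r => C (A.φ (A.φ b s) r)) t : E) =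
      WC.vl (fun r => C (A.φ b r)) (s + t) := by
    rw [e1]
    have h3 := H997.dv_comp (E := E) (c := fun r => C (A.φ b r)) (t := t) (g := fun r => s + r)
      (g' := 1) ((cmd_loop hC hb).mdifferentiable (by simp) (s + t))
      (by simpa using (hasDerivAt_id t).const_add s)
    rw [one_smul] at h3
    exact h3
  rw [h2, A.add]

theorem spd_per (hC : DX.Map (dM E M) C) {b : X} (hb : DX.At (fun _ : ℝ => b) 0) (t : ℝ) :
    spd E A C b (t + 1) = spd E A C b t := by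
  have h1 := spd_phi (A := A) hC hb 1 t
  rw [A.per, add_comm] at h1
  exact h1.symm

/-- the energy is invariant -/
theorem E1_phi (hC : DX.Map (dM E M) C) {b : X} (hb : DX.At (fun _ : ℝ => b) 0) (s : ℝ) :
    E1 E A C (A.φ b s) = E1 E A C b := by
  have h0 : Function.Periodic (spd E A C b) 1 := spd_per hC hb
  have h1 : E1 E A C (A.φ b s) = ∫ t in (0 : ℝ)..1, spd E A C b (s + t) := by
    change ∫ t in (0 : ℝ)..1, spd E A C (A.φ b s) t = _
    exact intervalIntegral.integral_congr fun t _ => spd_phi hC hb s t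
  rw [h1, intervalIntegral.integral_comp_add_left (fun t => spd E A C b t) s, add_zero,
    h0.intervalIntegral_add_eq s 0, zero_add]
  rfl

section Geom

variable [CompactSpace M] [ConnectedSpace M] [IsRiemannianManifold 𝓘(ℝ, E) M]

/-- the energy in the parametrisation over `[0, 2 D]` -/
theorem E1_scale {D : ℝ} (hD : 0 < D) (hC : DX.Map (dM E M) C) {b : X}
    (hb : DX.At (fun _ : ℝ => b) 0) :
    ContMDiff 𝓘(ℝ, ℝ) 𝓘(ℝ, E) ∞ (fun t => C (A.φ b (t / (2 * D)))) ∧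
    E1 E A C b = 2 * D * ∫ t in (0 : ℝ)..(2 * D), nm (C (A.φ b (t / (2 * D))))
      (WC.vl (fun s => C (A.φ b (s / (2 * D)))) t : E) ^ 2 := by
  have h2D : (0 : ℝ) < 2 * D := by linarith
  have hc := cmd_loop (A := A) hC hb
  have hdiv : ContMDiff 𝓘(ℝ, ℝ) 𝓘(ℝ, ℝ) ∞ (fun t : ℝ => t / (2 * D)) :=
    (contDiff_id.div_const (2 * D)).contMDiff
  refine ⟨hc.comp hdiv, ?_⟩
  have h1 : ∀ t, nm (C (A.φ b (t / (2 * D)))) (WC.vl (fun s => C (A.φ b (s / (2 * D)))) t : E) ^ 2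
      = (2 * D)⁻¹ ^ 2 * spd E A C b (t / (2 * D)) := by
    intro t
    have h2 := H997.dv_comp (E := E) (c := fun r => C (A.φ b r)) (t := t)
      (g := fun r => r / (2 * D)) (g' := (2 * D)⁻¹) (hc.mdifferentiable (by simp) _)
      (by simpa using (hasDerivAt_id t).div_const (2 * D))
    have h3 : (WC.vl (fun s => C (A.φ b (s / (2 * D)))) t : E) =
        (2 * D)⁻¹ • WC.vl (fun r => C (A.φ b r)) (t / (2 * D)) := h2
    rw [h3]
    have h4 := nm_smul (E := E) (C (A.φ b (t / (2 * D))))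
      (WC.vl (fun r => C (A.φ b r)) (t / (2 * D)) : E) (2 * D)⁻¹
    rw [h4, mul_pow, sq_abs]
    rfl
  have h5 : (∫ t in (0 : ℝ)..(2 * D), nm (C (A.φ b (t / (2 * D))))
      (WC.vl (fun s => C (A.φ b (s / (2 * D)))) t : E) ^ 2) =
      ∫ t in (0 : ℝ)..(2 * D), (2 * D)⁻¹ ^ 2 * spd E A C b (t / (2 * D)) :=
    intervalIntegral.integral_congr fun t _ => h1 t
  rw [h5, intervalIntegral.integral_const_mul,
    intervalIntegral.integral_comp_div (fun t => spd E A C b t) h2D.ne', zero_div,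
    div_self h2D.ne', smul_eq_mul]
  have h6 : E1 E A C b = ∫ t in (0 : ℝ)..1, spd E A C b t := rfl
  rw [h6]
  field_simp

/-- loops of small energy are short -/
theorem var_E1 {D : ℝ} (hD : 0 < D) (hC : DX.Map (dM E M) C) {b : X}
    (hb : DX.At (fun _ : ℝ => b) 0) (h : E1 E A C b < (2 * D) ^ 2) :
    eVariationOn (fun t => C (A.φ b t)) (Icc 0 1) < ENNReal.ofReal (2 * D) := by
  have h2D : (0 : ℝ) < 2 * D := by linarith
  obtain ⟨h1, h2⟩ := E1_scale (A := A) hD hC hb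
  rw [h2, pow_two] at h
  have h3 := lt_of_mul_lt_mul_left h h2D.le
  have h4 := H766.variation_lt h1 hD h3
  have h5 := WF.var_scale (fun t => C (A.φ b (t / (2 * D)))) h2D
  rw [← h5] at h4
  have h6 : (fun t : ℝ => C (A.φ b (2 * D * t / (2 * D)))) = fun t => C (A.φ b t) := by
    funext t
    rw [mul_div_cancel_left₀ _ h2D.ne']
  rwa [h6] at h4

end Geom

end

end Vale.Agent.P231.S3N
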