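import Vale.Agent.P231.S3N.Push
import Vale.Agent.P231.S2N.Var

/-!
# P231, stage 3, block N: strict concavity of the energy along the negative fields
-/

set_option maxSynthPendingDepth 3
set_option linter.unusedSectionVars false
set_option linter.unusedVariables false

open Bundle Manifold Set Filter Module MeasureTheory
open scoped ContDiff Manifold Topology

namespace Vale.Agent.P231.S3N

noncomputable section

open Vale.Agent.P234 Vale.Agent.P231 Vale.Agent.P231.Fm Vale.Agent.P231.W Vale.Agent.P231.H775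
open Vale.Agent.P231.X3 Vale.Agent.P231.H997 Vale.Agent.P231.WR Vale.Agent.P231.S2N
open Vale.Agent.P231.WC (po2 sq2)

attribute [local instance] WF.topUT

variable {E : Type*} [NormedAddCommGroup E] [NormedSpace ℝ E] [FiniteDimensional ℝ E]
  {M : Type*} [MetricSpace M] [ChartedSpace E M] [IsManifold 𝓘(ℝ, E) ∞ M]
  [RiemannianBundle (fun x : M => TangentSpace 𝓘(ℝ, E) x)]
  [IsContMDiffRiemannianBundle 𝓘(ℝ, E) ∞ E (fun x : M => TangentSpace 𝓘(ℝ, E) x)]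
  {e : ∀ x : M, TangentSpace 𝓘(ℝ, E) x → M} {K : ℕ} {ι : Type} [Fintype ι] [DecidableEq ι]
  [CompactSpace M] [ConnectedSpace M] [IsRiemannianManifold 𝓘(ℝ, E) M]

/-- a finite family of fields and a flow-invariant bundle of coefficients on which the second
variation of the energy is negative -/
structure NegF (F : Facts e) (D : ℝ) (Y : ι → UT E M → E)
    (Em : UT E M → Submodule ℝ (EuclideanSpace ℝ ι)) : Prop where
  fld : ∀ j, Fld (Y j)
  inv : ∀ v t, Em (phi F (v, t)) = Em v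
  closed : IsClosed {p : UT E M × EuclideanSpace ℝ ι | p.2 ∈ Em p.1}
  neg : ∀ v, ∀ δ ∈ Em v, δ ≠ 0 →
    deriv (deriv (enZ e D v (fun t => Ya Y (phi F (v, t)) δ))) 0 < 0

/-- the energy of the loop with coordinates `x`, pushed by `a` -/
def EE (F : Facts e) (P : PF E M K) (D : ℝ) (Y : ι → UT E M → E) (v : UT E M) (x : ℝ → CV K)
    (a : EuclideanSpace ℝ ι) : ℝ :=
  ∫ t in (0 : ℝ)..(2 * D), bb e P (phi F (v, t)) (x t + yh P Y (phi F (v, t)) a)
    (1, deriv x t + yh' F P Y (phi F (v, t)) a) (1, deriv x t + yh' F P Y (phi F (v, t)) a)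

/-- the parameters of the loop -/
def par (x : ℝ → CV K) (δ : EuclideanSpace ℝ ι) (t : ℝ) : V4 K ι := ((x t, δ), ((1, deriv x t), (1, deriv x t)))

variable {P : PF E M K} {Y : ι → UT E M → E} {D : ℝ}

theorem EE_ray (F : Facts e) (hY : ∀ j, Fld (Y j)) (v : UT E M) (x : ℝ → CV K) (δ : EuclideanSpace ℝ ι)
    (s : ℝ) : EE F P D Y v x (s • δ) =
      ∫ t in (0 : ℝ)..(2 * D), RR F P Y ((phi F (v, t), par x δ t), s) := by
  unfold EE RR par Lw
  simp only [yh_smul, yh'_smul P F hY, mul_one]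

/-- the Lagrangian of a smooth loop is smooth -/
theorem contDiff_RR2 (F : Facts e) (hY : ∀ j, Fld (Y j)) (v : UT E M) {x : ℝ → CV K}
    (hx : ContDiff ℝ ∞ x) (δ : EuclideanSpace ℝ ι) :
    ContDiff ℝ ∞ (fun p : ℝ × ℝ => RR F P Y ((phi F (v, p.2), par x δ p.2), p.1)) := by
  refine contDiff_iff_contDiffAt.2 fun p => ?_
  have h1 : (dUT E M).At (fun p : ℝ × ℝ => phi F (v, p.2)) p :=
    map_phi F (u := fun p : ℝ × ℝ => (v, p.2)) ⟨at_constUT v p, Sm.of_contDiff contDiff_snd _⟩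
  have hx' : ContDiff ℝ ∞ (deriv x) := (contDiff_infty_iff_deriv.1 hx).2
  have h2 : ContDiff ℝ ∞ (fun p : ℝ × ℝ => par x δ p.2) := by
    unfold par
    exact (((hx.comp contDiff_snd).prodMk contDiff_const).prodMk
      ((contDiff_const.prodMk (hx'.comp contDiff_snd)).prodMk
        (contDiff_const.prodMk (hx'.comp contDiff_snd))))
  have h3 : Sm (fun p : ℝ × ℝ => RR F P Y ((phi F (v, p.2), par x δ p.2), p.1)) p :=
    map_RR P F hY (u := fun p : ℝ × ℝ => ((phi F (v, p.2), par x δ p.2), p.1))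
      ⟨⟨h1, Sm.of_contDiff h2 _⟩, Sm.of_contDiff contDiff_fst _⟩
  exact h3.contDiffAt

theorem contDiff_EE_ray (F : Facts e) (hY : ∀ j, Fld (Y j)) (v : UT E M) {x : ℝ → CV K}
    (hx : ContDiff ℝ ∞ x) (δ : EuclideanSpace ℝ ι) : ContDiff ℝ ∞ (fun s : ℝ => EE F P D Y v x (s • δ)) := by
  have h0 := contDiff_RR2 (P := P) F hY v hx δ
  have h1 : ((Dif.lin ℝ).prod (Dif.lin ℝ)).Map (Dif.lin ℝ)
      (fun p : ℝ × ℝ => RR F P Y ((phi F (v, p.2), par x δ p.2), p.1)) := by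
    intro E' _ _ _ u x' hu
    exact Sm.comp (f := fun p : ℝ × ℝ => RR F P Y ((phi F (v, p.2), par x δ p.2), p.1)) (g := u)
      (Sm.of_contDiff h0 _) (Sm.prodMk hu.1 hu.2)
  have h2 : (Dif.lin ℝ).Map (Dif.lin ℝ) (fun s : ℝ => ∫ t in (0 : ℝ)..(2 * D),
      (fun p : ℝ × ℝ => RR F P Y ((phi F (v, p.2), par x δ p.2), p.1)) (s, t)) :=
    H766.map_integral h1 (2 * D)
  have h3 : (fun s : ℝ => EE F P D Y v x (s • δ)) = fun s : ℝ => ∫ t in (0 : ℝ)..(2 * D),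
      (fun p : ℝ × ℝ => RR F P Y ((phi F (v, p.2), par x δ p.2), p.1)) (s, t) := by
    funext s
    exact EE_ray F hY v x δ s
  rw [h3]
  refine contDiff_iff_contDiffAt.2 fun t => ?_
  have h4 := h2 (u := fun x : ℝ => x) (Sm.of_contDiff contDiff_id t)
  exact (show Sm _ t from h4).contDiffAt

theorem deriv2_EE (F : Facts e) (hY : ∀ j, Fld (Y j)) (v : UT E M) {x : ℝ → CV K}
    (hx : ContDiff ℝ ∞ x) (δ : EuclideanSpace ℝ ι) (s : ℝ) :
    deriv (deriv (fun s : ℝ => EE F P D Y v x (s • δ))) s =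
      ∫ t in (0 : ℝ)..(2 * D), HH F P Y ((phi F (v, t), par x δ t), s) := by
  have h0 := contDiff_RR2 (P := P) F hY v hx δ
  have h3 : (fun s : ℝ => EE F P D Y v x (s • δ)) = fun s : ℝ => ∫ t in (0 : ℝ)..(2 * D),
      (fun p : ℝ × ℝ => RR F P Y ((phi F (v, p.2), par x δ p.2), p.1)) (s, t) := by
    funext s
    exact EE_ray F hY v x δ s
  rw [h3, S2N.deriv_int_d1 h0 0 (2 * D), S2N.deriv_int_d1 (S2N.contDiff_d1' h0) 0 (2 * D)]
  refine intervalIntegral.integral_congr fun t _ => ?_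
  have h4 : ∀ s, WC.d1 (fun p : ℝ × ℝ => RR F P Y ((phi F (v, p.2), par x δ p.2), p.1)) (s, t) =
      deriv (fun r => RR F P Y ((phi F (v, t), par x δ t), r)) s := fun s =>
    (S2N.deriv_d1 h0 s t).symm
  have h5 := S2N.deriv_d1 (S2N.contDiff_d1' h0) s t
  rw [← h5]
  simp only [h4]
  rfl

theorem cont_HH (F : Facts e) (hY : ∀ j, Fld (Y j)) : Continuous (fun q : UT E M × (V4 K ι × ℝ) =>
    HH F P Y ((q.1, q.2.1), q.2.2)) := by
  refine cont_UT (V := V4 K ι × ℝ) (W := ℝ) ?_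
  intro V _ _ _ u x h
  have hq : Sm (fun y => (u y).2) x := h.2
  have h1 : Sm (fun y => (u y).2.1) x := Sm.comp (f := fun r : V4 K ι × ℝ => r.1)
    (Sm.of_contDiff (by fun_prop) _) hq
  have h2 : Sm (fun y => (u y).2.2) x := Sm.comp (f := fun r : V4 K ι × ℝ => r.2)
    (Sm.of_contDiff (by fun_prop) _) hq
  exact map_HH P F hY (u := fun y => (((u y).1, (u y).2.1), (u y).2.2)) ⟨⟨h.1, h1⟩, h2⟩

/-- a bound for the second derivative of the Lagrangian -/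
theorem HH_bound (F : Facts e) (hY : ∀ j, Fld (Y j)) (P : PF E M K) : ∃ C, 0 ≤ C ∧
    ∀ (u : UT E M) (x : CV K) (δ : EuclideanSpace ℝ ι) (s : ℝ), ‖x‖ ≤ 1 → ‖δ‖ ≤ 1 → |s| ≤ 1 →
      ∀ w w' : ℝ × CV K, |HH F P Y ((u, ((x, δ), (w, w'))), s)| ≤ C * ‖w‖ * ‖w'‖ := by
  obtain ⟨C, hC, h⟩ := bdd_UT (V := V4 K ι × ℝ) (cont_HH (P := P) F hY) 1
  refine ⟨C, hC, fun u x δ s hx hδ hs w w' => ?_⟩
  have key : ∀ w w' : ℝ × CV K, ‖w‖ ≤ 1 → ‖w'‖ ≤ 1 →
      |HH F P Y ((u, ((x, δ), (w, w'))), s)| ≤ C := by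
    intro w w' hw hw'
    have h1 := h u (((x, δ), (w, w')), s) (by
      simp only [Prod.norm_def, sup_le_iff]
      exact ⟨⟨⟨hx, hδ⟩, ⟨(norm_fst_le w).trans hw, (norm_snd_le w).trans hw⟩,
        ⟨(norm_fst_le w').trans hw', (norm_snd_le w').trans hw'⟩⟩, hs⟩)
    exact h1
  by_cases h0 : w = 0
  · subst h0
    have h1 := HH_smul (P := P) F hY u x δ s 0 0 w'
    rw [zero_smul, zero_mul] at h1
    rw [h1, norm_zero, mul_zero, zero_mul, abs_zero]
  by_cases h0' : w' = 0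
  · subst h0'
    have h1 := HH_smul (P := P) F hY u x δ s 0 0 w
    rw [zero_smul, zero_mul] at h1
    rw [HH_comm, h1, norm_zero, mul_zero, abs_zero]
  have hw : 0 < ‖w‖ := norm_pos_iff.2 h0
  have hw' : 0 < ‖w'‖ := norm_pos_iff.2 h0'
  have e1 : w = ‖w‖ • (‖w‖⁻¹ • w) := by rw [smul_smul, mul_inv_cancel₀ hw.ne', one_smul]
  have e2 : w' = ‖w'‖ • (‖w'‖⁻¹ • w') := by rw [smul_smul, mul_inv_cancel₀ hw'.ne', one_smul]
  have e3 : HH F P Y ((u, ((x, δ), (w, w'))), s) =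
      ‖w‖ * (‖w'‖ * HH F P Y ((u, ((x, δ), (‖w‖⁻¹ • w, ‖w'‖⁻¹ • w'))), s)) := by
    conv_lhs => rw [e1, HH_smul F hY, HH_comm, e2, HH_smul F hY, HH_comm]
  rw [e3, abs_mul, abs_mul, abs_of_pos hw, abs_of_pos hw']
  have e4 : ∀ z : ℝ × CV K, z ≠ 0 → ‖‖z‖⁻¹ • z‖ ≤ 1 := fun z hz => by
    rw [norm_smul, norm_inv, norm_norm, inv_mul_cancel₀ (norm_ne_zero_iff.2 hz)]
  have e5 := key _ _ (e4 w h0) (e4 w' h0')
  calc ‖w‖ * (‖w'‖ * |HH F P Y ((u, ((x, δ), (‖w‖⁻¹ • w, ‖w'‖⁻¹ • w'))), s)|) ≤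
      ‖w‖ * (‖w'‖ * C) := by gcongr
    _ = C * ‖w‖ * ‖w'‖ := by ring

/-- the second derivative of the Lagrangian near the geodesics -/
theorem HH_unif (F : Facts e) (hY : ∀ j, Fld (Y j)) (P : PF E M K) {η : ℝ} (hη : 0 < η) :
    ∃ ρ, 0 < ρ ∧ ∀ (u : UT E M) (x : CV K) (δ : EuclideanSpace ℝ ι) (s : ℝ), ‖x‖ ≤ ρ → ‖δ‖ ≤ 1 → |s| ≤ ρ →
      |HH F P Y ((u, ((x, δ), (((1 : ℝ), (0 : CV K)), ((1 : ℝ), (0 : CV K))))), s) -
        HH F P Y ((u, ((0, δ), (((1 : ℝ), (0 : CV K)), ((1 : ℝ), (0 : CV K))))), 0)| ≤ η := by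
  have hc : Continuous (fun q : UT E M × (EuclideanSpace ℝ ι × (CV K × ℝ)) =>
      HH F P Y ((q.1, ((q.2.2.1, q.2.1), (((1 : ℝ), (0 : CV K)), ((1 : ℝ), (0 : CV K))))),
        q.2.2.2)) :=
    (cont_HH (P := P) F hY).comp (f := fun q : UT E M × (EuclideanSpace ℝ ι × (CV K × ℝ)) =>
      (q.1, (((q.2.2.1, q.2.1), (((1 : ℝ), (0 : CV K)), ((1 : ℝ), (0 : CV K)))), q.2.2.2)))
      (by fun_prop)
  obtain ⟨ρ, hρ, h⟩ := unif_UT (V := EuclideanSpace ℝ ι) (V' := CV K × ℝ) hc 1 hη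
  refine ⟨ρ, hρ, fun u x δ s hx hδ hs => ?_⟩
  have h1 := h u δ hδ (x, s) (by
    simp only [Prod.norm_def, sup_le_iff]
    exact ⟨hx, hs⟩)
  exact h1

/-- the second variation at the geodesic, as an integral -/
def q2 (F : Facts e) (P : PF E M K) (D : ℝ) (Y : ι → UT E M → E) (p : UT E M × EuclideanSpace ℝ ι) : ℝ :=
  ∫ t in (0 : ℝ)..(2 * D), HH F P Y ((phi F (p.1, t), par (fun _ => 0) p.2 t), 0)

theorem par_zero (δ : EuclideanSpace ℝ ι) (t : ℝ) : par (K := K) (fun _ => 0) δ t =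
    ((0, δ), (((1 : ℝ), (0 : CV K)), ((1 : ℝ), (0 : CV K)))) := by
  unfold par
  simp

theorem map_q2 (F : Facts e) (hY : ∀ j, Fld (Y j)) (P : PF E M K) :
    ((dUT E M).prod (Dif.lin (EuclideanSpace ℝ ι))).Map (Dif.lin ℝ) (q2 F P D Y) := by
  have h1 : (((dUT E M).prod (Dif.lin (EuclideanSpace ℝ ι))).prod (Dif.lin ℝ)).Map (Dif.lin ℝ)
      (fun q => HH F P Y ((phi F (q.1.1, q.2),
        ((0, q.1.2), (((1 : ℝ), (0 : CV K)), ((1 : ℝ), (0 : CV K))))), 0)) := by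
    intro V _ _ _ u x h
    have e1 : (dUT E M).At (fun y => phi F ((u y).1.1, (u y).2)) x :=
      map_phi F (u := fun y => ((u y).1.1, (u y).2)) ⟨h.1.1, h.2⟩
    have e2 : Sm (fun y => (u y).1.2) x := h.1.2
    have e3 : Sm (fun y => ((((0 : CV K), (u y).1.2),
        (((1 : ℝ), (0 : CV K)), ((1 : ℝ), (0 : CV K)))) : V4 K ι)) x :=
      Sm.comp (f := fun δ : EuclideanSpace ℝ ι => ((((0 : CV K), δ),
        (((1 : ℝ), (0 : CV K)), ((1 : ℝ), (0 : CV K)))) : V4 K ι))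
        (Sm.of_contDiff (by fun_prop) _) e2
    exact map_HH P F hY (u := fun y => ((phi F ((u y).1.1, (u y).2), ((((0 : CV K), (u y).1.2),
        (((1 : ℝ), (0 : CV K)), ((1 : ℝ), (0 : CV K)))) : V4 K ι)), (0 : ℝ)))
        ⟨⟨e1, e3⟩, Sm.of_contDiff contDiff_const _⟩
  have h2 : ((dUT E M).prod (Dif.lin (EuclideanSpace ℝ ι))).Map (Dif.lin ℝ)
      (fun p : UT E M × EuclideanSpace ℝ ι => ∫ t in (0 : ℝ)..(2 * D), (fun q : (UT E M × EuclideanSpace ℝ ι) × ℝ =>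
        HH F P Y ((phi F (q.1.1, q.2),
          ((0, q.1.2), (((1 : ℝ), (0 : CV K)), ((1 : ℝ), (0 : CV K))))), 0)) (p, t)) :=
    H766.map_integral h1 (2 * D)
  have h3 : q2 F P D Y = fun p : UT E M × EuclideanSpace ℝ ι => ∫ t in (0 : ℝ)..(2 * D),
      HH F P Y ((phi F (p.1, t), ((0, p.2), (((1 : ℝ), (0 : CV K)), ((1 : ℝ), (0 : CV K))))), 0) := by
    funext p
    unfold q2
    simp only [par_zero]
  rw [h3]
  exact fun {V} _ _ _ {u x} h => h2 h

/-- the energy in coordinates is the energy of the push-off -/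
theorem EE_zero_eq (F : Facts e) (hY : ∀ j, Fld (Y j)) (P : PF E M K) (v : UT E M) (δ : EuclideanSpace ℝ ι) :
    (fun s : ℝ => EE F P D Y v (fun _ => 0) (s • δ)) =
      enZ e D v (fun t => Ya Y (phi F (v, t)) δ) := by
  funext s
  unfold EE enZ
  refine intervalIntegral.integral_congr fun t _ => ?_
  set c : ℝ → M := fun t => Ps e P v (t, yh P Y (phi F (v, t)) (s • δ)) with hc
  have h1 := speed_Ps P F v (z := fun t => yh P Y (phi F (v, t)) (s • δ)) (t := t)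
    (hasDerivAt_yh P F hY v (s • δ) t)
  have h2 : (fun t : ℝ => po2 e v (fun t => Ya Y (phi F (v, t)) δ) (s, t)) =
      fun t => Ps e P v (t, yh P Y (phi F (v, t)) (s • δ)) := by
    funext t
    unfold Ps po2
    have h3 : sec P (gm e (v, t)) (yh P Y (phi F (v, t)) (s • δ)) = s • Ya Y (phi F (v, t)) δ := by
      have h4 := sec_yh P Y (phi F (v, t)) (s • δ)
      rw [Ya_smul] at h4
      exact h4
    rw [h3]
  have h5 : sq2 (E := E) (po2 e v (fun t => Ya Y (phi F (v, t)) δ)) (s, t) =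
      nm (Ps e P v (t, yh P Y (phi F (v, t)) (s • δ)))
        (WC.vl (fun t => Ps e P v (t, yh P Y (phi F (v, t)) (s • δ))) t : E) ^ 2 := by
    unfold sq2
    rw [h2]
    rw [congrFun h2 t]
  rw [h5, h1]
  simp only [deriv_const', zero_add]

/-- uniform negativity of the second variation -/
theorem NegF.unif {F : Facts e} {Em : UT E M → Submodule ℝ (EuclideanSpace ℝ ι)} (h : NegF F D Y Em)
    (P : PF E M K) : ∃ c, 0 < c ∧ ∀ v, ∀ δ ∈ Em v, ‖δ‖ = 1 → q2 F P D Y (v, δ) ≤ -c := by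
  have : CompactSpace (UT E M) := WF.compactSpace_UT
  have hneg : ∀ v, ∀ δ ∈ Em v, ‖δ‖ = 1 → q2 F P D Y (v, δ) < 0 := by
    intro v δ hδ hδ1
    have h0 : δ ≠ 0 := fun h0 => by rw [h0, norm_zero] at hδ1; exact zero_ne_one hδ1
    have h1 := h.neg v δ hδ h0
    rw [← EE_zero_eq F h.fld P v δ, deriv2_EE F h.fld v contDiff_const δ 0] at h1
    exact h1
  have hc : Continuous (q2 F P D Y) := cont_UT (map_q2 F h.fld P)
  have hK : IsCompact {p : UT E M × EuclideanSpace ℝ ι | p.2 ∈ Em p.1 ∧ ‖p.2‖ = 1} := by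
    have h1 : IsCompact ((univ : Set (UT E M)) ×ˢ Metric.closedBall (0 : EuclideanSpace ℝ ι) 1) :=
      isCompact_univ.prod (isCompact_closedBall _ _)
    refine h1.of_isClosed_subset ?_ ?_
    · exact h.closed.inter (isClosed_eq continuous_snd.norm continuous_const)
    · rintro p ⟨-, hp⟩
      exact ⟨mem_univ _, by rw [mem_closedBall_zero_iff]; exact hp.le⟩
  rcases (({p : UT E M × EuclideanSpace ℝ ι | p.2 ∈ Em p.1 ∧ ‖p.2‖ = 1}).eq_empty_or_nonempty) with h2 | h2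
  · refine ⟨1, one_pos, fun v δ hδ hδ1 => ?_⟩
    have h3 : (v, δ) ∈ ({p : UT E M × EuclideanSpace ℝ ι | p.2 ∈ Em p.1 ∧ ‖p.2‖ = 1}) := ⟨hδ, hδ1⟩
    rw [h2] at h3
    exact absurd h3 (notMem_empty _)
  · obtain ⟨p, hp, hmax⟩ := hK.exists_isMaxOn h2 hc.continuousOn
    refine ⟨-q2 F P D Y p, neg_pos.2 (hneg p.1 p.2 hp.1 hp.2), fun v δ hδ hδ1 => ?_⟩
    rw [neg_neg]
    exact hmax (show (v, δ) ∈ ({p : UT E M × EuclideanSpace ℝ ι | p.2 ∈ Em p.1 ∧ ‖p.2‖ = 1}) from ⟨hδ, hδ1⟩)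

theorem cont_flow (F : Facts e) (v : UT E M) : Continuous fun t : ℝ => phi F (v, t) := by
  have h1 : (Dif.lin ℝ).Map (dUT E M) (fun t : ℝ => phi F (v, t)) := fun {E'} _ _ _ {u x} hu =>
    map_phi F (u := fun y => (v, u y)) ⟨at_constUT v x, hu⟩
  exact (WF.locSec_lin ℝ).continuous (D' := dUT E M) (WF.plotsCont_dUT E M) h1

/-- **strict concavity of the energy along the negative fields**, for all loops close to the closed
geodesics -/
theorem NegF.concave {F : Facts e} {Em : UT E M → Submodule ℝ (EuclideanSpace ℝ ι)} (h : NegF F D Y Em)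
    (hD : 0 < D) (P : PF E M K) : ∃ c, 0 < c ∧ ∃ ρ, 0 < ρ ∧ ρ ≤ 1 ∧ ∀ (v : UT E M)
      (x : ℝ → CV K), ContDiff ℝ ∞ x → (∀ t, ‖x t‖ ≤ ρ) →
      (∫ t in (0 : ℝ)..(2 * D), ‖deriv x t‖ ^ 2) ≤ ρ → ∀ δ ∈ Em v, ‖δ‖ = 1 → ∀ s, |s| ≤ ρ →
      deriv (deriv (fun s : ℝ => EE F P D Y v x (s • δ))) s ≤ -c := by
  obtain ⟨c, hc, hneg⟩ := h.unif P
  obtain ⟨C, hC, hb⟩ := HH_bound F h.fld P
  set η : ℝ := c / (8 * D) with hη
  have hη0 : 0 < η := by positivity
  obtain ⟨ρ₁, hρ₁, hu⟩ := HH_unif F h.fld P hη0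
  -- 2 C |ξ| ≤ η + (C²/η) |ξ|²
  set C' : ℝ := C ^ 2 / η + C with hC'
  have hC'0 : 0 ≤ C' := by positivity
  refine ⟨c / 4, by positivity, min (min ρ₁ 1) (c / (4 * (C' + 1))), lt_min (lt_min hρ₁ one_pos)
    (by positivity), (min_le_left _ _).trans (min_le_right _ _),
    fun v x hx hxρ hint δ hδ hδ1 s hs => ?_⟩
  rw [deriv2_EE F h.fld v hx δ s]
  have hρ1 : min (min ρ₁ 1) (c / (4 * (C' + 1))) ≤ ρ₁ := (min_le_left _ _).trans (min_le_left _ _)
  have hρ2 : min (min ρ₁ 1) (c / (4 * (C' + 1))) ≤ 1 := (min_le_left _ _).trans (min_le_right _ _)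
  have hρ3 : min (min ρ₁ 1) (c / (4 * (C' + 1))) ≤ c / (4 * (C' + 1)) := min_le_right _ _
  have hpt : ∀ t, HH F P Y ((phi F (v, t), par x δ t), s) ≤
      HH F P Y ((phi F (v, t), par (fun _ => 0) δ t), 0) + 2 * η + C' * ‖deriv x t‖ ^ 2 := by
    intro t
    set ξ := deriv x t with hξ
    have e0 : ((1 : ℝ), ξ) = ((1 : ℝ), (0 : CV K)) + ((0 : ℝ), ξ) := by simp
    have e1 : HH F P Y ((phi F (v, t), par x δ t), s) =
        HH F P Y ((phi F (v, t), ((x t, δ), (((1 : ℝ), (0 : CV K)), ((1 : ℝ), (0 : CV K))))), s) +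
        2 * HH F P Y ((phi F (v, t), ((x t, δ), (((0 : ℝ), ξ), ((1 : ℝ), (0 : CV K))))), s) +
        HH F P Y ((phi F (v, t), ((x t, δ), (((0 : ℝ), ξ), ((0 : ℝ), ξ)))), s) := by
      unfold par
      rw [← hξ]
      conv_lhs => rw [e0]
      rw [HH_add F h.fld, HH_comm F _ _ _ _ ((1 : ℝ), (0 : CV K)), HH_add F h.fld,
        HH_comm F _ _ _ _ ((0 : ℝ), ξ) (((1 : ℝ), (0 : CV K)) + ((0 : ℝ), ξ)), HH_add F h.fld,
        HH_comm F _ _ _ _ ((1 : ℝ), (0 : CV K)) ((0 : ℝ), ξ)]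
      ring
    have e2 := hu (phi F (v, t)) (x t) δ s ((hxρ t).trans hρ1) hδ1.le (hs.trans hρ1)
    have e3 := hb (phi F (v, t)) (x t) δ s ((hxρ t).trans hρ2) hδ1.le (hs.trans hρ2)
      ((0 : ℝ), ξ) ((1 : ℝ), (0 : CV K))
    have e4 := hb (phi F (v, t)) (x t) δ s ((hxρ t).trans hρ2) hδ1.le (hs.trans hρ2)
      ((0 : ℝ), ξ) ((0 : ℝ), ξ)
    have n1 : ‖((0 : ℝ), ξ)‖ = ‖ξ‖ := by simp [Prod.norm_def]
    have n2 : ‖((1 : ℝ), (0 : CV K))‖ = 1 := by simp [Prod.norm_def]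
    rw [n1, n2, mul_one] at e3
    rw [n1] at e4
    rw [e1, par_zero]
    have e2' := (abs_le.1 e2).2
    have e3' := (abs_le.1 e3).2
    have e4' := (abs_le.1 e4).2
    have e5 : 2 * (C * ‖ξ‖) ≤ η + C ^ 2 / η * ‖ξ‖ ^ 2 := by
      have k : 0 ≤ (η - C * ‖ξ‖) ^ 2 / η := by positivity
      have k2 : (η - C * ‖ξ‖) ^ 2 / η = η + C ^ 2 / η * ‖ξ‖ ^ 2 - 2 * (C * ‖ξ‖) := by
        field_simp
        ring
      linarith
    rw [hC', add_mul]
    nlinarith
  have hxd : Continuous (deriv x) := ((contDiff_infty_iff_deriv.1 hx).2).continuous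
  have ci1 : Continuous fun t => HH F P Y ((phi F (v, t), par x δ t), s) := by
    have h0 : Continuous fun t : ℝ => phi F (v, t) := cont_flow F v
    refine (cont_HH (P := P) F h.fld).comp (f := fun t : ℝ => (phi F (v, t), (par x δ t, s)))
      (h0.prodMk ((Continuous.prodMk ?_ continuous_const)))
    unfold par
    exact ((hx.continuous.prodMk continuous_const).prodMk
      ((continuous_const.prodMk hxd).prodMk (continuous_const.prodMk hxd)))
  have ci2 : Continuous fun t => HH F P Y ((phi F (v, t), par (fun _ => 0) δ t), 0) := by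
    have h0 : Continuous fun t : ℝ => phi F (v, t) := cont_flow F v
    simp only [par_zero]
    exact (cont_HH (P := P) F h.fld).comp (f := fun t : ℝ => (phi F (v, t),
      (((((0 : CV K), δ), (((1 : ℝ), (0 : CV K)), ((1 : ℝ), (0 : CV K)))) : V4 K ι), (0 : ℝ))))
      (h0.prodMk continuous_const)
  have ci3 : Continuous fun t => ‖deriv x t‖ ^ 2 := hxd.norm.pow 2
  have h2D : (0 : ℝ) ≤ 2 * D := by linarith
  have hmono : ∫ t in (0 : ℝ)..(2 * D), HH F P Y ((phi F (v, t), par x δ t), s) ≤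
      ∫ t in (0 : ℝ)..(2 * D), (HH F P Y ((phi F (v, t), par (fun _ => 0) δ t), 0) + 2 * η +
        C' * ‖deriv x t‖ ^ 2) :=
    intervalIntegral.integral_mono h2D (ci1.intervalIntegrable _ _)
      (((ci2.add continuous_const).add (ci3.const_mul _)).intervalIntegrable _ _) hpt
  have hsplit : ∫ t in (0 : ℝ)..(2 * D), (HH F P Y ((phi F (v, t), par (fun _ => 0) δ t), 0) +
      2 * η + C' * ‖deriv x t‖ ^ 2) =
      (∫ t in (0 : ℝ)..(2 * D), HH F P Y ((phi F (v, t), par (fun _ => 0) δ t), 0)) +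
        (2 * D - 0) • (2 * η) + C' * ∫ t in (0 : ℝ)..(2 * D), ‖deriv x t‖ ^ 2 := by
    rw [intervalIntegral.integral_add (f := fun t => HH F P Y ((phi F (v, t),
        par (fun _ => 0) δ t), 0) + 2 * η) (g := fun t => C' * ‖deriv x t‖ ^ 2)
        ((ci2.add continuous_const).intervalIntegrable _ _)
        ((ci3.const_mul _).intervalIntegrable _ _),
      intervalIntegral.integral_add (f := fun t => HH F P Y ((phi F (v, t),
        par (fun _ => 0) δ t), 0)) (g := fun _ => 2 * η) (ci2.intervalIntegrable _ _)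
        (continuous_const.intervalIntegrable _ _), intervalIntegral.integral_const,
      intervalIntegral.integral_const_mul]
  rw [hsplit] at hmono
  have hq : ∫ t in (0 : ℝ)..(2 * D), HH F P Y ((phi F (v, t), par (fun _ => 0) δ t), 0) ≤ -c :=
    hneg v δ hδ hδ1
  have hlast : C' * ∫ t in (0 : ℝ)..(2 * D), ‖deriv x t‖ ^ 2 ≤ c / 4 := by
    calc C' * ∫ t in (0 : ℝ)..(2 * D), ‖deriv x t‖ ^ 2 ≤ C' * (c / (4 * (C' + 1))) := by
          gcongr
          exact hint.trans hρ3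
      _ ≤ (C' + 1) * (c / (4 * (C' + 1))) := by
          gcongr
          linarith
      _ = c / 4 := by
          field_simp
  have hη2 : (2 * D - 0) • (2 * η) = c / 2 := by
    rw [hη, smul_eq_mul]
    field_simp
    ring
  rw [hη2] at hmono
  linarith

end

end Vale.Agent.P231.S3N
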