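import Vale.Agent.P231.S3N.E1

/-!
# P231, stage 3, block N: coordinates for a family of loops close to closed geodesics, and the
negative gradient of the energy in the negative directions
-/

set_option maxSynthPendingDepth 3
set_option linter.unusedSectionVars false
set_option linter.unusedVariables false

open Bundle Manifold Set Filter Module MeasureTheory
open scoped ContDiff Manifold Topology ENNReal

namespace Vale.Agent.P231.S3N

noncomputable section

open Vale.Agent.P234 Vale.Agent.P231 Vale.Agent.P231.Fm Vale.Agent.P231.W Vale.Agent.P231.H775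
open Vale.Agent.P231.X3 Vale.Agent.P231.H997 Vale.Agent.P231.WR Vale.Agent.P231.S2N
open Vale.Agent.P231.H766 Vale.Agent.P231.WD3

variable {E : Type*} [NormedAddCommGroup E] [NormedSpace ℝ E] [FiniteDimensional ℝ E]
  {M : Type*} [MetricSpace M] [ChartedSpace E M] [IsManifold 𝓘(ℝ, E) ∞ M]
  [RiemannianBundle (fun x : M => TangentSpace 𝓘(ℝ, E) x)]
  [IsContMDiffRiemannianBundle 𝓘(ℝ, E) ∞ E (fun x : M => TangentSpace 𝓘(ℝ, E) x)]
  {e : ∀ x : M, TangentSpace 𝓘(ℝ, E) x → M} {K : ℕ} {ι : Type} [Fintype ι] [DecidableEq ι]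

variable {X : Type*} {DX : Dif X} {A : CAct DX} {C : X → M} {r : X → UT E M}
  {P : PF E M K} {Y : ι → UT E M → E} {D : ℝ}

/-- the coordinates of the family -/
def xh (e : ∀ x : M, TangentSpace 𝓘(ℝ, E) x → M) (P : PF E M K) (C : X → M) (r : X → UT E M)
    (b : X) : CV K := co P (foot (r b)) (lm e (foot (r b)) (C b))

/-- the points with coordinates `z` -/
def Pt (e : ∀ x : M, TangentSpace 𝓘(ℝ, E) x → M) (P : PF E M K) (r : X → UT E M) (z : X → CV K)
    (b : X) : M := e (foot (r b)) (sec P (foot (r b)) (z b) : E)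

/-- the coordinates along the loop of `b`, over `[0, 2 D]` -/
def zl (D : ℝ) (A : CAct DX) (z : X → CV K) (b : X) (t : ℝ) : CV K := z (A.φ b (t / (2 * D)))

variable [CompactSpace M] [ConnectedSpace M] [IsRiemannianManifold 𝓘(ℝ, E) M]

theorem map_Pt (F : Facts e) (hr : DX.Map (dUT E M) r) {z : X → CV K}
    (hz : DX.Map (Dif.lin (CV K)) z) : DX.Map (dM E M) (Pt e P r z) := by
  intro W _ _ _ u x h
  have h1 : (dUT E M).At (fun y => r (u y)) x := hr h
  have h2 : Sm (fun y => z (u y)) x := hz h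
  have h3 : ∀ᶠ y in 𝓝 x, ContMDiffAt 𝓘(ℝ, W) 𝓘(ℝ, E) ∞ (fun y => foot (r (u y))) y := map_foot h1
  have h4 : ∀ᶠ y in 𝓝 x, ContMDiffAt 𝓘(ℝ, W) 𝓘(ℝ, E) ∞ (fun y => Pt e P r z (u y)) y := by
    filter_upwards [h3, h2.eventually] with y h5 h6
    exact SmV.exp F.isExp (smV_sec P h5 h6.contDiffAt)
  exact h4

/-- a family `C`, with closed geodesics close to its loops -/
structure Fa (F : Facts e) (D : ℝ) (A : CAct DX) (C : X → M) (r : X → UT E M) : Prop where
  smC : DX.Map (dM E M) C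
  smr : DX.Map (dUT E M) r
  eqv : ∀ b t, r (A.φ b t) = phi F (r b, 2 * D * t)
  near : ∀ b, dist (foot (r b)) (C b) < D
  pt : ∀ b, DX.At (fun _ : ℝ => b) 0

theorem Fa.map_xh {F : Facts e} (hB : InjGE e D) (h : Fa F D A C r) :
    DX.Map (Dif.lin (CV K)) (xh e P C r) := by
  intro W _ _ _ u x hu
  have h1 : (dUT E M).At (fun y => r (u y)) x := h.smr hu
  have h3 : ∀ᶠ y in 𝓝 x, ContMDiffAt 𝓘(ℝ, W) 𝓘(ℝ, E) ∞ (fun y => foot (r (u y))) y := map_foot h1
  have h2 : ∀ᶠ y in 𝓝 x, ContMDiffAt 𝓘(ℝ, W) 𝓘(ℝ, E) ∞ (fun y => C (u y)) y := h.smC hu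
  have h4 : ∀ᶠ y in 𝓝 x, ContDiffAt ℝ ∞ (fun y => xh e P C r (u y)) y := by
    filter_upwards [h3, h2] with y k3 k2
    exact sm_co P (smV_lm F hB k3 k2 (h.near (u y)))
  exact h4

theorem Fa.sec_xh {F : Facts e} (h : Fa F D A C r) (b : X) :
    sec P (foot (r b)) (xh e P C r b) = lm e (foot (r b)) (C b) := sec_co P _ _

theorem Fa.Pt_xh {F : Facts e} (hB : InjGE e D) (h : Fa F D A C r) :
    Pt e P r (xh e P C r) = C := by
  funext b
  unfold Pt
  rw [h.sec_xh b]
  exact exp_lm F hB (h.near b)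

theorem Fa.norm_xh {F : Facts e} (hB : InjGE e D) (h : Fa F D A C r) (b : X) :
    ‖xh e P C r b‖ = dist (foot (r b)) (C b) := by
  unfold xh
  rw [norm_co, nm_lm F hB (h.near b)]

theorem Fa.zl_foot {F : Facts e} (hD : 0 < D) (h : Fa F D A C r) (b : X) (t : ℝ) :
    r (A.φ b (t / (2 * D))) = phi F (r b, t) := by
  rw [h.eqv]
  congr 2
  field_simp

theorem contDiff_zl {z : X → CV K} (hz : DX.Map (Dif.lin (CV K)) z) {b : X}
    (hb : DX.At (fun _ : ℝ => b) 0) : ContDiff ℝ ∞ (zl D A z b) := by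
  refine contDiff_iff_contDiffAt.2 fun t => ?_
  have h1 : DX.At (fun t : ℝ => A.φ b (t / (2 * D))) t :=
    A.at_phi (Dif.At_const hb t) (Sm.of_contDiff (contDiff_id.div_const _) t)
  exact (show Sm (fun t => z (A.φ b (t / (2 * D)))) t from hz h1).contDiffAt

theorem zl_per (hD : 0 < D) (z : X → CV K) (b : X) (t : ℝ) :
    zl D A z b (t + 2 * D) = zl D A z b t := by
  unfold zl
  have h1 : (t + 2 * D) / (2 * D) = t / (2 * D) + ((1 : ℤ) : ℝ) := by
    push_cast
    field_simp
  rw [h1, A.add_int]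

/-- the coordinates of the loop of `b` -/
theorem Fa.lp {F : Facts e} (hD : 0 < D) (hB : InjGE e D) (h : Fa F D A C r) (b : X) :
    Lp e P D (r b) (zl D A (xh e P C r) b) where
  smooth := contDiff_zl (h.map_xh hB) (h.pt b)
  per := fun t => zl_per hD _ b t
  mem := fun t => by
    have h1 : gm e (r b, t) = foot (r (A.φ b (t / (2 * D)))) := by
      rw [h.zl_foot hD]
      rfl
    rw [h1]
    unfold zl
    rw [h.sec_xh]
    rfl

/-- the energy of a family in coordinates -/
theorem Fa.E1_Pt {F : Facts e} (hD : 0 < D) (h : Fa F D A C r) {z : X → CV K}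
    (hz : DX.Map (Dif.lin (CV K)) z) (b : X) :
    E1 E A (Pt e P r z) b = 2 * D * ∫ t in (0 : ℝ)..(2 * D),
      bb e P (phi F (r b, t)) (zl D A z b t) (1, deriv (zl D A z b) t)
        (1, deriv (zl D A z b) t) := by
  rw [(E1_scale (A := A) hD (map_Pt (P := P) F h.smr hz) (h.pt b)).2]
  congr 1
  refine intervalIntegral.integral_congr fun t _ => ?_
  have h1 : ∀ s, Pt e P r z (A.φ b (s / (2 * D))) = Ps e P (r b) (s, zl D A z b s) := by
    intro s
    have h2 : foot (r (A.φ b (s / (2 * D)))) = gm e (r b, s) := by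
      rw [h.zl_foot hD]
      rfl
    unfold Pt Ps zl
    rw [h2]
  have h3 : (fun s => Pt e P r z (A.φ b (s / (2 * D)))) =
      fun s => Ps e P (r b) (s, zl D A z b s) := funext h1
  have h4 := speed_Ps P F (r b) (z := zl D A z b) (ζ := deriv (zl D A z b) t) (t := t)
    ((contDiff_zl hz (h.pt b)).differentiable (by simp) t).hasDerivAt
  beta_reduce
  rw [h3, ← h4]
  have h5 := h1 t
  rw [h5]

/-- the energy of a pushed family -/
theorem Fa.E1_push {F : Facts e} (hD : 0 < D) (h : Fa F D A C r) (hY : ∀ j, Fld (Y j))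
    {x : X → CV K} (hx : DX.Map (Dif.lin (CV K)) x) {a : X → EuclideanSpace ℝ ι}
    (ha : DX.Map (Dif.lin (EuclideanSpace ℝ ι)) a) {b : X} (hab : ∀ t, a (A.φ b t) = a b) :
    E1 E A (Pt e P r (fun b => x b + yh P Y (r b) (a b))) b =
      2 * D * EE F P D Y (r b) (zl D A x b) (a b) := by
  have hz : DX.Map (Dif.lin (CV K)) (fun b => x b + yh P Y (r b) (a b)) := by
    intro W _ _ _ u s hu
    have h1 : Sm (fun y => x (u y)) s := hx hu
    have h2 : Sm (fun y => yh P Y (r (u y)) (a (u y))) s := sm_yh P hY (h.smr hu) (ha hu)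
    have h3 : Sm (fun y => x (u y) + yh P Y (r (u y)) (a (u y))) s := by
      filter_upwards [h1, h2] with y k1 k2 using k1.add k2
    exact h3
  rw [h.E1_Pt hD hz b]
  congr 1
  unfold EE
  have h1 : zl D A (fun b => x b + yh P Y (r b) (a b)) b =
      fun t => zl D A x b t + yh P Y (phi F (r b, t)) (a b) := by
    funext t
    unfold zl
    beta_reduce
    rw [h.zl_foot hD, hab]
  have h2 : ∀ t, deriv (zl D A (fun b => x b + yh P Y (r b) (a b)) b) t =
      deriv (zl D A x b) t + yh' F P Y (phi F (r b, t)) (a b) := by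
    intro t
    rw [h1]
    exact (((contDiff_zl hx (h.pt b)).differentiable (by simp) t).hasDerivAt.add
      (hasDerivAt_yh P F hY (r b) (a b) t)).deriv
  simp only [h2]
  rw [h1]

end

end Vale.Agent.P231.S3N
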