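import Vale.Agent.P231.S3N.Fam1

/-!
# P231, stage 3, block N: the negative gradient in the negative directions
-/

set_option maxSynthPendingDepth 3
set_option linter.unusedSectionVars false
set_option linter.unusedVariables false

open Bundle Manifold Set Filter Module MeasureTheory
open scoped ContDiff Manifold Topology ENNReal

namespace Vale.Agent.P231.S3N

noncomputable section

open Vale.Agent.P234 Vale.Agent.P231 Vale.Agent.P231.Fm Vale.Agent.P231.W Vale.Agent.P231.H775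
open Vale.Agent.P231.X3 Vale.Agent.P231.H997 Vale.Agent.P231.WR Vale.Agent.P231.S2N
open Vale.Agent.P231.H766 Vale.Agent.P231.WD3

variable {E : Type*} [NormedAddCommGroup E] [NormedSpace ℝ E] [FiniteDimensional ℝ E]
  {M : Type*} [MetricSpace M] [ChartedSpace E M] [IsManifold 𝓘(ℝ, E) ∞ M]
  [RiemannianBundle (fun x : M => TangentSpace 𝓘(ℝ, E) x)]
  [IsContMDiffRiemannianBundle 𝓘(ℝ, E) ∞ E (fun x : M => TangentSpace 𝓘(ℝ, E) x)]
  {e : ∀ x : M, TangentSpace 𝓘(ℝ, E) x → M} {K : ℕ} {ι : Type} [Fintype ι] [DecidableEq ι]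

variable {X : Type*} {DX : Dif X} {A : CAct DX} {C : X → M} {r : X → UT E M}
  {P : PF E M K} {Y : ι → UT E M → E} {D : ℝ}

variable [CompactSpace M] [ConnectedSpace M] [IsRiemannianManifold 𝓘(ℝ, E) M]

/-- the energy is a smooth function of the push -/
theorem contDiff_EE (F : Facts e) (hY : ∀ j, Fld (Y j)) (v : UT E M) {x : ℝ → CV K}
    (hx : ContDiff ℝ ∞ x) : ContDiff ℝ ∞ (fun a : EuclideanSpace ℝ ι => EE F P D Y v x a) := by
  have hx' : ContDiff ℝ ∞ (deriv x) := (contDiff_infty_iff_deriv.1 hx).2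
  have h1 : ((Dif.lin (EuclideanSpace ℝ ι)).prod (Dif.lin ℝ)).Map (Dif.lin ℝ)
      (fun p : EuclideanSpace ℝ ι × ℝ => bb e P (phi F (v, p.2)) (x p.2 + yh P Y (phi F (v, p.2)) p.1)
        (1, deriv x p.2 + yh' F P Y (phi F (v, p.2)) p.1)
        (1, deriv x p.2 + yh' F P Y (phi F (v, p.2)) p.1)) := by
    intro W _ _ _ u s hu
    have ha : Sm (fun y => (u y).1) s := hu.1
    have ht : Sm (fun y => (u y).2) s := hu.2
    have hU : (dUT E M).At (fun y => phi F (v, (u y).2)) s :=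
      map_phi F (u := fun y => (v, (u y).2)) ⟨at_constUT v s, ht⟩
    have h2 : Sm (fun y => x (u y).2) s := Sm.comp (f := x) (Sm.of_contDiff hx _) ht
    have h2' : Sm (fun y => deriv x (u y).2) s := Sm.comp (f := deriv x) (Sm.of_contDiff hx' _) ht
    have h3 := sm_yh P hY hU ha
    have h4 := sm_yh' P F hY hU ha
    have h5 : Sm (fun y => x (u y).2 + yh P Y (phi F (v, (u y).2)) (u y).1) s := by
      filter_upwards [h2, h3] with y k1 k2 using k1.add k2
    have h6 : Sm (fun y => ((1 : ℝ), deriv x (u y).2 + yh' F P Y (phi F (v, (u y).2)) (u y).1))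
        s := by
      filter_upwards [h2', h4] with y k1 k2 using contDiffAt_const.prodMk (k1.add k2)
    exact sm_bb P F hU h5 h6 h6
  have h2 : (Dif.lin (EuclideanSpace ℝ ι)).Map (Dif.lin ℝ) (fun a : EuclideanSpace ℝ ι => EE F P D Y v x a) :=
    H766.map_integral h1 (2 * D)
  refine contDiff_iff_contDiffAt.2 fun t => ?_
  have h4 := h2 (u := fun x : EuclideanSpace ℝ ι => x) (Sm.of_contDiff contDiff_id t)
  exact (show Sm _ t from h4).contDiffAt

/-- the gradient of the energy in the push parameters -/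
def gr (F : Facts e) (P : PF E M K) (D : ℝ) (Y : ι → UT E M → E) (v : UT E M) (x : ℝ → CV K) :
    EuclideanSpace ℝ ι :=
  WithLp.toLp 2 fun j => deriv (fun s : ℝ => EE F P D Y v x (s • EuclideanSpace.single j 1)) 0

theorem hasDerivAt_EE (F : Facts e) (hY : ∀ j, Fld (Y j)) (v : UT E M) {x : ℝ → CV K}
    (hx : ContDiff ℝ ∞ x) (δ : EuclideanSpace ℝ ι) :
    HasDerivAt (fun s : ℝ => EE F P D Y v x (s • δ))
      (fderiv ℝ (fun a : EuclideanSpace ℝ ι => EE F P D Y v x a) 0 δ) 0 := by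
  have h1 : HasFDerivAt (fun a : EuclideanSpace ℝ ι => EE F P D Y v x a)
      (fderiv ℝ (fun a : EuclideanSpace ℝ ι => EE F P D Y v x a) ((0 : ℝ) • δ)) ((0 : ℝ) • δ) :=
    ((contDiff_EE (P := P) (D := D) F hY v hx).differentiable (by simp) _).hasFDerivAt
  have h2 : HasDerivAt (fun s : ℝ => s • δ) δ 0 := by
    simpa using (hasDerivAt_id (0 : ℝ)).smul_const δ
  have h3 := h1.comp_hasDerivAt (0 : ℝ) h2
  rw [zero_smul] at h3
  exact h3

theorem deriv_EE (F : Facts e) (hY : ∀ j, Fld (Y j)) (v : UT E M) {x : ℝ → CV K}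
    (hx : ContDiff ℝ ∞ x) (δ : EuclideanSpace ℝ ι) :
    deriv (fun s : ℝ => EE F P D Y v x (s • δ)) 0 = inner ℝ δ (gr F P D Y v x) := by
  rw [(hasDerivAt_EE F hY v hx δ).deriv, PiLp.inner_apply]
  set L := fderiv ℝ (fun a : EuclideanSpace ℝ ι => EE F P D Y v x a) 0 with hL
  have h1 : δ = ∑ j, δ j • EuclideanSpace.single j (1 : ℝ) := by
    have h2 := (EuclideanSpace.basisFun (ι) ℝ).sum_repr δ
    simp only [EuclideanSpace.basisFun_repr, EuclideanSpace.basisFun_apply] at h2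
    exact h2.symm
  conv_lhs => rw [h1]
  rw [map_sum]
  refine Finset.sum_congr rfl fun j _ => ?_
  rw [map_smul, smul_eq_mul]
  have h3 : gr F P D Y v x j = L (EuclideanSpace.single j 1) :=
    (hasDerivAt_EE (P := P) (D := D) F hY v hx (EuclideanSpace.single j 1)).deriv
  rw [h3]
  change _ = L (EuclideanSpace.single j 1) * δ j
  ring

/-- the energy of the pushed loops of a family is a smooth function -/
theorem Fa.map_EE {F : Facts e} (hD : 0 < D) (h : Fa F D A C r) (hY : ∀ j, Fld (Y j))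
    {x : X → CV K} (hx : DX.Map (Dif.lin (CV K)) x) {V : Type*} [NormedAddCommGroup V]
    [NormedSpace ℝ V] {a : V → EuclideanSpace ℝ ι} (ha : ContDiff ℝ ∞ a) :
    (DX.prod (Dif.lin V)).Map (Dif.lin ℝ)
      (fun p => EE F P D Y (r p.1) (zl D A x p.1) (a p.2)) := by
  have h1 : (DX.prod (Dif.lin V)).Map (dUT E M) (fun p => r p.1) := by
    intro W _ _ _ u s hu
    exact h.smr hu.1
  have h2 : (DX.prod (Dif.lin V)).Map (Dif.lin (CV K))
      (fun p => x p.1 + yh P Y (r p.1) (a p.2)) := by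
    intro W _ _ _ u s hu
    have k1 : Sm (fun y => x (u y).1) s := hx hu.1
    have k0 : Sm (fun y => a (u y).2) s := Sm.comp (f := a) (Sm.of_contDiff ha _) hu.2
    have k2 : Sm (fun y => yh P Y (r (u y).1) (a (u y).2)) s := sm_yh P hY (h.smr hu.1) k0
    have h3 : Sm (fun y => x (u y).1 + yh P Y (r (u y).1) (a (u y).2)) s := by
      filter_upwards [k1, k2] with y k1 k2 using k1.add k2
    exact h3
  have h3 : (DX.prod (Dif.lin V)).Map (Dif.lin ℝ) (fun p : X × V => E1 E A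
      (fun b => Pt e P (fun p : X × V => r p.1)
        (fun p : X × V => x p.1 + yh P Y (r p.1) (a p.2)) (b, p.2)) p.1) :=
    map_E1 (A := A) (map_Pt (P := P) F h1 h2)
  have h4 : (fun p : X × V => EE F P D Y (r p.1) (zl D A x p.1) (a p.2)) =
      fun p : X × V => (2 * D)⁻¹ * E1 E A
      (fun b => Pt e P (fun p : X × V => r p.1)
        (fun p : X × V => x p.1 + yh P Y (r p.1) (a p.2)) (b, p.2)) p.1 := by
    funext p
    have h5 := h.E1_push (P := P) (Y := Y) hD hY hx (a := fun _ => a p.2)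
      (fun {W} _ _ _ {u s} _ => Sm.of_contDiff contDiff_const s) (b := p.1) (fun _ => rfl)
    have h6 : E1 E A (fun b => Pt e P (fun p : X × V => r p.1)
        (fun p : X × V => x p.1 + yh P Y (r p.1) (a p.2)) (b, p.2)) p.1 =
        2 * D * EE F P D Y (r p.1) (zl D A x p.1) (a p.2) := h5
    rw [h6, ← mul_assoc, inv_mul_cancel₀ (by linarith : (2 * D) ≠ 0), one_mul]
  rw [h4]
  intro W _ _ _ u s hu
  have h5 := h3 hu
  have h6 : Sm _ s := h5
  have h7 : ContDiff ℝ ∞ (fun r : ℝ => (2 * D)⁻¹ * r) := contDiff_const.mul contDiff_id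
  exact Sm.comp (f := fun r : ℝ => (2 * D)⁻¹ * r) (Sm.of_contDiff h7 _) h6

theorem Fa.EE_phi {F : Facts e} (hD : 0 < D) (h : Fa F D A C r) (hY : ∀ j, Fld (Y j))
    {x : X → CV K} (hx : DX.Map (Dif.lin (CV K)) x) (a : EuclideanSpace ℝ ι) (b : X) (t : ℝ) :
    EE F P D Y (r (A.φ b t)) (zl D A x (A.φ b t)) a = EE F P D Y (r b) (zl D A x b) a := by
  have ha : DX.Map (Dif.lin (EuclideanSpace ℝ ι)) (fun _ => a) := fun {W} _ _ _ {u s} _ =>
    Sm.of_contDiff contDiff_const s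
  have hz : DX.Map (Dif.lin (CV K)) (fun b => x b + yh P Y (r b) a) := by
    intro W _ _ _ u s hu
    have h1 : Sm (fun y => x (u y)) s := hx hu
    have h2 : Sm (fun y => yh P Y (r (u y)) a) s :=
      sm_yh P hY (h.smr hu) (Sm.of_contDiff contDiff_const s)
    have h3 : Sm (fun y => x (u y) + yh P Y (r (u y)) a) s := by
      filter_upwards [h1, h2] with y k1 k2 using k1.add k2
    exact h3
  have h1 := h.E1_push (P := P) (Y := Y) hD hY hx ha (b := b) (fun _ => rfl)
  have h2 := h.E1_push (P := P) (Y := Y) hD hY hx ha (b := A.φ b t) (fun _ => rfl)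
  have h3 := E1_phi (A := A) (map_Pt (P := P) F h.smr hz) (h.pt b) t
  rw [h1, h2] at h3
  exact mul_left_cancel₀ (by linarith : (2 * D) ≠ 0) h3

theorem Fa.map_gr {F : Facts e} (hD : 0 < D) (h : Fa F D A C r) (hY : ∀ j, Fld (Y j))
    {x : X → CV K} (hx : DX.Map (Dif.lin (CV K)) x) :
    DX.Map (Dif.lin (EuclideanSpace ℝ ι)) (fun b => gr F P D Y (r b) (zl D A x b)) := by
  intro W _ _ _ u s hu
  have h0 : ∀ j : ι, Sm (fun y => deriv (fun q : ℝ => EE F P D Y (r (u y))
      (zl D A x (u y)) (q • EuclideanSpace.single j 1)) 0) s := by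
    intro j
    have h1 : (DX.prod (Dif.lin ℝ)).Map (Dif.lin ℝ) (fun p =>
        EE F P D Y (r p.1) (zl D A x p.1) (p.2 • EuclideanSpace.single j (1 : ℝ))) :=
      h.map_EE (P := P) hD hY hx (V := ℝ)
        (a := fun q : ℝ => q • EuclideanSpace.single j (1 : ℝ)) (contDiff_id.smul contDiff_const)
    have h2 : (DX.prod (Dif.lin ℝ)).Map (Dif.lin ℝ) (fun p => deriv (fun q : ℝ =>
        EE F P D Y (r p.1) (zl D A x p.1) (q • EuclideanSpace.single j (1 : ℝ))) p.2) :=
      map_derivW h1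
    have h3 : (DX.prod (Dif.lin ℝ)).At (fun y : W => (u y, (0 : ℝ))) s :=
      ⟨hu, Sm.of_contDiff contDiff_const s⟩
    have h4 : (Dif.lin ℝ).At ((fun p : X × ℝ => deriv (fun q : ℝ =>
        EE F P D Y (r p.1) (zl D A x p.1) (q • EuclideanSpace.single j (1 : ℝ))) p.2) ∘
        fun y : W => (u y, (0 : ℝ))) s := h2 h3
    exact h4
  have h1 : ∀ᶠ y in 𝓝 s, ContDiffAt ℝ ∞ (fun y => gr F P D Y (r (u y)) (zl D A x (u y))) y := by
    have h2 : ∀ᶠ y in 𝓝 s, ∀ j : ι, ContDiffAt ℝ ∞ (fun y => deriv (fun q : ℝ =>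
        EE F P D Y (r (u y)) (zl D A x (u y)) (q • EuclideanSpace.single j 1)) 0) y :=
      eventually_all.2 fun j => h0 j
    filter_upwards [h2] with y hy
    exact contDiffAt_euclidean.2 hy
  exact h1

theorem Fa.gr_phi {F : Facts e} (hD : 0 < D) (h : Fa F D A C r) (hY : ∀ j, Fld (Y j))
    {x : X → CV K} (hx : DX.Map (Dif.lin (CV K)) x) (b : X) (t : ℝ) :
    gr F P D Y (r (A.φ b t)) (zl D A x (A.φ b t)) = gr F P D Y (r b) (zl D A x b) := by
  unfold gr
  congr 1
  funext j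
  congr 1
  funext s
  exact h.EE_phi hD hY hx _ b t

/-! ### the projections onto the negative directions -/

/-- smooth orthogonal projections onto the spaces `Em v` -/
structure PrF (Em : UT E M → Submodule ℝ (EuclideanSpace ℝ ι)) (pr : UT E M → EuclideanSpace ℝ ι →L[ℝ] EuclideanSpace ℝ ι) : Prop where
  smooth : (dUT E M).Map (Dif.lin (EuclideanSpace ℝ ι →L[ℝ] EuclideanSpace ℝ ι)) pr
  mem : ∀ v x, pr v x ∈ Em v
  fix : ∀ v, ∀ x ∈ Em v, pr v x = x
  sym : ∀ v x y, inner ℝ (pr v x) y = inner ℝ x (pr v y)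

theorem PrF.eq {Em : UT E M → Submodule ℝ (EuclideanSpace ℝ ι)} {pr : UT E M → EuclideanSpace ℝ ι →L[ℝ] EuclideanSpace ℝ ι}
    (h : PrF Em pr) {v w : UT E M} (hvw : Em v = Em w) (x : EuclideanSpace ℝ ι) : pr v x = pr w x := by
  refine ext_inner_right ℝ fun y => ?_
  have h1 : pr w (pr v x) = pr v x := h.fix w _ (hvw ▸ h.mem v x)
  have h2 : pr v (pr w y) = pr w y := h.fix v _ (hvw.symm ▸ h.mem w y)
  rw [← h1, h.sym, h.sym, h2, ← h.sym]

/-- the negative gradient of the energy in the negative directions -/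
def yy (F : Facts e) (P : PF E M K) (D : ℝ) (Y : ι → UT E M → E)
    (pr : UT E M → EuclideanSpace ℝ ι →L[ℝ] EuclideanSpace ℝ ι) (A : CAct DX) (C : X → M) (r : X → UT E M) (b : X) : EuclideanSpace ℝ ι :=
  -pr (r b) (gr F P D Y (r b) (zl D A (xh e P C r) b))

section

variable {F : Facts e} {Em : UT E M → Submodule ℝ (EuclideanSpace ℝ ι)} {pr : UT E M → EuclideanSpace ℝ ι →L[ℝ] EuclideanSpace ℝ ι}

theorem yy_mem (hpr : PrF Em pr) (b : X) : yy F P D Y pr A C r b ∈ Em (r b) :=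
  (Em (r b)).neg_mem (hpr.mem _ _)

theorem Fa.map_yy (hD : 0 < D) (hB : InjGE e D) (h : Fa F D A C r) (hY : ∀ j, Fld (Y j))
    (hpr : PrF Em pr) : DX.Map (Dif.lin (EuclideanSpace ℝ ι)) (yy F P D Y pr A C r) := by
  intro W _ _ _ u s hu
  have h1 : Sm (fun y => gr F P D Y (r (u y)) (zl D A (xh e P C r) (u y))) s :=
    h.map_gr (P := P) hD hY (h.map_xh hB) hu
  have h2 : Sm (fun y => pr (r (u y))) s := hpr.smooth (h.smr hu)
  have h3 : Sm (fun y => -pr (r (u y)) (gr F P D Y (r (u y)) (zl D A (xh e P C r) (u y)))) s := by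
    filter_upwards [h1, h2] with y k1 k2 using (k2.clm_apply k1).neg
  exact h3

theorem Fa.yy_phi (hD : 0 < D) (hB : InjGE e D) (h : Fa F D A C r) (hY : ∀ j, Fld (Y j))
    (hpr : PrF Em pr) (hinv : ∀ v t, Em (phi F (v, t)) = Em v) (b : X) (t : ℝ) :
    yy F P D Y pr A C r (A.φ b t) = yy F P D Y pr A C r b := by
  unfold yy
  rw [h.gr_phi hD hY (h.map_xh hB) b t]
  congr 1
  rw [h.eqv]
  exact hpr.eq (hinv _ _) _

/-- the derivative of the energy in the negative directions -/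
theorem Fa.deriv_yy (hD : 0 < D) (hB : InjGE e D) (h : Fa F D A C r) (hY : ∀ j, Fld (Y j))
    (hpr : PrF Em pr) (b : X) {δ : EuclideanSpace ℝ ι} (hδ : δ ∈ Em (r b)) :
    deriv (fun s : ℝ => EE F P D Y (r b) (zl D A (xh e P C r) b) (s • δ)) 0 =
      -inner ℝ δ (yy F P D Y pr A C r b) := by
  rw [deriv_EE F hY (r b) (contDiff_zl (h.map_xh hB) (h.pt b)) δ]
  unfold yy
  rw [inner_neg_right, neg_neg, ← hpr.sym, hpr.fix _ _ hδ]

end

end

end Vale.Agent.P231.S3N
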