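import Vale.Agent.P231.S3N.Fam2

/-!
# P231, stage 3, block N: the homotopy to the model family, near the closed geodesics
-/

set_option maxSynthPendingDepth 3
set_option linter.unusedSectionVars false
set_option linter.unusedVariables false

open Bundle Manifold Set Filter Module MeasureTheory
open scoped ContDiff Manifold Topology ENNReal

namespace Vale.Agent.P231.S3N

noncomputable section

open Vale.Agent.P234 Vale.Agent.P231 Vale.Agent.P231.Fm Vale.Agent.P231.W Vale.Agent.P231.H775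
open Vale.Agent.P231.X3 Vale.Agent.P231.H997 Vale.Agent.P231.WR Vale.Agent.P231.S2N
open Vale.Agent.P231.H766 Vale.Agent.P231.WD3

/-! ### smooth normalisation of vectors -/

section Nrm

variable {ι : Type} [Fintype ι] [DecidableEq ι]

/-- the regularised square norm -/
def rg (y₀ : ℝ) (y : EuclideanSpace ℝ ι) : ℝ := ‖y‖ ^ 2 + (1 - Real.smoothTransition (‖y‖ ^ 2 / y₀ ^ 2))

/-- smooth normalisation -/
def nrm (y₀ : ℝ) (y : EuclideanSpace ℝ ι) : EuclideanSpace ℝ ι := (Real.sqrt (rg y₀ y))⁻¹ • y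

theorem rg_pos {y₀ : ℝ} (h0 : 0 < y₀) (y : EuclideanSpace ℝ ι) : 0 < rg y₀ y := by
  unfold rg
  rcases lt_or_ge (‖y‖ ^ 2 / y₀ ^ 2) 1 with h | h
  · have h1 := Real.smoothTransition.lt_one_of_lt_one h
    have h2 : 0 ≤ ‖y‖ ^ 2 := by positivity
    linarith
  · have h1 := Real.smoothTransition.le_one (‖y‖ ^ 2 / y₀ ^ 2)
    have h2 : 0 < ‖y‖ ^ 2 := by
      have h3 : 0 < ‖y‖ ^ 2 / y₀ ^ 2 := lt_of_lt_of_le one_pos h
      by_contra h4
      have h5 : ‖y‖ ^ 2 = 0 := le_antisymm (not_lt.1 h4) (by positivity)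
      rw [h5, zero_div] at h3
      exact lt_irrefl _ h3
    linarith

theorem le_rg (y₀ : ℝ) (y : EuclideanSpace ℝ ι) : ‖y‖ ^ 2 ≤ rg y₀ y := by
  unfold rg
  have h1 := Real.smoothTransition.le_one (‖y‖ ^ 2 / y₀ ^ 2)
  linarith

theorem contDiff_nrm {y₀ : ℝ} (h0 : 0 < y₀) : ContDiff ℝ ∞ (nrm (ι := ι) y₀) := by
  have h1 : ContDiff ℝ ∞ (fun y : EuclideanSpace ℝ ι => ‖y‖ ^ 2) := contDiff_norm_sq ℝ
  have h2 : ContDiff ℝ ∞ (rg (ι := ι) y₀) :=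
    h1.add (contDiff_const.sub (Real.smoothTransition.contDiff.comp (h1.div_const _)))
  have h3 : ContDiff ℝ ∞ (fun y : EuclideanSpace ℝ ι => Real.sqrt (rg y₀ y)) :=
    h2.sqrt fun y => (rg_pos h0 y).ne'
  exact (h3.inv fun y => (Real.sqrt_pos.2 (rg_pos h0 y)).ne').smul contDiff_id

theorem norm_nrm {y₀ : ℝ} (h0 : 0 < y₀) (y : EuclideanSpace ℝ ι) :
    ‖nrm y₀ y‖ = (Real.sqrt (rg y₀ y))⁻¹ * ‖y‖ := by
  unfold nrm
  rw [norm_smul, norm_inv, Real.norm_of_nonneg (Real.sqrt_nonneg _)]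

theorem norm_nrm_le {y₀ : ℝ} (h0 : 0 < y₀) (y : EuclideanSpace ℝ ι) : ‖nrm y₀ y‖ ≤ 1 := by
  have h1 : 0 < Real.sqrt (rg y₀ y) := Real.sqrt_pos.2 (rg_pos h0 y)
  rw [norm_nrm h0, inv_mul_le_iff₀ h1, mul_one]
  exact Real.le_sqrt_of_sq_le (le_rg y₀ y)

theorem norm_nrm_eq {y₀ : ℝ} (h0 : 0 < y₀) {y : EuclideanSpace ℝ ι} (hy : y₀ ≤ ‖y‖) : ‖nrm y₀ y‖ = 1 := by
  have h1 : 1 ≤ ‖y‖ ^ 2 / y₀ ^ 2 := by
    rw [one_le_div (by positivity)]
    exact pow_le_pow_left₀ h0.le hy 2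
  have h2 : rg y₀ y = ‖y‖ ^ 2 := by
    unfold rg
    rw [Real.smoothTransition.one_of_one_le h1]
    ring
  rw [norm_nrm h0, h2, Real.sqrt_sq (norm_nonneg _)]
  exact inv_mul_cancel₀ (h0.trans_le hy).ne'

theorem nrm_eq_zero {y₀ : ℝ} (h0 : 0 < y₀) {y : EuclideanSpace ℝ ι} : nrm y₀ y = 0 ↔ y = 0 := by
  have h1 : (Real.sqrt (rg y₀ y))⁻¹ ≠ 0 := (inv_pos.2 (Real.sqrt_pos.2 (rg_pos h0 y))).ne'
  unfold nrm
  rw [smul_eq_zero]
  exact ⟨fun h => h.resolve_left h1, fun h => Or.inr h⟩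

theorem nrm_dir {y₀ : ℝ} (h0 : 0 < y₀) {y : EuclideanSpace ℝ ι} (hy : y ≠ 0) :
    nrm y₀ y = ‖nrm y₀ y‖ • (‖y‖⁻¹ • y) := by
  rw [norm_nrm h0, smul_smul, mul_assoc, mul_inv_cancel₀ (norm_ne_zero_iff.2 hy), mul_one]
  rfl

end Nrm

variable {E : Type*} [NormedAddCommGroup E] [NormedSpace ℝ E] [FiniteDimensional ℝ E]
  {M : Type*} [MetricSpace M] [ChartedSpace E M] [IsManifold 𝓘(ℝ, E) ∞ M]
  [RiemannianBundle (fun x : M => TangentSpace 𝓘(ℝ, E) x)]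
  [IsContMDiffRiemannianBundle 𝓘(ℝ, E) ∞ E (fun x : M => TangentSpace 𝓘(ℝ, E) x)]
  {e : ∀ x : M, TangentSpace 𝓘(ℝ, E) x → M} {K : ℕ} {ι : Type} [Fintype ι] [DecidableEq ι]

variable {X : Type*} {DX : Dif X} {A : CAct DX} {C : X → M} {r : X → UT E M}
  {P : PF E M K} {Y : ι → UT E M → E} {D : ℝ}

variable [CompactSpace M] [ConnectedSpace M] [IsRiemannianManifold 𝓘(ℝ, E) M]
  {F : Facts e} {Em : UT E M → Submodule ℝ (EuclideanSpace ℝ ι)} {pr : UT E M → EuclideanSpace ℝ ι →L[ℝ] EuclideanSpace ℝ ι}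

/-- (S2): pushing a curve close to a closed geodesic by small negative fields one gets a curve with
two points at distance `D` -/
def Cut (F : Facts e) (D : ℝ) (Y : ι → UT E M → E) (Em : UT E M → Submodule ℝ (EuclideanSpace ℝ ι))
    (ε ρ : ℝ) : Prop :=
  ∀ (v : UT E M) (c : ℝ → M), Continuous c → (∀ t, dist (c t) (gm e (v, t)) < ρ) →
    ∃ a ∈ Em v, ‖a‖ ≤ ε ∧ ∃ s : ℝ, |s| ≤ ε ∧
      dist (e (gm e (v, 0)) (lm e (gm e (v, 0)) (c 0) + Ya Y (phi F (v, 0)) a : E))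
        (e (gm e (v, D + s)) (lm e (gm e (v, D + s)) (c (D + s)) +
          Ya Y (phi F (v, D + s)) a : E)) = D

/-- the pointwise properties of the energy near a closed geodesic -/
structure Good (F : Facts e) (P : PF E M K) (D : ℝ) (Y : ι → UT E M → E)
    (Em : UT E M → Submodule ℝ (EuclideanSpace ℝ ι)) (ε : ℝ) (v : UT E M) (x : ℝ → CV K) : Prop where
  conc : ∀ δ ∈ Em v, ‖δ‖ = 1 → ∀ s, 0 ≤ s → s ≤ ε → EE F P D Y v x (s • δ) ≤
    EE F P D Y v x 0 + deriv (fun s : ℝ => EE F P D Y v x (s • δ)) 0 * s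
  gap : ∀ δ ∈ Em v, ‖δ‖ = 1 → ∀ l : ℝ, 0 ≤ l → l ≤ 1 →
    EE F P D Y v (fun t => l • x t) (ε • δ) < 2 * D
  neg : ∀ δ ∈ Em v, ‖δ‖ = 1 → ∀ s, 0 < s → s ≤ ε → EE F P D Y v (fun _ => 0) (s • δ) < 2 * D

theorem map_push (h : Fa F D A C r) (hY : ∀ j, Fld (Y j)) {x : X → CV K}
    (hx : DX.Map (Dif.lin (CV K)) x) {a : X → EuclideanSpace ℝ ι} (ha : DX.Map (Dif.lin (EuclideanSpace ℝ ι)) a) :
    DX.Map (Dif.lin (CV K)) (fun b => x b + yh P Y (r b) (a b)) := by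
  intro W _ _ _ u s hu
  have h1 : Sm (fun y => x (u y)) s := hx hu
  have h2 : Sm (fun y => yh P Y (r (u y)) (a (u y))) s := sm_yh P hY (h.smr hu) (ha hu)
  have h3 : Sm (fun y => x (u y) + yh P Y (r (u y)) (a (u y))) s := by
    filter_upwards [h1, h2] with y k1 k2 using k1.add k2
  exact h3

theorem map_cst {V : Type*} [NormedAddCommGroup V] [NormedSpace ℝ V] (a : V) :
    DX.Map (Dif.lin V) (fun _ => a) := fun {W} _ _ _ {u s} _ => Sm.of_contDiff contDiff_const s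

/-- a loop in coordinates, pushed -/
theorem Fa.Pt_push (hB : InjGE e D) (hD : 0 < D) (h : Fa F D A C r) (b : X) (a : EuclideanSpace ℝ ι) (t : ℝ) :
    Pt e P r (fun b => xh e P C r b + yh P Y (r b) a) (A.φ b (t / (2 * D))) =
      e (gm e (r b, t)) (lm e (gm e (r b, t)) (C (A.φ b (t / (2 * D)))) +
        Ya Y (phi F (r b, t)) a : E) := by
  unfold Pt
  have h1 : r (A.φ b (t / (2 * D))) = phi F (r b, t) := h.zl_foot hD b t
  have h2 : sec P (foot (r (A.φ b (t / (2 * D))))) (xh e P C r (A.φ b (t / (2 * D))) +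
      yh P Y (r (A.φ b (t / (2 * D)))) a) =
      lm e (foot (r (A.φ b (t / (2 * D))))) (C (A.φ b (t / (2 * D)))) +
        Ya Y (r (A.φ b (t / (2 * D)))) a := by
    rw [sec_add, h.sec_xh, sec_yh]
  rw [h2, h1]
  rfl

/-- some small push has energy at least `2 D` -/
theorem Fa.exists_ge (hD : 0 < D) (hB : InjGE e D) (h : Fa F D A C r) (hY : ∀ j, Fld (Y j))
    {ε ρ : ℝ} (hεD : ε ≤ D) (hcut : Cut F D Y Em ε ρ) {b : X}
    (hb : ∀ t, dist (C (A.φ b t)) (gm e (r b, 2 * D * t)) < ρ) :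
    ∃ a ∈ Em (r b), ‖a‖ ≤ ε ∧ 2 * D ≤ EE F P D Y (r b) (zl D A (xh e P C r) b) a := by
  have h2D : (0 : ℝ) < 2 * D := by linarith
  have hc : Continuous (fun t => C (A.φ b (t / (2 * D)))) :=
    (E1_scale (A := A) hD h.smC (h.pt b)).1.continuous
  obtain ⟨a, ha, hae, s, hs, hd⟩ := hcut (r b) (fun t => C (A.φ b (t / (2 * D)))) hc fun t => by
    have h1 := hb (t / (2 * D))
    rwa [mul_div_cancel₀ t h2D.ne'] at h1
  refine ⟨a, ha, hae, ?_⟩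
  have hz : DX.Map (Dif.lin (CV K)) (fun b => xh e P C r b + yh P Y (r b) a) :=
    map_push (P := P) h hY (h.map_xh hB) (map_cst (DX := DX) a)
  obtain ⟨h3, h4⟩ := E1_scale (A := A) hD (map_Pt (P := P) F h.smr hz) (h.pt b)
  have h5 := h.E1_push (P := P) (Y := Y) hD hY (x := xh e P C r) (h.map_xh hB)
    (map_cst (DX := DX) a) (b := b) (fun _ => rfl)
  rw [h5] at h4
  have h6 := mul_left_cancel₀ h2D.ne' h4
  rw [h6]
  have hs' := abs_le.1 (hs.trans hεD)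
  refine energy_ge h3 hD ?_ (s := D + s) (by linarith [hs'.1]) (by linarith [hs'.2]) ?_
  · beta_reduce
    rw [zero_div, div_self h2D.ne', A.per, A.zero]
  · beta_reduce
    rw [h.Pt_push hB hD b a 0, h.Pt_push hB hD b a (D + s)]
    exact hd

/-- the lower bound for the gradient -/
theorem Fa.yy_ge (hD : 0 < D) (hB : InjGE e D) (h : Fa F D A C r) (hY : ∀ j, Fld (Y j))
    (hpr : PrF Em pr) {ε ρ : ℝ} (hε : 0 < ε) (hεD : ε ≤ D) (hcut : Cut F D Y Em ε ρ) {b : X}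
    (hb : ∀ t, dist (C (A.φ b t)) (gm e (r b, 2 * D * t)) < ρ)
    (hg : Good F P D Y Em ε (r b) (zl D A (xh e P C r) b)) :
    2 * D - EE F P D Y (r b) (zl D A (xh e P C r) b) 0 ≤ ε * ‖yy F P D Y pr A C r b‖ := by
  obtain ⟨a, ha, hae, h1⟩ := h.exists_ge (P := P) hD hB hY hεD hcut hb
  rcases eq_or_ne a 0 with rfl | ha0
  · have : 0 ≤ ε * ‖yy F P D Y pr A C r b‖ := by positivity
    linarith
  have hn : 0 < ‖a‖ := norm_pos_iff.2 ha0
  set δ : EuclideanSpace ℝ ι := ‖a‖⁻¹ • a with hδ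
  have hδm : δ ∈ Em (r b) := (Em (r b)).smul_mem _ ha
  have hδn : ‖δ‖ = 1 := by rw [hδ, norm_smul, norm_inv, norm_norm, inv_mul_cancel₀ hn.ne']
  have hδa : ‖a‖ • δ = a := by rw [hδ, smul_smul, mul_inv_cancel₀ hn.ne', one_smul]
  have h2 := hg.conc δ hδm hδn ‖a‖ hn.le hae
  rw [hδa, h.deriv_yy hD hB hY hpr b hδm] at h2
  have h3 : -inner ℝ δ (yy F P D Y pr A C r b) ≤ ‖yy F P D Y pr A C r b‖ := by
    have h4 := abs_real_inner_le_norm δ (yy F P D Y pr A C r b)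
    rw [hδn, one_mul] at h4
    exact (neg_le_abs _).trans h4
  have h5 : -inner ℝ δ (yy F P D Y pr A C r b) * ‖a‖ ≤ ‖yy F P D Y pr A C r b‖ * ε :=
    mul_le_mul h3 hae hn.le (norm_nonneg _)
  linarith

/-- the energy decreases in the direction of the negative gradient -/
theorem Fa.EE_dec (hD : 0 < D) (hB : InjGE e D) (h : Fa F D A C r) (hY : ∀ j, Fld (Y j))
    (hpr : PrF Em pr) {ε y₀ : ℝ} (hε : 0 < ε) (hy₀ : 0 < y₀) {b : X}
    (hg : Good F P D Y Em ε (r b) (zl D A (xh e P C r) b)) {l : ℝ} (hl0 : 0 ≤ l) (hl1 : l ≤ 1) :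
    EE F P D Y (r b) (zl D A (xh e P C r) b)
      (l • (ε • nrm y₀ (yy F P D Y pr A C r b))) ≤
      EE F P D Y (r b) (zl D A (xh e P C r) b) 0 := by
  set y := yy F P D Y pr A C r b with hy
  rcases eq_or_ne y 0 with h0 | h0
  · rw [(nrm_eq_zero hy₀).2 h0, smul_zero, smul_zero]
  have hn : 0 < ‖y‖ := norm_pos_iff.2 h0
  set δ : EuclideanSpace ℝ ι := ‖y‖⁻¹ • y with hδ
  have hδm : δ ∈ Em (r b) := (Em (r b)).smul_mem _ (yy_mem hpr b)
  have hδn : ‖δ‖ = 1 := by rw [hδ, norm_smul, norm_inv, norm_norm, inv_mul_cancel₀ hn.ne']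
  have h1 := nrm_dir hy₀ h0
  have h2 : l • (ε • nrm y₀ y) = (l * ε * ‖nrm y₀ y‖) • δ := by
    conv_lhs => rw [h1]
    rw [smul_smul, smul_smul]
  rw [h2]
  have hN := norm_nrm_le hy₀ y
  have h3 : 0 ≤ l * ε * ‖nrm y₀ y‖ := by positivity
  have h4 : l * ε * ‖nrm y₀ y‖ ≤ ε := by
    calc l * ε * ‖nrm y₀ y‖ ≤ 1 * ε * 1 := by gcongr
      _ = ε := by ring
  have h5 := hg.conc δ hδm hδn _ h3 h4
  rw [h.deriv_yy hD hB hY hpr b hδm] at h5
  have h6 : inner ℝ δ y = ‖y‖ := by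
    rw [hδ, real_inner_smul_left, real_inner_self_eq_norm_sq, pow_two, ← mul_assoc,
      inv_mul_cancel₀ hn.ne', one_mul]
  rw [← hy, h6] at h5
  have h7 : 0 ≤ ‖y‖ * (l * ε * ‖nrm y₀ y‖) := by positivity
  linarith

/-- the energy of the shrunk loops, for full pushes -/
theorem Fa.EE_gap (hpr : PrF Em pr) {ε y₀ : ℝ} (hε : 0 < ε) (hy₀ : 0 < y₀)
    {b : X} (hg : Good F P D Y Em ε (r b) (zl D A (xh e P C r) b))
    (hyb : y₀ ≤ ‖yy F P D Y pr A C r b‖) {l : ℝ} (hl0 : 0 ≤ l) (hl1 : l ≤ 1) :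
    EE F P D Y (r b) (fun t => l • zl D A (xh e P C r) b t)
      (ε • nrm y₀ (yy F P D Y pr A C r b)) < 2 * D := by
  set y := yy F P D Y pr A C r b with hy
  have hn : 0 < ‖y‖ := hy₀.trans_le hyb
  have h0 : y ≠ 0 := norm_pos_iff.1 hn
  have h1 := nrm_dir hy₀ h0
  rw [norm_nrm_eq hy₀ hyb, one_smul] at h1
  rw [h1]
  refine hg.gap _ ((Em (r b)).smul_mem _ (yy_mem hpr b)) ?_ l hl0 hl1
  rw [norm_smul, norm_inv, norm_norm, inv_mul_cancel₀ hn.ne']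

/-- the energy of the model loops -/
theorem Fa.EE_mod (hpr : PrF Em pr) {ε y₀ : ℝ} (hε : 0 < ε) (hy₀ : 0 < y₀)
    {b : X} (hg : Good F P D Y Em ε (r b) (zl D A (xh e P C r) b))
    (hyb : yy F P D Y pr A C r b ≠ 0) :
    EE F P D Y (r b) (fun t => 0) (ε • nrm y₀ (yy F P D Y pr A C r b)) < 2 * D := by
  set y := yy F P D Y pr A C r b with hy
  have hn : 0 < ‖y‖ := norm_pos_iff.2 hyb
  have h1 := nrm_dir hy₀ hyb
  have h2 : ε • nrm y₀ y = (ε * ‖nrm y₀ y‖) • (‖y‖⁻¹ • y) := by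
    conv_lhs => rw [h1]
    rw [smul_smul]
  have hN := norm_nrm_le hy₀ y
  have hN0 : 0 < ‖nrm y₀ y‖ := norm_pos_iff.2 (fun h => hyb ((nrm_eq_zero hy₀).1 h))
  rw [h2]
  refine hg.neg _ ((Em (r b)).smul_mem _ (yy_mem hpr b)) ?_ _ (by positivity) ?_
  · rw [norm_smul, norm_inv, norm_norm, inv_mul_cancel₀ hn.ne']
  · calc ε * ‖nrm y₀ y‖ ≤ ε * 1 := by gcongr
      _ = ε := mul_one ε

end

end Vale.Agent.P231.S3N
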