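import Vale.Agent.P231.S3N.Fam3

/-!
# P231, stage 3, block N: the homotopy to the model family
-/

set_option maxSynthPendingDepth 3
set_option linter.unusedSectionVars false
set_option linter.unusedVariables false

open Bundle Manifold Set Filter Module MeasureTheory
open scoped ContDiff Manifold Topology ENNReal

namespace Vale.Agent.P231.S3N

noncomputable section

open Vale.Agent.P234 Vale.Agent.P231 Vale.Agent.P231.Fm Vale.Agent.P231.W Vale.Agent.P231.H775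
open Vale.Agent.P231.X3 Vale.Agent.P231.H997 Vale.Agent.P231.WR Vale.Agent.P231.S2N
open Vale.Agent.P231.H766 Vale.Agent.P231.WD3

variable {E : Type*} [NormedAddCommGroup E] [NormedSpace ℝ E] [FiniteDimensional ℝ E]
  {M : Type*} [MetricSpace M] [ChartedSpace E M] [IsManifold 𝓘(ℝ, E) ∞ M]
  [RiemannianBundle (fun x : M => TangentSpace 𝓘(ℝ, E) x)]
  [IsContMDiffRiemannianBundle 𝓘(ℝ, E) ∞ E (fun x : M => TangentSpace 𝓘(ℝ, E) x)]
  {e : ∀ x : M, TangentSpace 𝓘(ℝ, E) x → M} {K : ℕ} {ι : Type} [Fintype ι] [DecidableEq ι]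

variable {X : Type*} {DX : Dif X} {A : CAct DX} {C : X → M} {r : X → UT E M}
  {P : PF E M K} {Y : ι → UT E M → E} {D : ℝ}

variable [CompactSpace M] [ConnectedSpace M] [IsRiemannianManifold 𝓘(ℝ, E) M]
  {F : Facts e} {Em : UT E M → Submodule ℝ (EuclideanSpace ℝ ι)} {pr : UT E M → EuclideanSpace ℝ ι →L[ℝ] EuclideanSpace ℝ ι}

theorem E1_congr {C C' : X → M} {b : X} (h : ∀ t, C (A.φ b t) = C' (A.φ b t)) :
    E1 E A C b = E1 E A C' b := by
  have h1 : (fun s => C (A.φ b s)) = fun s => C' (A.φ b s) := funext h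
  unfold E1
  rw [h1]
  refine intervalIntegral.integral_congr fun t _ => ?_
  rw [h t]

theorem Fa.E1_eq (hD : 0 < D) (hB : InjGE e D) (h : Fa F D A C r) (hY : ∀ j, Fld (Y j)) (b : X) :
    E1 E A C b = 2 * D * EE F P D Y (r b) (zl D A (xh e P C r) b) 0 := by
  have h1 := h.E1_push (P := P) (Y := Y) hD hY (x := xh e P C r) (h.map_xh hB)
    (map_cst (DX := DX) (0 : EuclideanSpace ℝ ι)) (b := b) (fun _ => rfl)
  rw [← h1]
  have h2 : (fun b => xh e P C r b + yh P Y (r b) (0 : EuclideanSpace ℝ ι)) = xh e P C r := by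
    funext b
    have h3 := yh_smul P Y (r b) 0 (0 : EuclideanSpace ℝ ι)
    rw [zero_smul, zero_smul] at h3
    rw [h3, add_zero]
  rw [h2, h.Pt_xh hB]

/-- the push parameter -/
def lu1 (u : ℝ) : ℝ := H766.stp (2 * u)

/-- the shrinking parameter -/
def lu2 (u : ℝ) : ℝ := 1 - H766.stp (2 * u - 1)

theorem lu1_mem (u : ℝ) : 0 ≤ lu1 u ∧ lu1 u ≤ 1 := ⟨stp_nonneg _, stp_le_one _⟩

theorem lu2_mem (u : ℝ) : 0 ≤ lu2 u ∧ lu2 u ≤ 1 := by
  unfold lu2
  have h1 := stp_nonneg (2 * u - 1)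
  have h2 := stp_le_one (2 * u - 1)
  constructor <;> linarith

theorem lu1_zero {u : ℝ} (hu : u ≤ 0) : lu1 u = 0 := stp_of_le (by linarith)

theorem lu1_one {u : ℝ} (hu : 1 / 2 ≤ u) : lu1 u = 1 := stp_of_ge (by linarith)

theorem lu2_one {u : ℝ} (hu : u ≤ 1 / 2) : lu2 u = 1 := by
  unfold lu2
  rw [stp_of_le (by linarith), sub_zero]

theorem lu2_zero {u : ℝ} (hu : 1 ≤ u) : lu2 u = 0 := by
  unfold lu2
  rw [stp_of_ge (by linarith), sub_self]

theorem contDiff_lu1 : ContDiff ℝ ∞ lu1 := stp_contDiff.comp (contDiff_const.mul contDiff_id)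

theorem contDiff_lu2 : ContDiff ℝ ∞ lu2 :=
  contDiff_const.sub (stp_contDiff.comp ((contDiff_const.mul contDiff_id).sub contDiff_const))

/-- the normalised negative gradient -/
def ya (F : Facts e) (P : PF E M K) (D : ℝ) (Y : ι → UT E M → E)
    (pr : UT E M → EuclideanSpace ℝ ι →L[ℝ] EuclideanSpace ℝ ι) (A : CAct DX) (C : X → M) (r : X → UT E M) (ε y₀ : ℝ)
    (b : X) : EuclideanSpace ℝ ι := ε • nrm y₀ (yy F P D Y pr A C r b)

theorem ya_mem (hpr : PrF Em pr) (ε y₀ : ℝ) (b : X) : ya F P D Y pr A C r ε y₀ b ∈ Em (r b) :=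
  (Em (r b)).smul_mem _ ((Em (r b)).smul_mem _ (yy_mem hpr b))

theorem norm_ya_le {ε y₀ : ℝ} (hε : 0 < ε) (hy₀ : 0 < y₀) (b : X) :
    ‖ya F P D Y pr A C r ε y₀ b‖ ≤ ε := by
  unfold ya
  rw [norm_smul, Real.norm_of_nonneg hε.le]
  have h1 := norm_nrm_le hy₀ (yy F P D Y pr A C r b)
  nlinarith

theorem norm_ya_eq {ε y₀ : ℝ} (hε : 0 < ε) (hy₀ : 0 < y₀) {b : X}
    (hb : y₀ ≤ ‖yy F P D Y pr A C r b‖) : ‖ya F P D Y pr A C r ε y₀ b‖ = ε := by
  unfold ya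
  rw [norm_smul, Real.norm_of_nonneg hε.le, norm_nrm_eq hy₀ hb, mul_one]

theorem ya_ne {ε y₀ : ℝ} (hy₀ : 0 < y₀) {b : X}
    (hb : ya F P D Y pr A C r ε y₀ b ≠ 0) : yy F P D Y pr A C r b ≠ 0 := by
  intro h
  apply hb
  unfold ya
  rw [(nrm_eq_zero hy₀).2 h, smul_zero]

theorem Fa.map_ya (hD : 0 < D) (hB : InjGE e D) (h : Fa F D A C r) (hY : ∀ j, Fld (Y j))
    (hpr : PrF Em pr) {ε y₀ : ℝ} (hy₀ : 0 < y₀) :
    DX.Map (Dif.lin (EuclideanSpace ℝ ι)) (ya F P D Y pr A C r ε y₀) := by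
  intro W _ _ _ u s hu
  have h1 : Sm (fun y => yy F P D Y pr A C r (u y)) s := h.map_yy hD hB hY hpr hu
  have h2 : ContDiff ℝ ∞ (fun y : EuclideanSpace ℝ ι => ε • nrm y₀ y) := (contDiff_nrm hy₀).const_smul ε
  exact Sm.comp (f := fun y : EuclideanSpace ℝ ι => ε • nrm y₀ y) (Sm.of_contDiff h2 _) h1

theorem Fa.ya_phi (hD : 0 < D) (hB : InjGE e D) (h : Fa F D A C r) (hY : ∀ j, Fld (Y j))
    (hpr : PrF Em pr) (hinv : ∀ v t, Em (phi F (v, t)) = Em v) {ε y₀ : ℝ} (b : X) (t : ℝ) :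
    ya F P D Y pr A C r ε y₀ (A.φ b t) = ya F P D Y pr A C r ε y₀ b := by
  unfold ya
  rw [h.yy_phi hD hB hY hpr hinv]

/-- the coordinates of the homotopy -/
def zH (F : Facts e) (P : PF E M K) (D : ℝ) (Y : ι → UT E M → E)
    (pr : UT E M → EuclideanSpace ℝ ι →L[ℝ] EuclideanSpace ℝ ι) (A : CAct DX) (C : X → M) (r : X → UT E M) (ε y₀ : ℝ)
    (u : ℝ) (b : X) : CV K :=
  lu2 u • xh e P C r b + yh P Y (r b) (lu1 u • ya F P D Y pr A C r ε y₀ b)

theorem zH_zero {ε y₀ u : ℝ} (hu : u ≤ 0) (b : X) :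
    zH F P D Y pr A C r ε y₀ u b = xh e P C r b := by
  unfold zH
  rw [lu1_zero hu, lu2_one (by linarith), one_smul, yh_smul, zero_smul, add_zero]

theorem zH_one {ε y₀ u : ℝ} (hu : 1 ≤ u) (b : X) :
    zH F P D Y pr A C r ε y₀ u b = yh P Y (r b) (ya F P D Y pr A C r ε y₀ b) := by
  unfold zH
  rw [lu1_one (by linarith), lu2_zero hu, zero_smul, one_smul, zero_add]

/-- the homotopy is smooth -/
theorem Fa.map_H (hD : 0 < D) (hB : InjGE e D) (h : Fa F D A C r) (hY : ∀ j, Fld (Y j))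
    (hpr : PrF Em pr) {ε y₀ : ℝ} (hy₀ : 0 < y₀) {τ : X × ℝ → ℝ}
    (hτ : (DX.prod (Dif.lin ℝ)).Map (Dif.lin ℝ) τ) :
    (DX.prod (Dif.lin ℝ)).Map (dM E M)
      (fun p => Pt e P r (fun b => zH F P D Y pr A C r ε y₀ (τ p) b) p.1) := by
  have h1 : (DX.prod (Dif.lin ℝ)).Map (dUT E M) (fun p => r p.1) := by
    intro W _ _ _ u s hu
    exact h.smr hu.1
  have h2 : (DX.prod (Dif.lin ℝ)).Map (Dif.lin (CV K))
      (fun p => zH F P D Y pr A C r ε y₀ (τ p) p.1) := by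
    intro W _ _ _ u s hu
    have k0 : Sm (fun y => τ (u y)) s := hτ hu
    have k1 : Sm (fun y => xh e P C r (u y).1) s := h.map_xh hB hu.1
    have k2 : Sm (fun y => ya F P D Y pr A C r ε y₀ (u y).1) s := h.map_ya hD hB hY hpr hy₀ hu.1
    have k3 : Sm (fun y => lu1 (τ (u y)) • ya F P D Y pr A C r ε y₀ (u y).1) s := by
      filter_upwards [k0, k2] with y q0 q2 using (contDiff_lu1.contDiffAt.comp y q0).smul q2
    have k4 : Sm (fun y => yh P Y (r (u y).1) (lu1 (τ (u y)) • ya F P D Y pr A C r ε y₀ (u y).1))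
        s := sm_yh P hY (h.smr hu.1) k3
    have k5 : Sm (fun y => lu2 (τ (u y)) • xh e P C r (u y).1 +
        yh P Y (r (u y).1) (lu1 (τ (u y)) • ya F P D Y pr A C r ε y₀ (u y).1)) s := by
      filter_upwards [k0, k1, k4] with y q0 q1 q4 using
        ((contDiff_lu2.contDiffAt.comp y q0).smul q1).add q4
    exact k5
  have h3 : (DX.prod (Dif.lin ℝ)).Map (dM E M) (Pt e P (fun p : X × ℝ => r p.1)
      (fun p : X × ℝ => zH F P D Y pr A C r ε y₀ (τ p) p.1)) :=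
    map_Pt (P := P) F h1 h2
  intro W _ _ _ u s hu
  exact h3 hu

/-- the energy of the loops of the homotopy -/
theorem Fa.E1_H (hD : 0 < D) (hB : InjGE e D) (h : Fa F D A C r) (hY : ∀ j, Fld (Y j))
    (hpr : PrF Em pr) (hinv : ∀ v t, Em (phi F (v, t)) = Em v) {ε y₀ : ℝ} (hy₀ : 0 < y₀) (u : ℝ)
    (b : X) : E1 E A (Pt e P r (zH F P D Y pr A C r ε y₀ u)) b =
      2 * D * EE F P D Y (r b) (fun t => lu2 u • zl D A (xh e P C r) b t)
        (lu1 u • ya F P D Y pr A C r ε y₀ b) := by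
  have hx : DX.Map (Dif.lin (CV K)) (fun b => lu2 u • xh e P C r b) := by
    intro W _ _ _ w s hw
    have k1 : Sm (fun y => xh e P C r (w y)) s := h.map_xh hB hw
    have k2 : Sm (fun y => lu2 u • xh e P C r (w y)) s := by
      filter_upwards [k1] with y q1 using ContDiffAt.const_smul (lu2 u) q1
    exact k2
  have ha : DX.Map (Dif.lin (EuclideanSpace ℝ ι)) (fun b => lu1 u • ya F P D Y pr A C r ε y₀ b) := by
    intro W _ _ _ w s hw
    have k1 : Sm (fun y => ya F P D Y pr A C r ε y₀ (w y)) s := h.map_ya hD hB hY hpr hy₀ hw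
    have k2 : Sm (fun y => lu1 u • ya F P D Y pr A C r ε y₀ (w y)) s := by
      filter_upwards [k1] with y q1 using ContDiffAt.const_smul (lu1 u) q1
    exact k2
  exact h.E1_push (P := P) (Y := Y) hD hY hx ha (b := b)
    (fun t => by rw [h.ya_phi hD hB hY hpr hinv])

theorem Fa.E1_le (hD : 0 < D) (hB : InjGE e D) (h : Fa F D A C r) (hY : ∀ j, Fld (Y j))
    (hpr : PrF Em pr) (hinv : ∀ v t, Em (phi F (v, t)) = Em v) {ε y₀ : ℝ} (hε : 0 < ε)
    (hy₀ : 0 < y₀) {b : X} (hg : Good F P D Y Em ε (r b) (zl D A (xh e P C r) b)) {u : ℝ}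
    (hu : u ≤ 1 / 2) : E1 E A (Pt e P r (zH F P D Y pr A C r ε y₀ u)) b ≤ E1 E A C b := by
  rw [h.E1_H hD hB hY hpr hinv hy₀, h.E1_eq (P := P) (Y := Y) hD hB hY b, lu2_one hu]
  simp only [one_smul]
  exact mul_le_mul_of_nonneg_left (h.EE_dec hD hB hY hpr hε hy₀ hg (lu1_mem u).1 (lu1_mem u).2)
    (by linarith)

theorem Fa.E1_lt (hD : 0 < D) (hB : InjGE e D) (h : Fa F D A C r) (hY : ∀ j, Fld (Y j))
    (hpr : PrF Em pr) (hinv : ∀ v t, Em (phi F (v, t)) = Em v) {ε y₀ : ℝ} (hε : 0 < ε)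
    (hy₀ : 0 < y₀) {b : X} (hg : Good F P D Y Em ε (r b) (zl D A (xh e P C r) b))
    (hyb : y₀ ≤ ‖yy F P D Y pr A C r b‖) {u : ℝ} (hu : 1 / 2 ≤ u) :
    E1 E A (Pt e P r (zH F P D Y pr A C r ε y₀ u)) b < (2 * D) ^ 2 := by
  rw [h.E1_H hD hB hY hpr hinv hy₀, lu1_one hu, one_smul, pow_two]
  exact mul_lt_mul_of_pos_left (Fa.EE_gap hpr hε hy₀ hg hyb (lu2_mem u).1 (lu2_mem u).2)
    (by linarith)

theorem Fa.E1_lt' (hD : 0 < D) (hB : InjGE e D) (h : Fa F D A C r) (hY : ∀ j, Fld (Y j))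
    (hpr : PrF Em pr) (hinv : ∀ v t, Em (phi F (v, t)) = Em v) {ε y₀ : ℝ} (hε : 0 < ε)
    (hy₀ : 0 < y₀) {b : X} (hg : Good F P D Y Em ε (r b) (zl D A (xh e P C r) b))
    (hyb : yy F P D Y pr A C r b ≠ 0) {u : ℝ} (hu : 1 ≤ u) :
    E1 E A (Pt e P r (zH F P D Y pr A C r ε y₀ u)) b < (2 * D) ^ 2 := by
  rw [h.E1_H hD hB hY hpr hinv hy₀, lu1_one (by linarith), one_smul, pow_two, lu2_zero hu]
  simp only [zero_smul]
  exact mul_lt_mul_of_pos_left (Fa.EE_mod hpr hε hy₀ hg hyb) (by linarith)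

end

end Vale.Agent.P231.S3N
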