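import Vale.Agent.P231.S3N.Fam4

/-!
# P231, stage 3, block N: the normal form of a family of loops near the closed geodesics
-/

set_option maxSynthPendingDepth 3
set_option linter.unusedSectionVars false
set_option linter.unusedVariables false

open Bundle Manifold Set Filter Module MeasureTheory
open scoped ContDiff Manifold Topology ENNReal

namespace Vale.Agent.P231.S3N

noncomputable section

open Vale.Agent.P234 Vale.Agent.P231 Vale.Agent.P231.Fm Vale.Agent.P231.W Vale.Agent.P231.H775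
open Vale.Agent.P231.X3 Vale.Agent.P231.H997 Vale.Agent.P231.WR Vale.Agent.P231.S2N
open Vale.Agent.P231.H766 Vale.Agent.P231.WD3 Vale.Agent.P231.S3R

/-! ### restriction to an invariant subset -/

section Sub

variable {B : Type*} {DB : Dif B} {U : Set B}

/-- plots with values in `U` are plots of the subset -/
theorem sub_lift {V : Type} [NormedAddCommGroup V] [NormedSpace ℝ V] [FiniteDimensional ℝ V]
    {u : V → B} {x : V} (hu : DB.At u x) (hU : ∀ᶠ y in 𝓝 x, u y ∈ U) :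
    ∃ v : V → U, (DB.sub U).At v x ∧ ∀ᶠ y in 𝓝 x, (v y : B) = u y := by
  classical
  have hx : u x ∈ U := hU.self_of_nhds
  refine ⟨fun y => if h : u y ∈ U then ⟨u y, h⟩ else ⟨u x, hx⟩, ?_, ?_⟩
  · refine DB.congr hu ?_
    filter_upwards [hU] with y hy
    simp only [Function.comp_apply, dif_pos hy]
  · filter_upwards [hU] with y hy
    simp only [dif_pos hy]

/-- the restricted action -/
def subA (A : CAct DB) (U : Set B) (hU : ∀ b ∈ U, ∀ t, A.φ b t ∈ U) : CAct (DB.sub U) where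
  φ b t := ⟨A.φ b t, hU b b.2 t⟩
  smooth := by
    intro V _ _ _ u x h
    have h1 : DB.At (fun y => ((u y).1 : B)) x := h.1
    exact A.at_phi h1 h.2
  zero b := Subtype.ext (A.zero b)
  add b s t := Subtype.ext (A.add b s t)
  per b := Subtype.ext (A.per b)

end Sub

variable {E : Type*} [NormedAddCommGroup E] [NormedSpace ℝ E] [FiniteDimensional ℝ E]
  {M : Type*} [MetricSpace M] [ChartedSpace E M] [IsManifold 𝓘(ℝ, E) ∞ M]
  [RiemannianBundle (fun x : M => TangentSpace 𝓘(ℝ, E) x)]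
  [IsContMDiffRiemannianBundle 𝓘(ℝ, E) ∞ E (fun x : M => TangentSpace 𝓘(ℝ, E) x)]
  {e : ∀ x : M, TangentSpace 𝓘(ℝ, E) x → M} {K : ℕ} {ι : Type} [Fintype ι] [DecidableEq ι]

variable {P : PF E M K} {Y : ι → UT E M → E} {D : ℝ}

variable [CompactSpace M] [ConnectedSpace M] [IsRiemannianManifold 𝓘(ℝ, E) M]
  {F : Facts e} {Em : UT E M → Submodule ℝ (EuclideanSpace ℝ ι)} {pr : UT E M → EuclideanSpace ℝ ι →L[ℝ] EuclideanSpace ℝ ι}

/-- the normal form: near the closed geodesics the family is the model family over the negative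
directions, everything else is shorter -/
structure NForm (F : Facts e) (D : ℝ) (Y : ι → UT E M → E)
    (Em : UT E M → Submodule ℝ (EuclideanSpace ℝ ι)) {B : Type*} {DB : Dif B} (A : CAct DB) (C : B → M)
    (ε η : ℝ) (U : Set B) (r : B → UT E M) (y : B → EuclideanSpace ℝ ι) (H : B → ℝ → M) : Prop where
  smooth : (DB.prod (Dif.lin ℝ)).Map (dM E M) (fun p => H p.1 p.2)
  zero : ∀ b u, u ≤ 0 → H b u = C b
  one : ∀ b u, 1 ≤ u → H b u = H b 1
  stay : ∀ b u, E1 E A C b ≤ (2 * D) ^ 2 - η → H b u = C b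
  const : ∀ b, (∀ t, C (A.φ b t) = C b) → ∀ u, H b u = C b
  U_phi : ∀ b ∈ U, ∀ t, A.φ b t ∈ U
  U_open : ∀ {V : Type} [NormedAddCommGroup V] [NormedSpace ℝ V] [FiniteDimensional ℝ V]
    {u : V → B} {x : V}, DB.At u x → u x ∈ U → ∀ᶠ z in 𝓝 x, u z ∈ U
  map_r : (DB.on U).Map (dUT E M) r
  map_y : (DB.on U).Map (Dif.lin (EuclideanSpace ℝ ι)) y
  r_phi : ∀ b ∈ U, ∀ t, r (A.φ b t) = phi F (r b, 2 * D * t)
  y_phi : ∀ b ∈ U, ∀ t, y (A.φ b t) = y b
  y_mem : ∀ b ∈ U, y b ∈ Em (r b)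
  y_le : ∀ b ∈ U, ‖y b‖ ≤ ε
  model : ∀ b ∈ U, H b 1 = e (foot (r b)) (Ya Y (r b) (y b) : E)
  energy : ∀ b, (b ∈ U → y b ≠ 0) → E1 E A (fun b => H b 1) b < (2 * D) ^ 2
  closed : ∀ {V : Type} [NormedAddCommGroup V] [NormedSpace ℝ V] [FiniteDimensional ℝ V]
    {u : V → B} {x : V}, DB.At u x → u x ∉ U → ∀ᶠ z in 𝓝 x, u z ∈ U → ‖y (u z)‖ = ε

section Glue

variable {B : Type*} {DB : Dif B} {A : CAct DB} {C : B → M} {U₀ : Set B} {r : B → UT E M}

/-- the cut-off function of the energy -/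
def chi (D η : ℝ) (q : ℝ) : ℝ :=
  Real.smoothTransition ((q - ((2 * D) ^ 2 - 3 * η / 4)) / (η / 4))

theorem chi_zero {η : ℝ} (hη : 0 < η) {q : ℝ} (hq : q ≤ (2 * D) ^ 2 - 3 * η / 4) :
    chi D η q = 0 :=
  Real.smoothTransition.zero_of_nonpos (div_nonpos_of_nonpos_of_nonneg (by linarith)
    (by linarith))

theorem chi_one {η : ℝ} (hη : 0 < η) {q : ℝ} (hq : (2 * D) ^ 2 - η / 2 ≤ q) :
    chi D η q = 1 :=
  Real.smoothTransition.one_of_one_le (by
    rw [one_le_div (by linarith)]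
    linarith)

theorem contDiff_chi (D η : ℝ) : ContDiff ℝ ∞ (chi D η) :=
  Real.smoothTransition.contDiff.comp ((contDiff_id.sub contDiff_const).div_const _)

open Classical in
/-- the homotopy -/
def HH5 (F : Facts e) (P : PF E M K) (D : ℝ) (Y : ι → UT E M → E)
    (pr : UT E M → EuclideanSpace ℝ ι →L[ℝ] EuclideanSpace ℝ ι) (A : CAct DB) (C : B → M) (r : B → UT E M) (U₀ : Set B)
    (hU₀ : ∀ b ∈ U₀, ∀ t, A.φ b t ∈ U₀) (ε y₀ η : ℝ) (b : B) (u : ℝ) : M :=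
  if h : b ∈ U₀ then
    Pt e P (fun b : U₀ => r b) (zH F P D Y pr (subA A U₀ hU₀) (fun b : U₀ => C b)
      (fun b : U₀ => r b) ε y₀ (H766.stp u * chi D η (E1 E A C b))) ⟨b, h⟩
  else C b

open Classical in
/-- the negative part -/
def y5 (F : Facts e) (P : PF E M K) (D : ℝ) (Y : ι → UT E M → E)
    (pr : UT E M → EuclideanSpace ℝ ι →L[ℝ] EuclideanSpace ℝ ι) (A : CAct DB) (C : B → M) (r : B → UT E M) (U₀ : Set B)
    (hU₀ : ∀ b ∈ U₀, ∀ t, A.φ b t ∈ U₀) (ε y₀ : ℝ) (b : B) : EuclideanSpace ℝ ι :=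
  if h : b ∈ U₀ then ya F P D Y pr (subA A U₀ hU₀) (fun b : U₀ => C b) (fun b : U₀ => r b) ε y₀
    ⟨b, h⟩ else 0

theorem HH5_pos (hU₀ : ∀ b ∈ U₀, ∀ t, A.φ b t ∈ U₀) {ε y₀ η : ℝ} {b : B} (h : b ∈ U₀) (u : ℝ) :
    HH5 F P D Y pr A C r U₀ hU₀ ε y₀ η b u =
      Pt e P (fun b : U₀ => r b) (zH F P D Y pr (subA A U₀ hU₀) (fun b : U₀ => C b)
        (fun b : U₀ => r b) ε y₀ (H766.stp u * chi D η (E1 E A C b))) ⟨b, h⟩ := dif_pos h

theorem HH5_neg (hU₀ : ∀ b ∈ U₀, ∀ t, A.φ b t ∈ U₀) {ε y₀ η : ℝ} {b : B} (h : b ∉ U₀) (u : ℝ) :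
    HH5 F P D Y pr A C r U₀ hU₀ ε y₀ η b u = C b := dif_neg h

theorem y5_pos (hU₀ : ∀ b ∈ U₀, ∀ t, A.φ b t ∈ U₀) {ε y₀ : ℝ} {b : B} (h : b ∈ U₀) :
    y5 F P D Y pr A C r U₀ hU₀ ε y₀ b =
      ya F P D Y pr (subA A U₀ hU₀) (fun b : U₀ => C b) (fun b : U₀ => r b) ε y₀ ⟨b, h⟩ :=
  dif_pos h

/-- where the parameter vanishes -/
theorem HH5_stay (hB : InjGE e D) (hU₀ : ∀ b ∈ U₀, ∀ t, A.φ b t ∈ U₀)
    (h : Fa F D (subA A U₀ hU₀) (fun b : U₀ => C b) (fun b : U₀ => r b)) {ε y₀ η : ℝ} {b : B}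
    {u : ℝ} (hu : H766.stp u * chi D η (E1 E A C b) = 0) :
    HH5 F P D Y pr A C r U₀ hU₀ ε y₀ η b u = C b := by
  by_cases hb : b ∈ U₀
  · rw [HH5_pos hU₀ hb, hu]
    have h1 : zH F P D Y pr (subA A U₀ hU₀) (fun b : U₀ => C b) (fun b : U₀ => r b) ε y₀ 0 =
        xh e P (fun b : U₀ => C b) (fun b : U₀ => r b) := funext fun b => zH_zero le_rfl b
    rw [h1, h.Pt_xh hB]
  · exact HH5_neg hU₀ hb u

theorem glue (hD : 0 < D) (hB : InjGE e D) (hY : ∀ j, Fld (Y j)) (hpr : PrF Em pr)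
    (hinv : ∀ v t, Em (phi F (v, t)) = Em v) (hC : DB.Map (dM E M) C)
    (hpt : ∀ b, DB.At (fun _ : ℝ => b) 0) (hU₀ : ∀ b ∈ U₀, ∀ t, A.φ b t ∈ U₀)
    (hUo : ∀ {V : Type} [NormedAddCommGroup V] [NormedSpace ℝ V] [FiniteDimensional ℝ V]
      {u : V → B} {x : V}, DB.At u x → u x ∈ U₀ → ∀ᶠ z in 𝓝 x, u z ∈ U₀)
    (h : Fa F D (subA A U₀ hU₀) (fun b : U₀ => C b) (fun b : U₀ => r b)) {ε ρ η : ℝ} (hε : 0 < ε)
    (hεD : ε ≤ D) (hη : 0 < η) (hcut : Cut F D Y Em ε ρ)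
    (hclose : ∀ b ∈ U₀, ∀ t, dist (C (A.φ b t)) (gm e (r b, 2 * D * t)) < ρ)
    (hg : ∀ b : U₀, Good F P D Y Em ε (r b)
      (zl D (subA A U₀ hU₀) (xh e P (fun b : U₀ => C b) (fun b : U₀ => r b)) b))
    (hdich : ∀ b, b ∉ U₀ → E1 E A C b ≤ (2 * D) ^ 2 - η)
    (hconst : ∀ b ∈ U₀, ¬ ∀ t, C (A.φ b t) = C b) :
    NForm F D Y Em A C ε η {b | (2 * D) ^ 2 - η / 2 < E1 E A C b} r
      (y5 F P D Y pr A C r U₀ hU₀ ε (η / (8 * D * ε)))
      (HH5 F P D Y pr A C r U₀ hU₀ ε (η / (8 * D * ε)) η) := by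
  have hy₀ : 0 < η / (8 * D * ε) := by positivity
  set y₀ := η / (8 * D * ε) with hy₀'
  set A' := subA A U₀ hU₀ with hA'
  set C' : U₀ → M := fun b => C b with hC'
  set r' : U₀ → UT E M := fun b => r b with hr'
  -- the energy function along plots
  have hE : DB.Map (Dif.lin ℝ) (E1 E A C) := map_E1' hC
  have hEc : ∀ {V : Type} [NormedAddCommGroup V] [NormedSpace ℝ V] [FiniteDimensional ℝ V]
      {u : V → B} {x : V}, DB.At u x → ContinuousAt (fun z => E1 E A C (u z)) x :=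
    fun {V} _ _ _ {u x} hu => (show Sm (fun z => E1 E A C (u z)) x from hE hu).continuousAt
  have hEphi : ∀ b t, E1 E A C (A.φ b t) = E1 E A C b := fun b t => E1_phi hC (hpt b) t
  have hE' : ∀ b (hb : b ∈ U₀), E1 E A' C' ⟨b, hb⟩ = E1 E A C b := fun b hb => rfl
  have hin : ∀ {b}, (2 * D) ^ 2 - η < E1 E A C b → b ∈ U₀ := fun {b} hb => by
    by_contra h1
    exact absurd (hdich b h1) (not_le.2 hb)
  have hU : ∀ {b}, b ∈ {b | (2 * D) ^ 2 - η / 2 < E1 E A C b} → b ∈ U₀ := fun {b} hb =>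
    hin (lt_trans (by linarith) (show (2 * D) ^ 2 - η / 2 < E1 E A C b from hb))
  -- the lower bound for the gradient
  have hyy : ∀ b (hb : b ∈ U₀), E1 E A C b ≤ (2 * D) ^ 2 - η / 4 →
      y₀ ≤ ‖yy F P D Y pr A' C' r' ⟨b, hb⟩‖ := by
    intro b hb hle
    have h1 := h.yy_ge hD hB hY hpr hε hεD hcut (b := ⟨b, hb⟩) (hclose b hb) (hg ⟨b, hb⟩)
    have h2 := h.E1_eq (P := P) (Y := Y) hD hB hY ⟨b, hb⟩
    rw [hE'] at h2
    rw [h2] at hle
    rw [hy₀', div_le_iff₀ (by positivity)]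
    nlinarith
  have hH1 : ∀ b (hb : b ∈ U₀) (u : ℝ),
      E1 E A (fun b => HH5 F P D Y pr A C r U₀ hU₀ ε y₀ η b u) b =
        E1 E A' (Pt e P r' (zH F P D Y pr A' C' r' ε y₀
          (H766.stp u * chi D η (E1 E A C b)))) ⟨b, hb⟩ := by
    intro b hb u
    have h1 : E1 E A' (Pt e P r' (zH F P D Y pr A' C' r' ε y₀
        (H766.stp u * chi D η (E1 E A C b)))) ⟨b, hb⟩ =
        E1 E A' (fun b' : U₀ => HH5 F P D Y pr A C r U₀ hU₀ ε y₀ η b' u) ⟨b, hb⟩ := by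
      refine E1_congr fun t => ?_
      have h2 : E1 E A C ((A'.φ ⟨b, hb⟩ t : U₀) : B) = E1 E A C b := hEphi b t
      rw [HH5_pos hU₀ (A'.φ ⟨b, hb⟩ t).2, h2]
    rw [h1]
    rfl
  have hsm : (DB.prod (Dif.lin ℝ)).Map (dM E M)
      (fun p => HH5 F P D Y pr A C r U₀ hU₀ ε y₀ η p.1 p.2) := by
    intro V _ _ _ w x hw
    by_cases hx : (w x).1 ∈ U₀
    · obtain ⟨v, hv, hvw⟩ := sub_lift hw.1 (hUo hw.1 hx)
      have hτ : ((DB.sub U₀).prod (Dif.lin ℝ)).Map (Dif.lin ℝ)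
          (fun p => H766.stp p.2 * chi D η (E1 E A C p.1)) := by
        intro V _ _ _ w x hw
        have h1 : Sm (fun z => E1 E A C (w z).1) x := hE hw.1
        have h2 : Sm (fun z => (w z).2) x := hw.2
        have h3 : Sm (fun z => H766.stp (w z).2 * chi D η (E1 E A C (w z).1)) x := by
          filter_upwards [h1, h2] with z k1 k2 using
            (stp_contDiff.contDiffAt.comp z k2).mul ((contDiff_chi D η).contDiffAt.comp z k1)
        exact h3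
      have h1 := h.map_H (P := P) (Y := Y) hD hB hY hpr (ε := ε) hy₀ hτ
        (u := fun z => (v z, (w z).2)) (x := x) ⟨hv, hw.2⟩
      refine (dM E M).congr h1 ?_
      filter_upwards [hvw, hUo hw.1 hx] with z hz hz'
      change Pt e P r' (zH F P D Y pr A' C' r' ε y₀
        (H766.stp (w z).2 * chi D η (E1 E A C (v z)))) (v z) =
          HH5 F P D Y pr A C r U₀ hU₀ ε y₀ η (w z).1 (w z).2
      rw [HH5_pos hU₀ hz', hz]
      congr 1
      exact Subtype.ext hz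
    · have h1 : E1 E A C (w x).1 < (2 * D) ^ 2 - 3 * η / 4 :=
        lt_of_le_of_lt (hdich _ hx) (by linarith)
      have h2 := (hEc (u := fun z => (w z).1) hw.1).eventually_lt_const h1
      refine (dM E M).congr (hC hw.1) ?_
      filter_upwards [h2] with z hz
      have h3 : HH5 F P D Y pr A C r U₀ hU₀ ε y₀ η (w z).1 (w z).2 = C (w z).1 :=
        HH5_stay hB hU₀ h (by rw [chi_zero hη hz.le, mul_zero])
      exact h3.symm
  refine ⟨hsm, ?_, ?_, ?_, ?_, ?_, ?_, ?_, ?_, ?_, ?_, ?_, ?_, ?_, ?_, ?_⟩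
  · intro b u hu
    exact HH5_stay hB hU₀ h (by rw [stp_of_le (by linarith), zero_mul])
  · intro b u hu
    by_cases hb : b ∈ U₀
    · rw [HH5_pos hU₀ hb, HH5_pos hU₀ hb, stp_of_ge (by linarith), stp_of_ge (by norm_num)]
    · rw [HH5_neg hU₀ hb, HH5_neg hU₀ hb]
  · intro b u hb
    exact HH5_stay hB hU₀ h (by rw [chi_zero hη (by linarith), mul_zero])
  · intro b hb u
    by_cases hb' : b ∈ U₀
    · exact absurd hb (hconst b hb')
    · exact HH5_neg hU₀ hb' u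
  · intro b hb t
    change (2 * D) ^ 2 - η / 2 < E1 E A C (A.φ b t)
    rw [hEphi]
    exact hb
  · intro V _ _ _ u x hu hx
    exact (hEc hu).eventually_const_lt hx
  · intro V _ _ _ u x hu
    obtain ⟨v, hv, hvw⟩ := sub_lift hu.1 (hu.2.mono fun z hz => hU hz)
    refine (dUT E M).congr (h.smr hv) ?_
    filter_upwards [hvw] with z hz
    change r (v z) = r (u z)
    rw [hz]
  · intro V _ _ _ u x hu
    obtain ⟨v, hv, hvw⟩ := sub_lift hu.1 (hu.2.mono fun z hz => hU hz)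
    refine (Dif.lin (EuclideanSpace ℝ ι)).congr (h.map_ya (P := P) (Y := Y) hD hB hY hpr (ε := ε) hy₀ hv) ?_
    filter_upwards [hvw, hu.2] with z hz hz'
    change ya F P D Y pr A' C' r' ε y₀ (v z) = y5 F P D Y pr A C r U₀ hU₀ ε y₀ (u z)
    rw [y5_pos hU₀ (hU hz')]
    congr 1
    exact Subtype.ext hz
  · intro b hb t
    exact h.eqv ⟨b, hU hb⟩ t
  · intro b hb t
    have hb' := hU hb
    rw [y5_pos hU₀ hb', y5_pos hU₀ (hU₀ b hb' t)]
    exact h.ya_phi hD hB hY hpr hinv ⟨b, hb'⟩ t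
  · intro b hb
    rw [y5_pos hU₀ (hU hb)]
    exact ya_mem (F := F) (P := P) (D := D) (Y := Y) (A := A') (C := C') (r := r') hpr ε y₀
      ⟨b, hU hb⟩
  · intro b hb
    rw [y5_pos hU₀ (hU hb)]
    exact norm_ya_le hε hy₀ (⟨b, hU hb⟩ : U₀)
  · intro b hb
    rw [HH5_pos hU₀ (hU hb), y5_pos hU₀ (hU hb), stp_of_ge (by norm_num),
      chi_one hη (le_of_lt hb), mul_one]
    unfold Pt
    rw [zH_one le_rfl, sec_yh]
  · intro b hb
    by_cases hb' : b ∈ U₀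
    · rw [hH1 b hb' 1, stp_of_ge (by norm_num), one_mul]
      by_cases hbU : b ∈ {b | (2 * D) ^ 2 - η / 2 < E1 E A C b}
      · rw [chi_one hη (le_of_lt hbU)]
        refine h.E1_lt' hD hB hY hpr hinv hε hy₀ (hg ⟨b, hb'⟩) ?_ le_rfl
        have h1 := hb hbU
        rw [y5_pos hU₀ hb'] at h1
        exact ya_ne hy₀ h1
      · have hle : E1 E A C b ≤ (2 * D) ^ 2 - η / 2 := not_lt.1 hbU
        rcases le_total (chi D η (E1 E A C b)) (1 / 2) with h1 | h1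
        · refine (h.E1_le hD hB hY hpr hinv hε hy₀ (hg ⟨b, hb'⟩) h1).trans_lt ?_
          rw [hE']
          linarith
        · exact h.E1_lt hD hB hY hpr hinv hε hy₀ (hg ⟨b, hb'⟩) (hyy b hb' (by linarith)) h1
    · have h1 : E1 E A (fun b => HH5 F P D Y pr A C r U₀ hU₀ ε y₀ η b 1) b = E1 E A C b := by
        refine E1_congr fun t => HH5_neg hU₀ (fun h2 => hb' ?_) 1
        have h3 := hU₀ _ h2 (-t)
        rwa [A.add, add_neg_cancel, A.zero] at h3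
      rw [h1]
      have := hdich b hb'
      linarith
  · intro V _ _ _ u x hu hx
    have hle : E1 E A C (u x) ≤ (2 * D) ^ 2 - η / 2 := not_lt.1 hx
    have h1 : E1 E A C (u x) < (2 * D) ^ 2 - η / 4 := by linarith
    filter_upwards [(hEc hu).eventually_lt_const h1] with z hz hzU
    rw [y5_pos hU₀ (hU hzU)]
    exact norm_ya_eq hε hy₀ (hyy (u z) (hU hzU) hz.le)

end Glue

end

end Vale.Agent.P231.S3N
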