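import Vale.Agent.P231.S3N.Fam5

/-!
# P231, stage 3, block N: the normal form theorem
-/

set_option maxSynthPendingDepth 3
set_option linter.unusedSectionVars false
set_option linter.unusedVariables false

open Bundle Manifold Set Filter Module MeasureTheory
open scoped ContDiff Manifold Topology ENNReal

namespace Vale.Agent.P231.S3N

noncomputable section

open Vale.Agent.P234 Vale.Agent.P231 Vale.Agent.P231.Fm Vale.Agent.P231.W Vale.Agent.P231.H775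
open Vale.Agent.P231.X3 Vale.Agent.P231.H997 Vale.Agent.P231.WR Vale.Agent.P231.S2N
open Vale.Agent.P231.H766 Vale.Agent.P231.WD3 Vale.Agent.P231.S3R

variable {E : Type*} [NormedAddCommGroup E] [NormedSpace ℝ E] [FiniteDimensional ℝ E]
  {M : Type*} [MetricSpace M] [ChartedSpace E M] [IsManifold 𝓘(ℝ, E) ∞ M]
  [RiemannianBundle (fun x : M => TangentSpace 𝓘(ℝ, E) x)]
  [IsContMDiffRiemannianBundle 𝓘(ℝ, E) ∞ E (fun x : M => TangentSpace 𝓘(ℝ, E) x)]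
  {e : ∀ x : M, TangentSpace 𝓘(ℝ, E) x → M} {K : ℕ} {ι : Type} [Fintype ι] [DecidableEq ι]

variable {Y : ι → UT E M → E} {D : ℝ}

variable [CompactSpace M] [ConnectedSpace M] [IsRiemannianManifold 𝓘(ℝ, E) M]
  {F : Facts e} {Em : UT E M → Submodule ℝ (EuclideanSpace ℝ ι)}
  {pr : UT E M → EuclideanSpace ℝ ι →L[ℝ] EuclideanSpace ℝ ι}

/-- a constant loop is not close to a closed geodesic -/
theorem not_const_of_Cl (F : Facts e) (hD : 0 < D) (hB : InjGE e D) {B : Type*} {DB : Dif B} {A : CAct DB}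
    {C : B → M} {ρ : ℝ} (hρ : ρ ≤ D / 2) {b : B} (hb : Cl e D A C ρ b) :
    ¬ ∀ t, C (A.φ b t) = C b := by
  intro h
  obtain ⟨v, hv⟩ := hb
  have h1 := hv 0
  have h2 := hv (1 / 2)
  rw [h, mul_zero] at h1
  rw [h, show 2 * D * (1 / 2) = D by ring] at h2
  have h3 : dist (gm e (v, 0)) (gm e (v, D)) = D := by
    rw [dist_gm_gm F hB v (by rw [sub_zero, abs_of_pos hD]), sub_zero, abs_of_pos hD]
  have h4 := dist_triangle_left (gm e (v, 0)) (gm e (v, D)) (C b)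
  linarith

/-- **Normal form near the closed geodesics**, from the three pointwise inputs. -/
theorem NegF.nform (h : NegF F D Y Em) (hpr : PrF Em pr) (hD : 0 < D) (hB : InjGE e D)
    (hdiam : ∀ p q : M, dist p q ≤ D) (P : PF E M K) (v₀ : UT E M) {ε₂ : ℝ} (hε₂ : 0 < ε₂)
    (hcut : ∀ ε, 0 < ε → ε ≤ ε₂ → ∃ ρ, 0 < ρ ∧ Cut F D Y Em ε ρ)
    {B : Type*} {DB : Dif B} {A : CAct DB} (hpt : ∀ b, DB.At (fun _ : ℝ => b) 0) {δ₀ : ℝ}
    (hδ₀ : 0 < δ₀) (L : List (B → ℂ)) (hL : ∀ f ∈ L, DB.Map (Dif.lin ℂ) f ∧ Equi A f)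
    (hcov : ∀ b, ∃ f ∈ L, δ₀ ≤ ‖f b‖) :
    ∃ ε₀, 0 < ε₀ ∧ ∀ ε, 0 < ε → ε ≤ ε₀ → ∃ ρ₁, 0 < ρ₁ ∧ ∀ η, 0 < η → ∀ C : B → M,
      DB.Map (dM E M) C →
      (∀ b, E1 E A C b ≤ (2 * D) ^ 2 - η ∨
        (E1 E A C b ≤ (2 * D) ^ 2 + ρ₁ ∧ Cl e D A C ρ₁ b)) →
      ∃ (U : Set B) (r : B → UT E M) (y : B → EuclideanSpace ℝ ι) (H : B → ℝ → M),
        NForm F D Y Em A C ε η U r y H := by
  obtain ⟨c, hc, ε₁, hε₁, hε₁1, hneg, hmain⟩ := h.main hD hB hdiam P
  refine ⟨min (min ε₁ ε₂) D, lt_min (lt_min hε₁ hε₂) hD, fun ε hε hε0 => ?_⟩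
  have hεε₁ : ε ≤ ε₁ := hε0.trans ((min_le_left _ _).trans (min_le_left _ _))
  have hεε₂ : ε ≤ ε₂ := hε0.trans ((min_le_left _ _).trans (min_le_right _ _))
  have hεD : ε ≤ D := hε0.trans (min_le_right _ _)
  obtain ⟨ρc, hρc, hcutε⟩ := hcut ε hε hεε₂
  obtain ⟨ρm, hρm, hm⟩ := hmain ε hε hεε₁
  have hη' : 0 < min (min ρc ρm) D := lt_min (lt_min hρc hρm) hD
  obtain ⟨ρs, hρs, hs⟩ := S3R.stages (A := A) F hD hB hdiam v₀ hδ₀ L hL _ hη'
  set ρ₁ : ℝ := min (min ρs (2 * D * ρm)) (D / 2) with hρ₁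
  have l1 : ρ₁ ≤ ρs := (min_le_left _ _).trans (min_le_left _ _)
  have l2 : ρ₁ ≤ 2 * D * ρm := (min_le_left _ _).trans (min_le_right _ _)
  have l3 : ρ₁ ≤ D / 2 := min_le_right _ _
  refine ⟨ρ₁, lt_min (lt_min hρs (by positivity)) (by positivity), fun η hη C hC hdich => ?_⟩
  obtain ⟨r, hr1, hr2, hr3⟩ := hs C hC
  set U₀ : Set B := {b | Cl e D A C ρ₁ b} with hU₀
  have hinv₀ : ∀ b ∈ U₀, ∀ t, A.φ b t ∈ U₀ := fun b hb t => Cl.phi F hb t
  have hop : ∀ {V : Type} [NormedAddCommGroup V] [NormedSpace ℝ V] [FiniteDimensional ℝ V]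
      {u : V → B} {x : V}, DB.At u x → u x ∈ U₀ → ∀ᶠ z in 𝓝 x, u z ∈ U₀ :=
    fun {V} _ _ _ {u x} hu hx => Cl_open F hD hB hdiam hC hu hx
  have hnr : ∀ b ∈ U₀, Nr e D A C b (r b) (min (min ρc ρm) D) := fun b hb =>
    hr2 b (Cl.mono hb l1)
  have hfa : Fa F D (subA A U₀ hinv₀) (fun b : U₀ => C b) (fun b : U₀ => r b) :=
    { smC := fun {V} _ _ _ {u x} hu => hC hu
      smr := fun {V} _ _ _ {u x} hu => hr1 hu (Cl.mono (u x).2 l1)
      eqv := fun b t => hr3 b (Cl.mono b.2 l1) (hcov b) t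
      near := fun b => ((hnr b b.2).zero F).trans_le (min_le_right _ _)
      pt := fun b => hpt b }
  have hEle : ∀ b, E1 E A C b ≤ (2 * D) ^ 2 + ρ₁ := fun b => by
    rcases hdich b with h1 | h1
    · have : 0 < ρ₁ := lt_min (lt_min hρs (by positivity)) (by positivity)
      linarith
    · exact h1.1
  have hgood : ∀ b : U₀, Good F P D Y Em ε (r b)
      (zl D (subA A U₀ hinv₀) (xh e P (fun b : U₀ => C b) (fun b : U₀ => r b)) b) := by
    intro b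
    have h1 := hm (r b) _ (hfa.lp (P := P) hD hB b) (fun t => by
      change ‖xh e P (fun b : U₀ => C b) (fun b : U₀ => r b) _‖ ≤ ρm
      rw [hfa.norm_xh hB]
      exact ((hnr _ (Subtype.prop _)).zero F).le.trans
        ((min_le_left _ _).trans (min_le_right _ _))) (by
      have h2 := hfa.E1_eq (P := P) (Y := Y) hD hB h.fld b
      have h3 : E1 E (subA A U₀ hinv₀) (fun b : U₀ => C b) b = E1 E A C b := rfl
      have h4 := hEle b
      rw [← h3, h2] at h4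
      have h5 : 0 < 2 * D := by linarith
      by_contra h6
      push Not at h6
      have h7 := mul_lt_mul_of_pos_left h6 h5
      nlinarith)
    refine ⟨fun δ hδ hδ1 s hs0 hs => ?_, h1.2, fun δ hδ hδ1 s hs0 hs =>
      hneg (r b) δ hδ hδ1 s hs0 (hs.trans hεε₁)⟩
    have h2 := h1.1 δ hδ hδ1 s hs0 (hs.trans hεε₁)
    have h3 : 0 ≤ c / 2 * s ^ 2 := by positivity
    exact h2.trans (by linarith)
  exact ⟨_, r, _, _, glue hD hB h.fld hpr h.inv hC hpt hinv₀ hop hfa hε hεD hη hcutε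
    (fun b hb t => (hnr b hb t).trans_le ((min_le_left _ _).trans (min_le_left _ _))) hgood
    (fun b hb => (hdich b).resolve_right fun h1 => hb h1.2)
    (fun b hb => not_const_of_Cl F hD hB l3 hb)⟩

end

end Vale.Agent.P231.S3N
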