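import Vale.Agent.P231.S3N.Est

/-!
# P231, stage 3, block N: loops close to a closed geodesic whose energy is not much larger are
close in the `H¹` sense
-/

set_option maxSynthPendingDepth 3
set_option linter.unusedSectionVars false
set_option linter.unusedVariables false

open Bundle Manifold Set Filter Module MeasureTheory
open scoped ContDiff Manifold Topology

namespace Vale.Agent.P231.S3N

noncomputable section

open Vale.Agent.P234 Vale.Agent.P231 Vale.Agent.P231.Fm Vale.Agent.P231.W Vale.Agent.P231.H775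
open Vale.Agent.P231.X3 Vale.Agent.P231.H997 Vale.Agent.P231.WR Vale.Agent.P231.S2N

attribute [local instance] WF.topUT

variable {E : Type*} [NormedAddCommGroup E] [NormedSpace ℝ E] [FiniteDimensional ℝ E]
  {M : Type*} [MetricSpace M] [ChartedSpace E M] [IsManifold 𝓘(ℝ, E) ∞ M]
  [RiemannianBundle (fun x : M => TangentSpace 𝓘(ℝ, E) x)]
  [IsContMDiffRiemannianBundle 𝓘(ℝ, E) ∞ E (fun x : M => TangentSpace 𝓘(ℝ, E) x)]
  {e : ∀ x : M, TangentSpace 𝓘(ℝ, E) x → M} {K : ℕ} {ι : Type} [Fintype ι] [DecidableEq ι]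
  [CompactSpace M] [ConnectedSpace M] [IsRiemannianManifold 𝓘(ℝ, E) M]

/-! ### Lipschitz dependence of the Lagrangian on the point -/

/-- the Lagrangian along a line -/
def LL (e : ∀ x : M, TangentSpace 𝓘(ℝ, E) x → M) (P : PF E M K)
    (q : (UT E M × ((CV K × CV K) × (ℝ × CV K))) × ℝ) : ℝ :=
  bb e P q.1.1 (q.1.2.1.1 + q.2 • q.1.2.1.2) q.1.2.2 q.1.2.2

theorem map_LL (F : Facts e) (P : PF E M K) :
    (((dUT E M).prod (Dif.lin ((CV K × CV K) × (ℝ × CV K)))).prod (Dif.lin ℝ)).Map (Dif.lin ℝ)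
      (LL e P) := by
  intro V _ _ _ u x h
  have hU : (dUT E M).At (fun y => (u y).1.1) x := h.1.1
  have hq : Sm (fun y => (u y).1.2) x := h.1.2
  have hs : Sm (fun y => (u y).2) x := h.2
  have h1 : Sm (fun y => (u y).1.2.1.1 + (u y).2 • (u y).1.2.1.2) x :=
    Sm.comp (f := fun r : ((CV K × CV K) × (ℝ × CV K)) × ℝ => r.1.1.1 + r.2 • r.1.1.2)
      (Sm.of_contDiff (by fun_prop) _) (hq.prodMk hs)
  have h2 : Sm (fun y => (u y).1.2.2) x :=
    Sm.comp (f := fun r : (CV K × CV K) × (ℝ × CV K) => r.2) (Sm.of_contDiff (by fun_prop) _) hq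
  exact sm_bb P F hU h1 h2 h2

/-- the derivative of the Lagrangian along a line -/
def DL (e : ∀ x : M, TangentSpace 𝓘(ℝ, E) x → M) (P : PF E M K)
    (q : UT E M × ((CV K × CV K) × (ℝ × CV K))) : ℝ :=
  deriv (fun r => LL e P (q, r)) 0

theorem cont_DL (F : Facts e) (P : PF E M K) : Continuous (DL e P) := by
  refine cont_UT (V := (CV K × CV K) × (ℝ × CV K)) (W := ℝ) ?_
  have h1 : (((dUT E M).prod (Dif.lin ((CV K × CV K) × (ℝ × CV K)))).prod (Dif.lin ℝ)).Map
      (Dif.lin ℝ) (fun p => deriv (fun r => LL e P (p.1, r)) p.2) := map_derivW (map_LL F P)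
  intro V _ _ _ u x h
  exact h1 (u := fun y => (u y, (0 : ℝ))) ⟨h, Sm.of_contDiff contDiff_const _⟩

theorem contDiff_LL (F : Facts e) (P : PF E M K) (q : UT E M × ((CV K × CV K) × (ℝ × CV K))) :
    ContDiff ℝ ∞ (fun s => LL e P (q, s)) :=
  contDiff_sliceW (map_LL F P) (x := q) ⟨at_constUT q.1 0, Sm.of_contDiff contDiff_const _⟩

theorem DL_smul_w (F : Facts e) (P : PF E M K) (u : UT E M) (z d : CV K) (c : ℝ) (w : ℝ × CV K) :
    DL e P (u, ((z, d), c • w)) = c ^ 2 * DL e P (u, ((z, d), w)) := by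
  unfold DL
  have h1 : (fun r => LL e P ((u, ((z, d), c • w)), r)) =
      fun r => c ^ 2 * LL e P ((u, ((z, d), w)), r) := by
    funext r
    unfold LL
    simp only
    rw [bb_smul, bb_comm, bb_smul]
    ring
  rw [h1, deriv_const_mul _ ((contDiff_LL F P _).differentiable (by simp) 0)]

theorem DL_smul_d (F : Facts e) (P : PF E M K) (u : UT E M) (z d : CV K) (c : ℝ) (w : ℝ × CV K) :
    DL e P (u, ((z, c • d), w)) = c * DL e P (u, ((z, d), w)) := by
  unfold DL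
  have h1 : (fun r => LL e P ((u, ((z, c • d), w)), r)) =
      fun r => (fun s => LL e P ((u, ((z, d), w)), s)) (c * r) := by
    funext r
    unfold LL
    simp only
    rw [smul_smul, mul_comm]
  have h2 := deriv_comp_mul_left c (fun s => LL e P ((u, ((z, d), w)), s)) 0
  rw [mul_zero, smul_eq_mul] at h2
  rw [h1]
  exact h2

theorem DL_bound (F : Facts e) (P : PF E M K) (R : ℝ) (hR : 0 ≤ R) : ∃ C, 0 ≤ C ∧
    ∀ (u : UT E M) (z d : CV K), ‖z‖ ≤ R → ∀ w : ℝ × CV K,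
      |DL e P (u, ((z, d), w))| ≤ C * ‖d‖ * ‖w‖ ^ 2 := by
  obtain ⟨C, hC, h⟩ := bdd_UT (V := (CV K × CV K) × (ℝ × CV K)) (cont_DL F P) (max R 1)
  refine ⟨C, hC, fun u z d hz w => ?_⟩
  have key : ∀ (d : CV K) (w : ℝ × CV K), ‖d‖ ≤ 1 → ‖w‖ ≤ 1 →
      |DL e P (u, ((z, d), w))| ≤ C := by
    intro d w hd hw
    have h1 := h u ((z, d), w) (by
      rw [Prod.norm_def, Prod.norm_def]
      exact sup_le (sup_le (hz.trans (le_max_left _ _)) (hd.trans (le_max_right _ _)))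
        (hw.trans (le_max_right _ _)))
    exact h1
  by_cases h0 : d = 0
  · subst h0
    have h1 := DL_smul_d F P u z 0 0 w
    rw [zero_smul, zero_mul] at h1
    rw [h1, norm_zero, mul_zero, zero_mul, abs_zero]
  by_cases h0' : w = 0
  · subst h0'
    have h1 := DL_smul_w F P u z d 0 0
    rw [zero_smul, zero_pow two_ne_zero, zero_mul] at h1
    rw [h1, norm_zero, abs_zero]
    positivity
  have hd : 0 < ‖d‖ := norm_pos_iff.2 h0
  have hw : 0 < ‖w‖ := norm_pos_iff.2 h0'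
  have e1 : d = ‖d‖ • (‖d‖⁻¹ • d) := by rw [smul_smul, mul_inv_cancel₀ hd.ne', one_smul]
  have e2 : w = ‖w‖ • (‖w‖⁻¹ • w) := by rw [smul_smul, mul_inv_cancel₀ hw.ne', one_smul]
  have e3 : DL e P (u, ((z, d), w)) =
      ‖d‖ * (‖w‖ ^ 2 * DL e P (u, ((z, ‖d‖⁻¹ • d), ‖w‖⁻¹ • w))) := by
    conv_lhs => rw [e1, DL_smul_d F P, e2, DL_smul_w F P]
  rw [e3, abs_mul, abs_mul, abs_of_pos hd, abs_of_pos (pow_pos hw 2)]
  have e5 := key (‖d‖⁻¹ • d) (‖w‖⁻¹ • w)
    (by rw [norm_smul, norm_inv, norm_norm, inv_mul_cancel₀ hd.ne'])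
    (by rw [norm_smul, norm_inv, norm_norm, inv_mul_cancel₀ hw.ne'])
  calc ‖d‖ * (‖w‖ ^ 2 * |DL e P (u, ((z, ‖d‖⁻¹ • d), ‖w‖⁻¹ • w))|) ≤
      ‖d‖ * (‖w‖ ^ 2 * C) := by gcongr
    _ = C * ‖d‖ * ‖w‖ ^ 2 := by ring

/-- the Lagrangian is Lipschitz in the point -/
theorem bb_lip (F : Facts e) (P : PF E M K) (R : ℝ) (hR : 0 ≤ R) : ∃ C, 0 ≤ C ∧
    ∀ (u : UT E M) (z z' : CV K), ‖z‖ ≤ R → ‖z'‖ ≤ R → ∀ w : ℝ × CV K,
      |bb e P u z' w w - bb e P u z w w| ≤ C * ‖z' - z‖ * ‖w‖ ^ 2 := by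
  obtain ⟨C, hC, h⟩ := DL_bound F P R hR
  refine ⟨C, hC, fun u z z' hz hz' w => ?_⟩
  set g : ℝ → ℝ := fun s => LL e P ((u, ((z, z' - z), w)), s) with hg
  have hgd : ∀ s, HasDerivAt g (DL e P (u, ((z + s • (z' - z), z' - z), w))) s := by
    intro s
    have h1 : DifferentiableAt ℝ g s := (contDiff_LL F P _).differentiable (by simp) s
    have h2 : DL e P (u, ((z + s • (z' - z), z' - z), w)) = deriv g s := by
      unfold DL
      have e1 : (fun r => LL e P ((u, ((z + s • (z' - z), z' - z), w)), r)) =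
          fun r => g (s + r) := by
        funext r
        rw [hg]
        unfold LL
        simp only
        rw [add_smul, add_assoc]
      have e2 := deriv_comp_const_add (f := g) s 0
      rw [add_zero] at e2
      rw [e1]
      exact e2
    rw [h2]
    exact h1.hasDerivAt
  have hb : ∀ s ∈ Ico (0 : ℝ) 1, ‖DL e P (u, ((z + s • (z' - z), z' - z), w))‖ ≤
      C * ‖z' - z‖ * ‖w‖ ^ 2 := by
    intro s hs
    refine h u _ _ ?_ w
    have e1 : z + s • (z' - z) = (1 - s) • z + s • z' := by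
      rw [smul_sub, sub_smul, one_smul]
      abel
    rw [e1]
    calc ‖(1 - s) • z + s • z'‖ ≤ ‖(1 - s) • z‖ + ‖s • z'‖ := norm_add_le _ _
      _ = (1 - s) * ‖z‖ + s * ‖z'‖ := by
          rw [norm_smul, norm_smul, Real.norm_of_nonneg (by linarith [hs.2]),
            Real.norm_of_nonneg hs.1]
      _ ≤ (1 - s) * R + s * R := by
          have := hs.1
          have := hs.2
          gcongr
      _ = R := by ring
  have h3 := norm_image_sub_le_of_norm_deriv_le_segment_01' (f := g)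
    (fun s _ => (hgd s).hasDerivWithinAt) hb
  have e1 : g 1 = bb e P u z' w w := by
    rw [hg]
    unfold LL
    simp only [one_smul]
    rw [add_sub_cancel]
  have e2 : g 0 = bb e P u z w w := by
    rw [hg]
    unfold LL
    simp only [zero_smul, add_zero]
  rw [e1, e2] at h3
  exact h3

/-! ### at the geodesic -/

/-- the coordinates of the velocity -/
def hv (P : PF E M K) (u : UT E M) : CV K := co P (foot u) (vec' u)

theorem map_hv (F : Facts e) (P : PF E M K) : (dUT E M).Map (Dif.lin (CV K)) (hv P) := by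
  intro V _ _ _ u x h
  have h1 : ∀ᶠ y in 𝓝 x, SmV (fun y => foot (u y)) (fun y => (vec' (u y) : E)) y := h
  have h2 : ∀ᶠ y in 𝓝 x, ContDiffAt ℝ ∞ (fun y => hv P (u y)) y := by
    filter_upwards [h1] with y hy
    exact sm_co P hy
  exact h2

theorem nm_sq' (x : M) (a : E) : nm x a ^ 2 = ip x a a :=
  (real_inner_self_eq_norm_sq (F := TangentSpace 𝓘(ℝ, E) x) a).symm

theorem ip_sec_inner (P : PF E M K) (x : M) (a : E) (z : CV K) :
    ip x a (sec P x z) = inner ℝ (co P x a) z := by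
  rw [ip_sec, PiLp.inner_apply]
  refine Finset.sum_congr rfl fun i _ => ?_
  rfl

theorem bb_zero (F : Facts e) (P : PF E M K) (u : UT E M) (ξ : CV K) :
    bb e P u 0 (1, ξ) (1, ξ) = 1 + 2 * inner ℝ (hv P u) ξ + nm (foot u) (sec P (foot u) ξ) ^ 2 := by
  have h0 : Ps e P u (0, 0) = foot u := by
    unfold Ps
    rw [gm_zero F, sec_zero]
    exact F.isExp.map_zero _
  unfold bb
  rw [Wd_zero P F, h0]
  simp only [one_smul]
  have h1 := nm_vec' u
  rw [ip_add_right', ip_add_left', ip_add_left', WR.ip_comm' (foot u) (sec P (foot u) ξ) (vec' u),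
    ip_sec_inner, ← nm_sq', ← nm_sq', h1]
  unfold hv
  ring

/-- derivative along the flow of a vector valued function -/
def dfl (F : Facts e) (f : UT E M → CV K) (u : UT E M) : CV K :=
  deriv (fun t : ℝ => f (phi F (u, t))) 0

theorem map_dfl (F : Facts e) {f : UT E M → CV K} (hf : (dUT E M).Map (Dif.lin (CV K)) f) :
    (dUT E M).Map (Dif.lin (CV K)) (dfl F f) := by
  have h0 : ((dUT E M).prod (Dif.lin ℝ)).Map (Dif.lin (CV K)) (fun p => f (phi F p)) :=
    fun {V} _ _ _ {u x} h => hf (map_phi F h)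
  have h1 : ((dUT E M).prod (Dif.lin ℝ)).Map (Dif.lin (CV K))
      (fun p => deriv (fun r : ℝ => f (phi F (p.1, r))) p.2) :=
    map_derivW (f := fun p : UT E M × ℝ => f (phi F p)) h0
  intro V _ _ _ u x h
  exact h1 (u := fun y => (u y, (0 : ℝ))) ⟨h, Sm.of_contDiff contDiff_const _⟩

theorem hasDerivAt_flow (F : Facts e) {f : UT E M → CV K}
    (hf : (dUT E M).Map (Dif.lin (CV K)) f) (v : UT E M) (t : ℝ) :
    HasDerivAt (fun t : ℝ => f (phi F (v, t))) (dfl F f (phi F (v, t))) t := by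
  have h0 : ((dUT E M).prod (Dif.lin ℝ)).Map (Dif.lin (CV K)) (fun p => f (phi F p)) :=
    fun {V} _ _ _ {u x} h => hf (map_phi F h)
  have hc : ContDiff ℝ ∞ (fun t : ℝ => f (phi F (v, t))) :=
    contDiff_sliceW (f := fun p : UT E M × ℝ => f (phi F p)) h0 (x := v) (at_constUT v 0)
  have h1 : DifferentiableAt ℝ (fun t : ℝ => f (phi F (v, t))) t := hc.differentiable (by simp) t
  have h2 : dfl F f (phi F (v, t)) = deriv (fun t : ℝ => f (phi F (v, t))) t := by
    unfold dfl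
    have e1 : (fun s : ℝ => f (phi F (phi F (v, t), s))) =
        fun s => (fun t : ℝ => f (phi F (v, t))) (t + s) := by
      funext s
      rw [phi_add]
    have e2 := deriv_comp_const_add (f := fun t : ℝ => f (phi F (v, t))) t 0
    rw [add_zero] at e2
    rw [e1]
    exact e2
  rw [h2]
  exact h1.hasDerivAt

theorem contDiff_flow (F : Facts e) {f : UT E M → CV K}
    (hf : (dUT E M).Map (Dif.lin (CV K)) f) (v : UT E M) :
    ContDiff ℝ ∞ (fun t : ℝ => f (phi F (v, t))) := by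
  have h0 : ((dUT E M).prod (Dif.lin ℝ)).Map (Dif.lin (CV K)) (fun p => f (phi F p)) :=
    fun {V} _ _ _ {u x} h => hf (map_phi F h)
  exact contDiff_sliceW (f := fun p : UT E M × ℝ => f (phi F p)) h0 (x := v) (at_constUT v 0)

/-! ### coordinate loops -/

/-- the coordinates of a smooth closed curve near the closed geodesic of `v` -/
structure Lp (e : ∀ x : M, TangentSpace 𝓘(ℝ, E) x → M) (P : PF E M K) (D : ℝ) (v : UT E M)
    (x : ℝ → CV K) : Prop where
  smooth : ContDiff ℝ ∞ x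
  per : ∀ t, x (t + 2 * D) = x t
  mem : ∀ t, co P (gm e (v, t)) (sec P (gm e (v, t)) (x t)) = x t

theorem Lp.cont_deriv {P : PF E M K} {D : ℝ} {v : UT E M} {x : ℝ → CV K} (h : Lp e P D v x) :
    Continuous (deriv x) := ((contDiff_infty_iff_deriv.1 h.smooth).2).continuous

theorem Lp.hasDerivAt {P : PF E M K} {D : ℝ} {v : UT E M} {x : ℝ → CV K} (h : Lp e P D v x)
    (t : ℝ) : HasDerivAt x (deriv x t) t := (h.smooth.differentiable (by simp) t).hasDerivAt

/-- the velocity term integrates to something small -/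
theorem Lp.int_hv (F : Facts e) {D : ℝ} (hD : 0 < D) (hB : InjGE e D)
    (hdiam : ∀ p q : M, dist p q ≤ D) (P : PF E M K) : ∃ C, 0 ≤ C ∧ ∀ v x, Lp e P D v x →
      ∀ ρ, (∀ t, ‖x t‖ ≤ ρ) →
        |∫ t in (0 : ℝ)..(2 * D), inner ℝ (hv P (phi F (v, t))) (deriv x t)| ≤ C * ρ := by
  obtain ⟨C, hC, h⟩ := bdd_UT0 (cont_UT0 (map_dfl F (map_hv F P)))
  refine ⟨2 * D * C, by positivity, fun v x hx ρ hρ => ?_⟩
  have hd : ∀ t, HasDerivAt (fun t => inner ℝ (hv P (phi F (v, t))) (x t))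
      (inner ℝ (hv P (phi F (v, t))) (deriv x t) +
        inner ℝ (dfl F (hv P) (phi F (v, t))) (x t)) t := fun t =>
    (hasDerivAt_flow F (map_hv F P) v t).inner ℝ (hx.hasDerivAt t)
  have c1 : Continuous fun t => inner ℝ (hv P (phi F (v, t))) (deriv x t) :=
    ((contDiff_flow F (map_hv F P) v).continuous).inner hx.cont_deriv
  have c2 : Continuous fun t => inner ℝ (dfl F (hv P) (phi F (v, t))) (x t) :=
    ((contDiff_flow F (map_dfl F (map_hv F P)) v).continuous).inner hx.smooth.continuous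
  have h1 := intervalIntegral.integral_eq_sub_of_hasDerivAt (a := 0) (b := 2 * D)
    (fun t _ => hd t) ((c1.add c2).intervalIntegrable _ _)
  have h2 : x (2 * D) = x 0 := by
    have := hx.per 0
    rwa [zero_add] at this
  have h3 : phi F (v, 2 * D) = v := W.phi_per F hD hB hdiam v
  rw [h2, h3, phi_zero, sub_self, intervalIntegral.integral_add (c1.intervalIntegrable _ _)
    (c2.intervalIntegrable _ _)] at h1
  have h4 : ∫ t in (0 : ℝ)..(2 * D), inner ℝ (hv P (phi F (v, t))) (deriv x t) =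
      -∫ t in (0 : ℝ)..(2 * D), inner ℝ (dfl F (hv P) (phi F (v, t))) (x t) := by linarith
  rw [h4, abs_neg]
  have h5 := intervalIntegral.norm_integral_le_of_norm_le_const (a := 0) (b := 2 * D)
    (f := fun t => inner ℝ (dfl F (hv P) (phi F (v, t))) (x t)) (C := C * ρ) (fun t _ => by
      refine (norm_inner_le_norm _ _).trans ?_
      exact mul_le_mul (h _) (hρ t) (norm_nonneg _) hC)
  rw [Real.norm_eq_abs] at h5
  refine h5.trans (le_of_eq ?_)
  rw [sub_zero, abs_of_pos (by positivity)]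
  ring

/-- the projection in coordinates -/
def pj (P : PF E M K) (z : CV K) (u : UT E M) : CV K := co P (foot u) (sec P (foot u) z)

theorem map_pj (F : Facts e) (P : PF E M K) (z : CV K) :
    (dUT E M).Map (Dif.lin (CV K)) (pj P z) := by
  intro V _ _ _ u x h
  have h0 : ∀ᶠ y in 𝓝 x, ContMDiffAt 𝓘(ℝ, V) 𝓘(ℝ, E) ∞ (fun y => foot (u y)) y := map_foot h
  have h2 : ∀ᶠ y in 𝓝 x, ContDiffAt ℝ ∞ (fun y => pj P z (u y)) y := by
    filter_upwards [h0] with y hy
    exact sm_co P (smV_sec P hy contDiffAt_const)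
  exact h2

/-- the derivative of the coordinates is controlled by its tangential part -/
theorem Lp.deriv_le (F : Facts e) (P : PF E M K) (D : ℝ) : ∃ C, 0 ≤ C ∧ ∀ v x, Lp e P D v x →
    ∀ t, ‖deriv x t‖ ≤ C * ‖x t‖ + nm (gm e (v, t)) (sec P (gm e (v, t)) (deriv x t)) := by
  have hb : ∀ i : Fin K, ∃ C, 0 ≤ C ∧ ∀ u : UT E M,
      ‖dfl F (pj P (EuclideanSpace.single i (1 : ℝ))) u‖ ≤ C := fun i =>
    bdd_UT0 (cont_UT0 (map_dfl F (map_pj F P _)))
  choose C hC h using hb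
  refine ⟨∑ i, C i, Finset.sum_nonneg fun i _ => hC i, fun v x hx t => ?_⟩
  have hz : ∀ z : CV K, z = ∑ i, z i • EuclideanSpace.single i (1 : ℝ) := by
    intro z
    ext j
    simp [Pi.single_apply]
  have hlin : ∀ (u : UT E M) (z : CV K), pj P z u =
      ∑ i, z i • pj P (EuclideanSpace.single i (1 : ℝ)) u := by
    intro u z
    have h1 : sec P (foot u) z = ∑ i, z i • sec P (foot u) (EuclideanSpace.single i (1 : ℝ)) := by
      conv_lhs => rw [hz z]
      rw [sec_sum]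
      refine Finset.sum_congr rfl fun i _ => sec_smul P _ _ _
    have h2 : ∀ (s : Finset (Fin K)) (f : Fin K → E), co P (foot u) (∑ i ∈ s, f i) =
        ∑ i ∈ s, co P (foot u) (f i) := by
      intro s f
      classical
      induction s using Finset.induction_on with
      | empty =>
        have := co_smul P (foot u) 0 (0 : E)
        simpa using this
      | insert i s hi ih => rw [Finset.sum_insert hi, Finset.sum_insert hi, co_add, ih]
    unfold pj
    rw [h1, h2]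
    refine Finset.sum_congr rfl fun i _ => ?_
    rw [co_smul]
  have hxe : x = fun t => ∑ i, x t i • pj P (EuclideanSpace.single i (1 : ℝ)) (phi F (v, t)) := by
    funext t
    rw [← hlin]
    exact (hx.mem t).symm
  have hd : HasDerivAt x (∑ i, (x t i • dfl F (pj P (EuclideanSpace.single i (1 : ℝ)))
      (phi F (v, t)) + deriv x t i • pj P (EuclideanSpace.single i (1 : ℝ)) (phi F (v, t)))) t := by
    rw [hxe]
    refine HasDerivAt.fun_sum fun i _ => ?_
    have h1 : HasDerivAt (fun t => x t i) (deriv x t i) t := by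
      have := (EuclideanSpace.proj (𝕜 := ℝ) i).hasFDerivAt.comp_hasDerivAt t (hx.hasDerivAt t)
      exact this
    rw [← hxe]
    exact h1.smul (hasDerivAt_flow F (map_pj F P _) v t)
  have h1 := hd.deriv
  rw [Finset.sum_add_distrib, ← hlin] at h1
  have h2 : ‖pj P (deriv x t) (phi F (v, t))‖ =
      nm (gm e (v, t)) (sec P (gm e (v, t)) (deriv x t)) := norm_co P _ _
  calc ‖deriv x t‖ = ‖(∑ i, x t i • dfl F (pj P (EuclideanSpace.single i (1 : ℝ)))
      (phi F (v, t))) + pj P (deriv x t) (phi F (v, t))‖ := by conv_lhs => rw [h1]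
    _ ≤ ‖∑ i, x t i • dfl F (pj P (EuclideanSpace.single i (1 : ℝ))) (phi F (v, t))‖ +
        ‖pj P (deriv x t) (phi F (v, t))‖ := norm_add_le _ _
    _ ≤ (∑ i, C i) * ‖x t‖ + nm (gm e (v, t)) (sec P (gm e (v, t)) (deriv x t)) := by
        rw [h2]
        gcongr
        refine (norm_sum_le _ _).trans ?_
        rw [Finset.sum_mul]
        refine Finset.sum_le_sum fun i _ => ?_
        rw [norm_smul, mul_comm]
        exact mul_le_mul (h i _) (PiLp.norm_apply_le _ _) (norm_nonneg _) (hC i)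

/-- **`H¹`-smallness** -/
theorem Lp.h1 (F : Facts e) {D : ℝ} (hD : 0 < D) (hB : InjGE e D)
    (hdiam : ∀ p q : M, dist p q ≤ D) (P : PF E M K) : ∃ C, 0 ≤ C ∧ ∃ ρ₀, 0 < ρ₀ ∧ ρ₀ ≤ 1 ∧
      ∀ v x, Lp e P D v x → ∀ ρ, ρ ≤ ρ₀ → (∀ t, ‖x t‖ ≤ ρ) →
        ∫ t in (0 : ℝ)..(2 * D), ‖deriv x t‖ ^ 2 ≤
          4 * ((∫ t in (0 : ℝ)..(2 * D), bb e P (phi F (v, t)) (x t) (1, deriv x t)
            (1, deriv x t)) - 2 * D) + C * ρ := by
  obtain ⟨C₁, hC₁, h₁⟩ := bb_lip F P 1 zero_le_one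
  obtain ⟨C₂, hC₂, h₂⟩ := Lp.int_hv F hD hB hdiam P
  obtain ⟨C₃, hC₃, h₃⟩ := Lp.deriv_le F P D
  refine ⟨4 * (C₁ * (2 * D) + 2 * C₂ + C₃ ^ 2 * (2 * D)), by positivity,
    min 1 (1 / (4 * (C₁ + 1))), lt_min one_pos (by positivity), min_le_left _ _,
    fun v x hx ρ hρ hxρ => ?_⟩
  have hρ0 : 0 ≤ ρ := (norm_nonneg _).trans (hxρ 0)
  have hρ1 : ρ ≤ 1 := hρ.trans (min_le_left _ _)
  have hρ2 : ρ ≤ 1 / (4 * (C₁ + 1)) := hρ.trans (min_le_right _ _)
  have hC1ρ : C₁ * ρ ≤ 1 / 4 := by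
    calc C₁ * ρ ≤ (C₁ + 1) * (1 / (4 * (C₁ + 1))) := by gcongr; linarith
      _ = 1 / 4 := by field_simp
  have hpt : ∀ t, 1 + 2 * inner ℝ (hv P (phi F (v, t))) (deriv x t) +
      (1 / 2 * ‖deriv x t‖ ^ 2 - C₃ ^ 2 * ρ) - (C₁ * ρ + 1 / 4 * ‖deriv x t‖ ^ 2) ≤
      bb e P (phi F (v, t)) (x t) (1, deriv x t) (1, deriv x t) := by
    intro t
    set ξ := deriv x t with hξ
    have e1 := h₁ (phi F (v, t)) 0 (x t) (by simp) ((hxρ t).trans hρ1) (1, ξ)
    rw [bb_zero F P, sub_zero] at e1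
    have e2 := (abs_le.1 e1).1
    have e3 : ‖((1 : ℝ), ξ)‖ ^ 2 ≤ 1 + ‖ξ‖ ^ 2 := by
      rw [Prod.norm_def]
      rcases le_total ‖(1 : ℝ)‖ ‖ξ‖ with hh | hh
      · rw [sup_eq_right.2 hh]
        linarith
      · rw [sup_eq_left.2 hh, norm_one]
        nlinarith [sq_nonneg ‖ξ‖]
    have e4 : C₁ * ‖x t‖ * ‖((1 : ℝ), ξ)‖ ^ 2 ≤ C₁ * ρ + 1 / 4 * ‖ξ‖ ^ 2 := by
      calc C₁ * ‖x t‖ * ‖((1 : ℝ), ξ)‖ ^ 2 ≤ C₁ * ρ * (1 + ‖ξ‖ ^ 2) := by
            gcongr
            exact hxρ t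
        _ = C₁ * ρ + C₁ * ρ * ‖ξ‖ ^ 2 := by ring
        _ ≤ C₁ * ρ + 1 / 4 * ‖ξ‖ ^ 2 := by gcongr
    have e5 := h₃ v x hx t
    have e6 : ‖ξ‖ ^ 2 ≤ 2 * (C₃ ^ 2 * ρ) + 2 * nm (gm e (v, t)) (sec P (gm e (v, t)) ξ) ^ 2 := by
      set n := nm (gm e (v, t)) (sec P (gm e (v, t)) ξ) with hn
      have k1 : ‖ξ‖ ≤ C₃ * ρ + n := e5.trans (by gcongr; exact hxρ t)
      have k2 : 0 ≤ n := nm_nonneg' _ _
      have k3 : ‖ξ‖ ^ 2 ≤ (C₃ * ρ + n) ^ 2 := by gcongr
      have k4 : (C₃ * ρ + n) ^ 2 ≤ 2 * (C₃ * ρ) ^ 2 + 2 * n ^ 2 := by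
        nlinarith [sq_nonneg (C₃ * ρ - n)]
      have k5 : (C₃ * ρ) ^ 2 ≤ C₃ ^ 2 * ρ := by
        rw [mul_pow]
        gcongr
        nlinarith
      linarith
    have e7 : nm (foot (phi F (v, t))) (sec P (foot (phi F (v, t))) ξ) ^ 2 =
        nm (gm e (v, t)) (sec P (gm e (v, t)) ξ) ^ 2 := rfl
    rw [e7] at e2
    linarith
  have c0 : Continuous fun t => bb e P (phi F (v, t)) (x t) (1, deriv x t) (1, deriv x t) := by
    have k : ContDiff ℝ ∞ fun t => bb e P (phi F (v, t)) (x t) (1, deriv x t) (1, deriv x t) := by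
      refine contDiff_iff_contDiffAt.2 fun t => ?_
      have hx' : ContDiff ℝ ∞ (deriv x) := (contDiff_infty_iff_deriv.1 hx.smooth).2
      have a1 : (dUT E M).At (fun t : ℝ => phi F (v, t)) t :=
        map_phi F (u := fun t : ℝ => (v, t)) ⟨at_constUT v t, Sm.of_contDiff contDiff_id _⟩
      have a2 : Sm (fun t : ℝ => ((1 : ℝ), deriv x t)) t :=
        Sm.of_contDiff (contDiff_const.prodMk hx') _
      exact (sm_bb P F a1 (Sm.of_contDiff hx.smooth _) a2 a2).contDiffAt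
    exact k.continuous
  have c1 : Continuous fun t => inner ℝ (hv P (phi F (v, t))) (deriv x t) :=
    ((contDiff_flow F (map_hv F P) v).continuous).inner hx.cont_deriv
  have c2 : Continuous fun t => ‖deriv x t‖ ^ 2 := hx.cont_deriv.norm.pow 2
  have h2D : (0 : ℝ) ≤ 2 * D := by linarith
  have hmono : ∫ t in (0 : ℝ)..(2 * D), (1 + 2 * inner ℝ (hv P (phi F (v, t))) (deriv x t) +
      (1 / 2 * ‖deriv x t‖ ^ 2 - C₃ ^ 2 * ρ) - (C₁ * ρ + 1 / 4 * ‖deriv x t‖ ^ 2)) ≤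
      ∫ t in (0 : ℝ)..(2 * D), bb e P (phi F (v, t)) (x t) (1, deriv x t) (1, deriv x t) :=
    intervalIntegral.integral_mono h2D (Continuous.intervalIntegrable (by fun_prop) _ _)
      (c0.intervalIntegrable _ _) hpt
  have hsplit : ∫ t in (0 : ℝ)..(2 * D), (1 + 2 * inner ℝ (hv P (phi F (v, t))) (deriv x t) +
      (1 / 2 * ‖deriv x t‖ ^ 2 - C₃ ^ 2 * ρ) - (C₁ * ρ + 1 / 4 * ‖deriv x t‖ ^ 2)) =
      2 * D * (1 - C₃ ^ 2 * ρ - C₁ * ρ) +
      2 * (∫ t in (0 : ℝ)..(2 * D), inner ℝ (hv P (phi F (v, t))) (deriv x t)) +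
      1 / 4 * ∫ t in (0 : ℝ)..(2 * D), ‖deriv x t‖ ^ 2 := by
    have e1 : ∀ t, (1 + 2 * inner ℝ (hv P (phi F (v, t))) (deriv x t) +
      (1 / 2 * ‖deriv x t‖ ^ 2 - C₃ ^ 2 * ρ) - (C₁ * ρ + 1 / 4 * ‖deriv x t‖ ^ 2)) =
      ((1 - C₃ ^ 2 * ρ - C₁ * ρ) + 2 * inner ℝ (hv P (phi F (v, t))) (deriv x t)) +
        1 / 4 * ‖deriv x t‖ ^ 2 := fun t => by ring
    simp only [e1]
    rw [intervalIntegral.integral_add (f := fun t => (1 - C₃ ^ 2 * ρ - C₁ * ρ) +
        2 * inner ℝ (hv P (phi F (v, t))) (deriv x t)) (g := fun t => 1 / 4 * ‖deriv x t‖ ^ 2)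
        ((continuous_const.add (c1.const_mul 2)).intervalIntegrable _ _)
        ((c2.const_mul _).intervalIntegrable _ _),
      intervalIntegral.integral_add (f := fun _ => (1 - C₃ ^ 2 * ρ - C₁ * ρ))
        (g := fun t => 2 * inner ℝ (hv P (phi F (v, t))) (deriv x t))
        (continuous_const.intervalIntegrable _ _) ((c1.const_mul 2).intervalIntegrable _ _),
      intervalIntegral.integral_const, intervalIntegral.integral_const_mul,
      intervalIntegral.integral_const_mul]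
    simp only [sub_zero, smul_eq_mul]
  rw [hsplit] at hmono
  have h4 := (abs_le.1 (h₂ v x hx ρ hxρ)).1
  nlinarith

end

end Vale.Agent.P231.S3N
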