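import Vale.Agent.P231.H997.SV2
import Vale.Agent.P231.X3.Frame
import Vale.Agent.P231.S2N.Fld
import Vale.Agent.P231.WC.Vel

/-!
# P231, stage 3, block N (near the closed geodesics): the Lagrangian in frame coordinates

A loop near the closed geodesic of `v` is written `c t = exp_{γ t} (∑ x_i t X_i)` with a Parseval
frame `X`; its squared speed is `bb (φ_t v) (x t) (1, x' t) (1, x' t)` with a bilinear form
`bb u z` on `ℝ × ℝ^K` depending smoothly on `(u, z)`.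
-/

set_option maxSynthPendingDepth 3
set_option linter.unusedSectionVars false
set_option linter.unusedVariables false

open Bundle Manifold Set Filter Module MeasureTheory
open scoped ContDiff Manifold Topology

namespace Vale.Agent.P231.S3N

noncomputable section

open Vale.Agent.P234 Vale.Agent.P231 Vale.Agent.P231.Fm Vale.Agent.P231.W Vale.Agent.P231.H775
open Vale.Agent.P231.X3 Vale.Agent.P231.H997 Vale.Agent.P231.WR

/-- coordinate space -/
abbrev CV (K : ℕ) := EuclideanSpace ℝ (Fin K)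

variable {E : Type*} [NormedAddCommGroup E] [NormedSpace ℝ E] [FiniteDimensional ℝ E]
  {M : Type*} [MetricSpace M] [ChartedSpace E M] [IsManifold 𝓘(ℝ, E) ∞ M]
  [RiemannianBundle (fun x : M => TangentSpace 𝓘(ℝ, E) x)]
  [IsContMDiffRiemannianBundle 𝓘(ℝ, E) ∞ E (fun x : M => TangentSpace 𝓘(ℝ, E) x)]
  {e : ∀ x : M, TangentSpace 𝓘(ℝ, E) x → M} {K : ℕ}

/-! ### coordinates -/

/-- the frame fields, raw -/
def Xr (P : PF E M K) (i : Fin K) (x : M) : E := P.X i x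

/-- the tangent vector with coordinates `z` -/
def sec (P : PF E M K) (x : M) (z : CV K) : E := ∑ i, z i • Xr P i x

/-- the coordinates of a tangent vector -/
def co (P : PF E M K) (x : M) (ξ : E) : CV K := WithLp.toLp 2 fun i => ip x (Xr P i x) ξ

variable (P : PF E M K)

theorem co_apply (x : M) (ξ : E) (i : Fin K) : co P x ξ i = ip x (Xr P i x) ξ := rfl

theorem sec_co (x : M) (ξ : E) : sec P x (co P x ξ) = ξ := P.parseval x ξ

theorem sec_add (x : M) (z w : CV K) : sec P x (z + w) = sec P x z + sec P x w := by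
  unfold sec
  rw [← Finset.sum_add_distrib]
  refine Finset.sum_congr rfl fun i _ => ?_
  rw [PiLp.add_apply, add_smul]

theorem sec_smul (x : M) (c : ℝ) (z : CV K) : sec P x (c • z) = c • sec P x z := by
  unfold sec
  rw [Finset.smul_sum]
  refine Finset.sum_congr rfl fun i _ => ?_
  rw [PiLp.smul_apply, smul_assoc]

theorem sec_zero (x : M) : sec P x 0 = 0 := by
  have h := sec_smul P x 0 0
  rwa [zero_smul, zero_smul] at h

theorem sec_sum {ι : Type*} (t : Finset ι) (x : M) (z : ι → CV K) :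
    sec P x (∑ i ∈ t, z i) = ∑ i ∈ t, sec P x (z i) := by
  classical
  induction t using Finset.induction_on with
  | empty => simpa using sec_zero P x
  | insert i t hi ih => rw [Finset.sum_insert hi, Finset.sum_insert hi, sec_add, ih]

theorem co_add (x : M) (ξ η : E) : co P x (ξ + η) = co P x ξ + co P x η := by
  ext i
  rw [PiLp.add_apply, co_apply, co_apply, co_apply]
  exact ip_add_right' x _ _ _

theorem co_smul (x : M) (c : ℝ) (ξ : E) : co P x (c • ξ) = c • co P x ξ := by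
  ext i
  rw [PiLp.smul_apply, co_apply, co_apply]
  exact ip_smul_right' x _ _ _

/-- `⟨ξ, sec z⟩ = ⟨co ξ, z⟩` -/
theorem ip_sec (x : M) (ξ : E) (z : CV K) : ip x ξ (sec P x z) = ∑ i, z i * co P x ξ i := by
  have h : ip x ξ (sec P x z) = ∑ i, ip x ξ (z i • Xr P i x) :=
    inner_sum (𝕜 := ℝ) (E := TangentSpace 𝓘(ℝ, E) x) Finset.univ _ ξ
  rw [h]
  refine Finset.sum_congr rfl fun i _ => ?_
  rw [ip_smul_right', co_apply, WR.ip_comm']

theorem norm_co (x : M) (ξ : E) : ‖co P x ξ‖ = nm x ξ := by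
  have h1 : nm x ξ ^ 2 = ip x ξ ξ :=
    (real_inner_self_eq_norm_sq (F := TangentSpace 𝓘(ℝ, E) x) ξ).symm
  have h2 : ip x ξ (sec P x (co P x ξ)) = ‖co P x ξ‖ ^ 2 := by
    rw [ip_sec, EuclideanSpace.norm_sq_eq]
    refine Finset.sum_congr rfl fun i _ => ?_
    rw [Real.norm_eq_abs, sq_abs]
    ring
  rw [sec_co] at h2
  have h3 : ‖co P x ξ‖ ^ 2 = nm x ξ ^ 2 := by rw [← h2, h1]
  exact (sq_eq_sq₀ (norm_nonneg _) (nm_nonneg' _ _)).1 h3

theorem nm_sec_le (x : M) (z : CV K) : nm x (sec P x z) ≤ ‖z‖ := by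
  have h1 : nm x (sec P x z) ^ 2 = ip x (sec P x z) (sec P x z) :=
    (real_inner_self_eq_norm_sq (F := TangentSpace 𝓘(ℝ, E) x) (sec (E := E) P x z)).symm
  have h2 : ip x (sec P x z) (sec P x z) = inner ℝ z (co P x (sec P x z)) := by
    rw [ip_sec, PiLp.inner_apply]
    refine Finset.sum_congr rfl fun i _ => ?_
    change _ = co P x (sec P x z) i * z i
    ring
  have h3 : inner ℝ z (co P x (sec P x z)) ≤ ‖z‖ * ‖co P x (sec P x z)‖ := real_inner_le_norm _ _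
  rw [norm_co] at h3
  rcases (nm_nonneg' (E := E) x (sec P x z)).eq_or_lt with h4 | h4
  · rw [← h4]
    exact norm_nonneg _
  · have h5 : nm x (sec P x z) * nm x (sec P x z) ≤ ‖z‖ * nm x (sec P x z) := by
      rw [← pow_two, h1, h2]
      exact h3
    exact le_of_mul_le_mul_right h5 h4

section Smooth

variable {V : Type*} [NormedAddCommGroup V] [NormedSpace ℝ V] [FiniteDimensional ℝ V]

theorem smV_X {f : V → M} {s : V} (hf : ContMDiffAt 𝓘(ℝ, V) 𝓘(ℝ, E) ∞ f s) (i : Fin K) :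
    SmV f (fun y => (Xr P i (f y) : E)) s :=
  ContMDiffAt.comp s (g := fun x : M => TotalSpace.mk' E x (P.X i x)) (P.smooth i (f s)) hf

theorem smV_sec {f : V → M} {z : V → CV K} {s : V} (hf : ContMDiffAt 𝓘(ℝ, V) 𝓘(ℝ, E) ∞ f s)
    (hz : ContDiffAt ℝ ∞ z s) : SmV f (fun y => (sec P (f y) (z y) : E)) s := by
  refine SmV.sum (E := E) Finset.univ (u := fun i y => (z y i • Xr P i (f y) : E)) hf
    fun i _ => ?_
  have h1 : ContDiffAt ℝ ∞ (fun y => z y i) s :=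
    (EuclideanSpace.proj (𝕜 := ℝ) i).contDiff.contDiffAt.comp s hz
  exact SmV.smul h1 (smV_X P hf i)

theorem sm_co {f : V → M} {ξ : V → E} {s : V} (h : SmV f (fun y => (ξ y : E)) s) :
    ContDiffAt ℝ ∞ (fun y => co P (f y) (ξ y)) s := by
  refine contDiffAt_euclidean.2 fun i => ?_
  exact SmV.inner (smV_X P h.base i) h

end Smooth

/-! ### the map `(s, z) ↦ exp_{γ s} (∑ z_i X_i)` -/

/-- the point with coordinates `p.2` at time `p.1` -/
def Ps (e : ∀ x : M, TangentSpace 𝓘(ℝ, E) x → M) (P : PF E M K) (u : UT E M) (p : ℝ × CV K) : M :=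
  e (gm e (u, p.1)) (sec P (gm e (u, p.1)) p.2 : E)

section Map

variable [CompactSpace M] [ConnectedSpace M] [IsRiemannianManifold 𝓘(ℝ, E) M]

theorem map_Ps (F : Facts e) :
    ((dUT E M).prod (Dif.lin (ℝ × CV K))).Map (dM E M) (fun q => Ps e P q.1 q.2) := by
  intro V _ _ _ w x h
  have h1 : (dUT E M).At (fun y => (w y).1) x := h.1
  have h2 : Sm (fun y => (w y).2) x := h.2
  have h3 : (dM E M).At (fun y => gm e ((w y).1, (w y).2.1)) x :=
    map_gm F (u := fun y => ((w y).1, (w y).2.1)) ⟨h1, Sm.comp (f := fun p : ℝ × CV K => p.1)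
      (Sm.of_contDiff contDiff_fst _) h2⟩
  have h4 : Sm (fun y => (w y).2.2) x := Sm.comp (f := fun p : ℝ × CV K => p.2)
      (Sm.of_contDiff contDiff_snd _) h2
  have h3' : ∀ᶠ y in 𝓝 x, ContMDiffAt 𝓘(ℝ, V) 𝓘(ℝ, E) ∞ (fun y => gm e ((w y).1, (w y).2.1)) y :=
    h3
  have h5 : ∀ᶠ y in 𝓝 x, ContMDiffAt 𝓘(ℝ, V) 𝓘(ℝ, E) ∞ (fun y => Ps e P (w y).1 (w y).2) y := by
    filter_upwards [h3', h4.eventually] with y h6 h7
    exact SmV.exp F.isExp (smV_sec P h6 h7.contDiffAt)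
  exact h5

theorem cmd_Ps (F : Facts e) {V : Type} [NormedAddCommGroup V] [NormedSpace ℝ V]
    [FiniteDimensional ℝ V] {U : V → UT E M} {p : V → ℝ × CV K} {x : V}
    (hU : (dUT E M).At U x) (hp : Sm p x) :
    ContMDiffAt 𝓘(ℝ, V) 𝓘(ℝ, E) ∞ (fun y => Ps e P (U y) (p y)) x :=
  Filter.Eventually.self_of_nhds (map_Ps P F (u := fun y => (U y, p y)) ⟨hU, hp⟩ :
    ∀ᶠ y in 𝓝 x, ContMDiffAt 𝓘(ℝ, V) 𝓘(ℝ, E) ∞ (fun y => Ps e P (U y) (p y)) y)

theorem at_constUT (u : UT E M) {V : Type} [NormedAddCommGroup V] [NormedSpace ℝ V]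
    [FiniteDimensional ℝ V] (x : V) : (dUT E M).At (fun _ : V => u) x := H583.at_const u x

theorem cmd_Ps' (F : Facts e) (u : UT E M) (p : ℝ × CV K) :
    ContMDiffAt 𝓘(ℝ, ℝ × CV K) 𝓘(ℝ, E) ∞ (Ps e P u) p :=
  cmd_Ps P F (at_constUT u p) (Sm.of_contDiff contDiff_id p)

theorem Ps_shift (F : Facts e) (u : UT E M) (t s : ℝ) (z : CV K) :
    Ps e P (phi F (u, t)) (s, z) = Ps e P u (t + s, z) := by
  unfold Ps
  rw [gm_phi]

/-- the derivative of `Ps` -/
def Wd (e : ∀ x : M, TangentSpace 𝓘(ℝ, E) x → M) (P : PF E M K) (u : UT E M) (z : CV K)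
    (w : ℝ × CV K) : E :=
  mfderiv 𝓘(ℝ, ℝ × CV K) 𝓘(ℝ, E) (Ps e P u) ((0 : ℝ), z) w

theorem Wd_add (u : UT E M) (z : CV K) (w w' : ℝ × CV K) :
    Wd e P u z (w + w') = Wd e P u z w + Wd e P u z w' := by
  unfold Wd
  exact (mfderiv 𝓘(ℝ, ℝ × CV K) 𝓘(ℝ, E) (Ps e P u) ((0 : ℝ), z)).map_add w w'

theorem Wd_smul (u : UT E M) (z : CV K) (c : ℝ) (w : ℝ × CV K) :
    Wd e P u z (c • w) = c • Wd e P u z w := by
  unfold Wd
  exact (mfderiv 𝓘(ℝ, ℝ × CV K) 𝓘(ℝ, E) (Ps e P u) ((0 : ℝ), z)).map_smul c w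

/-- velocities of curves in coordinates -/
theorem vl_Ps (F : Facts e) (u : UT E M) {z : ℝ → CV K} {ζ : CV K} {t : ℝ}
    (hz : HasDerivAt z ζ t) :
    (WC.vl (fun s => Ps e P u (s, z s)) t : E) = Wd e P (phi F (u, t)) (z t) (1, ζ) := by
  -- shift the time to zero
  have h1 : (WC.vl (fun s => Ps e P u (s, z s)) t : E) =
      WC.vl (fun s => Ps e P (phi F (u, t)) (s, z (t + s))) 0 := by
    have e1 : (fun s => Ps e P (phi F (u, t)) (s, z (t + s))) =
        fun s => (fun s => Ps e P u (s, z s)) (t + s) := by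
      funext s
      exact Ps_shift P F u t s _
    rw [e1]
    have hd : MDifferentiableAt 𝓘(ℝ, ℝ) 𝓘(ℝ, E) (fun s => Ps e P u (s, z s)) (t + 0) := by
      rw [add_zero]
      have h2 : MDifferentiableAt 𝓘(ℝ, ℝ) 𝓘(ℝ, ℝ × CV K) (fun s => (s, z s)) t :=
        ((hasDerivAt_id t).prodMk hz).differentiableAt.mdifferentiableAt
      exact ((cmd_Ps' P F u (t, z t)).mdifferentiableAt (by simp)).comp t h2
    have h3 := H997.dv_comp (E := E) (c := fun s => Ps e P u (s, z s)) (t := 0)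
      (g := fun s => t + s) (g' := 1) hd (by simpa using (hasDerivAt_id (0 : ℝ)).const_add t)
    rw [one_smul, add_zero] at h3
    exact h3.symm
  rw [h1]
  have h4 : HasDerivAt (fun s : ℝ => (s, z (t + s))) ((1 : ℝ), ζ) 0 := by
    refine (hasDerivAt_id (0 : ℝ)).prodMk ?_
    have h5 : HasDerivAt z ζ (t + 0) := by rwa [add_zero]
    have h5' := HasDerivAt.scomp (0 : ℝ) h5 ((hasDerivAt_id (0 : ℝ)).const_add t)
    rw [one_smul] at h5'
    exact h5'
  have h6 : MDifferentiableAt 𝓘(ℝ, ℝ) 𝓘(ℝ, ℝ × CV K) (fun s : ℝ => (s, z (t + s))) 0 :=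
    h4.differentiableAt.mdifferentiableAt
  have h7 : MDifferentiableAt 𝓘(ℝ, ℝ × CV K) 𝓘(ℝ, E) (Ps e P (phi F (u, t)))
      ((0 : ℝ), z (t + 0)) := (cmd_Ps' P F _ _).mdifferentiableAt (by simp)
  have h8 := mfderiv_comp_apply (0 : ℝ) (I'' := 𝓘(ℝ, E)) (g := Ps e P (phi F (u, t)))
    (f := fun s : ℝ => (s, z (t + s))) h7 h6 (1 : ℝ)
  have h9 : mfderiv 𝓘(ℝ, ℝ) 𝓘(ℝ, ℝ × CV K) (fun s : ℝ => (s, z (t + s))) 0 (1 : ℝ) =
      ((1 : ℝ), ζ) := by
    rw [mfderiv_eq_fderiv]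
    exact h4.deriv
  unfold Wd
  rw [add_zero] at h8
  refine h8.trans ?_
  exact congrArg _ h9

/-- the derivative of `Ps` as a velocity -/
theorem Wd_eq_vl (F : Facts e) (u : UT E M) (z : CV K) (w : ℝ × CV K) :
    Wd e P u z w = WC.vl (fun s => Ps e P u (s * w.1, z + s • w.2)) 0 := by
  have h4 : HasDerivAt (fun s : ℝ => (s * w.1, z + s • w.2)) w 0 := by
    have h5 : HasDerivAt (fun s : ℝ => s * w.1) w.1 0 := by
      simpa using (hasDerivAt_id (0 : ℝ)).mul_const w.1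
    have h6 : HasDerivAt (fun s : ℝ => z + s • w.2) w.2 0 := by
      simpa using ((hasDerivAt_id (0 : ℝ)).smul_const w.2).const_add z
    exact h5.prodMk h6
  have h6 : MDifferentiableAt 𝓘(ℝ, ℝ) 𝓘(ℝ, ℝ × CV K) (fun s : ℝ => (s * w.1, z + s • w.2)) 0 :=
    h4.differentiableAt.mdifferentiableAt
  have h7 : MDifferentiableAt 𝓘(ℝ, ℝ × CV K) 𝓘(ℝ, E) (Ps e P u)
      ((fun s : ℝ => (s * w.1, z + s • w.2)) 0) := (cmd_Ps' P F _ _).mdifferentiableAt (by simp)
  have h8 := mfderiv_comp_apply (0 : ℝ) (I'' := 𝓘(ℝ, E)) (g := Ps e P u)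
    (f := fun s : ℝ => (s * w.1, z + s • w.2)) h7 h6 (1 : ℝ)
  have h9 : mfderiv 𝓘(ℝ, ℝ) 𝓘(ℝ, ℝ × CV K) (fun s : ℝ => (s * w.1, z + s • w.2)) 0 (1 : ℝ) =
      w := by
    rw [mfderiv_eq_fderiv]
    exact h4.deriv
  have h10 : ((0 * w.1, z + (0 : ℝ) • w.2) : ℝ × CV K) = ((0 : ℝ), z) := by simp
  refine Eq.symm (h8.trans ?_)
  unfold Wd
  have h11 : ∀ p q : ℝ × CV K, p = q → ∀ w w' : ℝ × CV K, w = w' →
      (mfderiv 𝓘(ℝ, ℝ × CV K) 𝓘(ℝ, E) (Ps e P u) p w : E) =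
        mfderiv 𝓘(ℝ, ℝ × CV K) 𝓘(ℝ, E) (Ps e P u) q w' := by
    rintro p _ rfl w _ rfl
    rfl
  exact h11 _ _ h10 _ _ h9

/-- the derivative of `Ps` is smooth -/
theorem smV_Wd (F : Facts e) {V : Type} [NormedAddCommGroup V] [NormedSpace ℝ V]
    [FiniteDimensional ℝ V] {U : V → UT E M} {z : V → CV K} {w : V → ℝ × CV K} {x : V}
    (hU : (dUT E M).At U x) (hz : Sm z x) (hw : Sm w x) :
    SmV (fun y => Ps e P (U y) (0, z y)) (fun y => (Wd e P (U y) (z y) (w y) : E)) x := by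
  have h1 : (dUT E M).At (fun q : V × ℝ => U q.1) (x, 0) :=
    (dUT E M).comp (u := U) (g := Prod.fst) (x := ((x, 0) : V × ℝ)) hU (Sm.of_contDiff contDiff_fst _)
  have hz' : Sm (fun q : V × ℝ => z q.1) (x, 0) :=
    Sm.comp (f := z) (g := fun q : V × ℝ => q.1) hz (Sm.of_contDiff contDiff_fst _)
  have hw' : Sm (fun q : V × ℝ => w q.1) (x, 0) :=
    Sm.comp (f := w) (g := fun q : V × ℝ => q.1) hw (Sm.of_contDiff contDiff_fst _)
  have hs : Sm (fun q : V × ℝ => q.2) (x, 0) := Sm.of_contDiff contDiff_snd _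
  have h2 : Sm (fun q : V × ℝ => (q.2 * (w q.1).1, z q.1 + q.2 • (w q.1).2)) (x, 0) := by
    have h3 : Sm (fun q : V × ℝ => ((z q.1, w q.1), q.2)) (x, 0) :=
      Sm.prodMk (Sm.prodMk hz' hw') hs
    exact Sm.comp (f := fun r : (CV K × (ℝ × CV K)) × ℝ => (r.2 * r.1.2.1, r.1.1 + r.2 • r.1.2.2))
      (Sm.of_contDiff (by fun_prop) _) h3
  have h4 := cmd_Ps P F h1 h2
  have h5 := SmV_dv (E := E) (H := fun y s => Ps e P (U y) (s * (w y).1, z y + s • (w y).2))
    (s := x) (τ := fun _ => (0 : ℝ)) h4 contDiffAt_const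
  have h6 : (fun y => (⟨Ps e P (U y) (0 * (w y).1, z y + (0 : ℝ) • (w y).2),
      (dv (E := E) (fun s => Ps e P (U y) (s * (w y).1, z y + s • (w y).2)) 0 : E)⟩ :
        TangentBundle 𝓘(ℝ, E) M)) =
      fun y => ⟨Ps e P (U y) (0, z y), (Wd e P (U y) (z y) (w y) : E)⟩ := by
    funext y
    rw [Wd_eq_vl P F]
    have e1 : ((0 * (w y).1, z y + (0 : ℝ) • (w y).2) : ℝ × CV K) = (0, z y) := by simp
    exact tb_congr (congrArg _ e1) rfl
  unfold SmV at h5 ⊢
  rwa [h6] at h5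

/-- the bilinear form -/
def bb (e : ∀ x : M, TangentSpace 𝓘(ℝ, E) x → M) (P : PF E M K) (u : UT E M) (z : CV K)
    (w w' : ℝ × CV K) : ℝ :=
  ip (Ps e P u (0, z)) (Wd e P u z w) (Wd e P u z w')

theorem sm_bb (F : Facts e) {V : Type} [NormedAddCommGroup V] [NormedSpace ℝ V]
    [FiniteDimensional ℝ V] {U : V → UT E M} {z : V → CV K} {w w' : V → ℝ × CV K} {x : V}
    (hU : (dUT E M).At U x) (hz : Sm z x) (hw : Sm w x) (hw' : Sm w' x) :
    Sm (fun y => bb e P (U y) (z y) (w y) (w' y)) x := by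
  have hUe : ∀ᶠ y in 𝓝 x, (dUT E M).At U y := (dUT E M).open' hU
  have h1 : ∀ᶠ y in 𝓝 x, ContDiffAt ℝ ∞ (fun y => bb e P (U y) (z y) (w y) (w' y)) y := by
    filter_upwards [hUe, eventually_eventually_nhds.2 hz.eventually,
      eventually_eventually_nhds.2 hw.eventually, eventually_eventually_nhds.2 hw'.eventually]
      with y h2 h3 h4 h5
    have k3 : Sm z y := h3.self_of_nhds
    have k4 : Sm w y := h4.self_of_nhds
    have k5 : Sm w' y := h5.self_of_nhds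
    exact SmV.inner (smV_Wd P F h2 k3 k4) (smV_Wd P F h2 k3 k5)
  exact h1

theorem bb_comm (u : UT E M) (z : CV K) (w w' : ℝ × CV K) :
    bb e P u z w w' = bb e P u z w' w := WR.ip_comm' _ _ _

theorem bb_add (u : UT E M) (z : CV K) (w w' w'' : ℝ × CV K) :
    bb e P u z (w + w') w'' = bb e P u z w w'' + bb e P u z w' w'' := by
  unfold bb
  rw [Wd_add]
  exact inner_add_left (𝕜 := ℝ) (E := TangentSpace 𝓘(ℝ, E) (Ps e P u (0, z))) _ _ _

theorem bb_smul (u : UT E M) (z : CV K) (c : ℝ) (w w' : ℝ × CV K) :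
    bb e P u z (c • w) w' = c * bb e P u z w w' := by
  unfold bb
  rw [Wd_smul]
  exact real_inner_smul_left (F := TangentSpace 𝓘(ℝ, E) (Ps e P u (0, z))) _ _ _

/-- squared speeds of curves in coordinates -/
theorem speed_Ps (F : Facts e) (u : UT E M) {z : ℝ → CV K} {ζ : CV K} {t : ℝ}
    (hz : HasDerivAt z ζ t) :
    nm (Ps e P u (t, z t)) (WC.vl (fun s => Ps e P u (s, z s)) t : E) ^ 2 =
      bb e P (phi F (u, t)) (z t) (1, ζ) (1, ζ) := by
  rw [vl_Ps P F u hz]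
  unfold bb
  have h1 : Ps e P (phi F (u, t)) (0, z t) = Ps e P u (t, z t) := by
    rw [Ps_shift, add_zero]
  rw [h1]
  exact (real_inner_self_eq_norm_sq (F := TangentSpace 𝓘(ℝ, E) (Ps e P u (t, z t))) _).symm

/-- at `z = 0` -/
theorem Wd_zero (F : Facts e) (u : UT E M) (w : ℝ × CV K) :
    Wd e P u 0 w = w.1 • vec' u + sec P (foot u) w.2 := by
  have h1 : w = w.1 • ((1 : ℝ), (0 : CV K)) + ((0 : ℝ), w.2) := by
    ext <;> simp
  conv_lhs => rw [h1]
  rw [Wd_add, Wd_smul]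
  congr 1
  · congr 1
    rw [Wd_eq_vl P F]
    have h2 : (fun s : ℝ => Ps e P u (s * ((1 : ℝ), (0 : CV K)).1, 0 + s • ((1 : ℝ), (0 : CV K)).2))
        = fun s => gm e (u, s) := by
      funext s
      simp only [mul_one, smul_zero, add_zero]
      unfold Ps
      rw [sec_zero]
      exact F.isExp.map_zero _
    rw [h2]
    have h3 : (WC.vl (fun s => gm e (u, s)) 0 : E) = vec' (phi F (u, 0)) :=
      mfderiv_gam (E := E) F.isExp (foot u) (vec' u) 0
    rw [h3, phi_zero]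
  · rw [Wd_eq_vl P F]
    have h2 : (fun s : ℝ => Ps e P u (s * ((0 : ℝ), w.2).1, 0 + s • ((0 : ℝ), w.2).2))
        = fun s => gam e (foot u) (sec P (foot u) w.2) s := by
      funext s
      simp only [mul_zero, zero_add]
      unfold Ps
      rw [gm_zero F, sec_smul]
      rfl
    rw [h2]
    have h3 : (WC.vl (fun s => gam e (foot u) (sec P (foot u) w.2) s) 0 : E) =
        vel e (foot u) (sec P (foot u) w.2) 0 := mfderiv_gam (E := E) F.isExp (foot u) _ 0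
    rw [h3, vel_zero F.isExp]

end Map

end

end Vale.Agent.P231.S3N
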