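import Vale.Agent.P231.S3N.H1

/-!
# P231, stage 3, block N: pushing loops close to closed geodesics below the energy of the geodesics
-/

set_option maxSynthPendingDepth 3
set_option linter.unusedSectionVars false
set_option linter.unusedVariables false

open Bundle Manifold Set Filter Module MeasureTheory
open scoped ContDiff Manifold Topology

namespace Vale.Agent.P231.S3N

noncomputable section

open Vale.Agent.P234 Vale.Agent.P231 Vale.Agent.P231.Fm Vale.Agent.P231.W Vale.Agent.P231.H775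
open Vale.Agent.P231.X3 Vale.Agent.P231.H997 Vale.Agent.P231.WR Vale.Agent.P231.S2N

attribute [local instance] WF.topUT

/-- a concave function lies below its quadratic majorant -/
theorem concave_le {f : ℝ → ℝ} (hf : ContDiff ℝ ∞ f) {c ρ : ℝ}
    (h2 : ∀ s, |s| ≤ ρ → deriv (deriv f) s ≤ -c) {s : ℝ} (hs0 : 0 ≤ s) (hs : s ≤ ρ) :
    f s ≤ f 0 + deriv f 0 * s - c / 2 * s ^ 2 := by
  have hf1 : ContDiff ℝ ∞ (deriv f) := (contDiff_infty_iff_deriv.1 hf).2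
  have hd : ∀ r, HasDerivAt f (deriv f r) r := fun r =>
    (hf.differentiable (by simp) r).hasDerivAt
  have hd2 : ∀ r, HasDerivAt (deriv f) (deriv (deriv f) r) r := fun r =>
    (hf1.differentiable (by simp) r).hasDerivAt
  -- first derivative
  have k1 : ∀ r ∈ Icc (0 : ℝ) ρ, deriv f r ≤ deriv f 0 - c * r := by
    intro r hr
    have hanti : AntitoneOn (fun r => deriv f r + c * r) (Icc 0 ρ) := by
      refine antitoneOn_of_deriv_nonpos (convex_Icc 0 ρ) ?_ ?_ fun x hx => ?_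
      · exact (hf1.continuous.add (continuous_const.mul continuous_id)).continuousOn
      · intro x _
        exact ((hd2 x).add ((hasDerivAt_id x).const_mul c)).differentiableAt.differentiableWithinAt
      · rw [interior_Icc] at hx
        have e1 : HasDerivAt (fun r => deriv f r + c * r) (deriv (deriv f) x + c * 1) x :=
          (hd2 x).add ((hasDerivAt_id x).const_mul c)
        rw [e1.deriv]
        have := h2 x (by rw [abs_of_pos hx.1]; exact hx.2.le)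
        linarith
    have e2 := hanti (left_mem_Icc.2 (hr.1.trans hr.2)) hr hr.1
    simp only [mul_zero, add_zero] at e2
    linarith
  have hanti : AntitoneOn (fun r => f r - deriv f 0 * r + c / 2 * r ^ 2) (Icc 0 ρ) := by
    have e0 : ∀ x, HasDerivAt (fun r => f r - deriv f 0 * r + c / 2 * r ^ 2)
        (deriv f x - deriv f 0 * 1 + c / 2 * (2 * x)) x := by
      intro x
      have e1 : HasDerivAt (fun r : ℝ => r ^ 2) (2 * x) x := by
        simpa using hasDerivAt_pow 2 x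
      exact ((hd x).sub ((hasDerivAt_id x).const_mul (deriv f 0))).add (e1.const_mul (c / 2))
    refine antitoneOn_of_deriv_nonpos (convex_Icc 0 ρ) ?_ ?_ fun x hx => ?_
    · exact fun x _ => (e0 x).continuousAt.continuousWithinAt
    · exact fun x _ => (e0 x).differentiableAt.differentiableWithinAt
    · rw [interior_Icc] at hx
      rw [(e0 x).deriv]
      have := k1 x ⟨hx.1.le, hx.2.le⟩
      linarith
  have e2 := hanti (left_mem_Icc.2 (hs0.trans hs)) (show s ∈ Icc 0 ρ from ⟨hs0, hs⟩) hs0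
  simp only [mul_zero, sub_zero] at e2
  have e3 : f 0 + c / 2 * (0 : ℝ) ^ 2 = f 0 := by ring
  rw [e3] at e2
  linarith

variable {E : Type*} [NormedAddCommGroup E] [NormedSpace ℝ E] [FiniteDimensional ℝ E]
  {M : Type*} [MetricSpace M] [ChartedSpace E M] [IsManifold 𝓘(ℝ, E) ∞ M]
  [RiemannianBundle (fun x : M => TangentSpace 𝓘(ℝ, E) x)]
  [IsContMDiffRiemannianBundle 𝓘(ℝ, E) ∞ E (fun x : M => TangentSpace 𝓘(ℝ, E) x)]
  {e : ∀ x : M, TangentSpace 𝓘(ℝ, E) x → M} {K : ℕ} {ι : Type} [Fintype ι] [DecidableEq ι]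
  [CompactSpace M] [ConnectedSpace M] [IsRiemannianManifold 𝓘(ℝ, E) M]
  {Y : ι → UT E M → E} {D : ℝ}

theorem bb_add_right (P : PF E M K) (u : UT E M) (z : CV K) (w w' w'' : ℝ × CV K) :
    bb e P u z w (w' + w'') = bb e P u z w w' + bb e P u z w w'' := by
  rw [bb_comm, bb_add, bb_comm, bb_comm P u z w'' w]

theorem bb_smul_right (P : PF E M K) (u : UT E M) (z : CV K) (c : ℝ) (w w' : ℝ × CV K) :
    bb e P u z w (c • w') = c * bb e P u z w w' := by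
  rw [bb_comm, bb_smul, bb_comm]

/-- a bound for the bilinear form -/
theorem bb_bound (F : Facts e) (P : PF E M K) (R : ℝ) (hR : 0 ≤ R) : ∃ C, 0 ≤ C ∧
    ∀ (u : UT E M) (z : CV K), ‖z‖ ≤ R → ∀ w w' : ℝ × CV K,
      |bb e P u z w w'| ≤ C * ‖w‖ * ‖w'‖ := by
  have hmap : ((dUT E M).prod (Dif.lin (CV K × ((ℝ × CV K) × (ℝ × CV K))))).Map (Dif.lin ℝ)
      (fun q => bb e P q.1 q.2.1 q.2.2.1 q.2.2.2) := by
    intro V _ _ _ u x h
    have hq : Sm (fun y => (u y).2) x := h.2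
    exact sm_bb P F h.1
      (Sm.comp (f := fun r : CV K × ((ℝ × CV K) × (ℝ × CV K)) => r.1)
        (Sm.of_contDiff (by fun_prop) _) hq)
      (Sm.comp (f := fun r : CV K × ((ℝ × CV K) × (ℝ × CV K)) => r.2.1)
        (Sm.of_contDiff (by fun_prop) _) hq)
      (Sm.comp (f := fun r : CV K × ((ℝ × CV K) × (ℝ × CV K)) => r.2.2)
        (Sm.of_contDiff (by fun_prop) _) hq)
  obtain ⟨C, hC, h⟩ := bdd_UT (V := CV K × ((ℝ × CV K) × (ℝ × CV K))) (cont_UT hmap) (max R 1)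
  refine ⟨C, hC, fun u z hz w w' => ?_⟩
  have key : ∀ w w' : ℝ × CV K, ‖w‖ ≤ 1 → ‖w'‖ ≤ 1 → |bb e P u z w w'| ≤ C := by
    intro w w' hw hw'
    have h1 := h u (z, (w, w')) (by
      rw [Prod.norm_def, Prod.norm_def]
      exact sup_le (hz.trans (le_max_left _ _))
        (sup_le (hw.trans (le_max_right _ _)) (hw'.trans (le_max_right _ _))))
    exact h1
  by_cases h0 : w = 0
  · subst h0
    have h1 := bb_smul (e := e) P u z 0 0 w'
    rw [zero_smul, zero_mul] at h1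
    rw [h1, norm_zero, mul_zero, zero_mul, abs_zero]
  by_cases h0' : w' = 0
  · subst h0'
    have h1 := bb_smul (e := e) P u z 0 0 w
    rw [zero_smul, zero_mul] at h1
    rw [bb_comm, h1, norm_zero, mul_zero, abs_zero]
  have hw : 0 < ‖w‖ := norm_pos_iff.2 h0
  have hw' : 0 < ‖w'‖ := norm_pos_iff.2 h0'
  have e1 : w = ‖w‖ • (‖w‖⁻¹ • w) := by rw [smul_smul, mul_inv_cancel₀ hw.ne', one_smul]
  have e2 : w' = ‖w'‖ • (‖w'‖⁻¹ • w') := by rw [smul_smul, mul_inv_cancel₀ hw'.ne', one_smul]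
  have e3 : bb e P u z w w' = ‖w‖ * (‖w'‖ * bb e P u z (‖w‖⁻¹ • w) (‖w'‖⁻¹ • w')) := by
    conv_lhs => rw [e1, bb_smul, e2, bb_smul_right]
  rw [e3, abs_mul, abs_mul, abs_of_pos hw, abs_of_pos hw']
  have e5 := key (‖w‖⁻¹ • w) (‖w'‖⁻¹ • w')
    (by rw [norm_smul, norm_inv, norm_norm, inv_mul_cancel₀ hw.ne'])
    (by rw [norm_smul, norm_inv, norm_norm, inv_mul_cancel₀ hw'.ne'])
  calc ‖w‖ * (‖w'‖ * |bb e P u z (‖w‖⁻¹ • w) (‖w'‖⁻¹ • w')|) ≤ ‖w‖ * (‖w'‖ * C) := by gcongr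
    _ = C * ‖w‖ * ‖w'‖ := by ring

theorem yh_bound (F : Facts e) (hY : ∀ j, Fld (Y j)) (P : PF E M K) : ∃ C, 0 ≤ C ∧
    ∀ (u : UT E M) (a : EuclideanSpace ℝ ι), ‖yh P Y u a‖ ≤ C * ‖a‖ ∧ ‖yh' F P Y u a‖ ≤ C * ‖a‖ := by
  obtain ⟨C₁, hC₁, h₁⟩ := bdd_UT (V := EuclideanSpace ℝ ι) (cont_UT (map_yh P hY)) 1
  obtain ⟨C₂, hC₂, h₂⟩ := bdd_UT (V := EuclideanSpace ℝ ι) (cont_UT (map_yh' P F hY)) 1
  refine ⟨max C₁ C₂, le_max_of_le_left hC₁, fun u a => ?_⟩
  by_cases h0 : a = 0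
  · subst h0
    have e1 : yh P Y u 0 = 0 := by
      have := yh_smul P Y u 0 0
      rwa [zero_smul, zero_smul] at this
    have e2 : yh' F P Y u 0 = 0 := by
      have := yh'_smul P F hY u 0 0
      rwa [zero_smul, zero_smul] at this
    rw [e1, e2, norm_zero, norm_zero, mul_zero]
    exact ⟨le_rfl, le_rfl⟩
  have ha : 0 < ‖a‖ := norm_pos_iff.2 h0
  have e1 : a = ‖a‖ • (‖a‖⁻¹ • a) := by rw [smul_smul, mul_inv_cancel₀ ha.ne', one_smul]
  have e2 : ‖‖a‖⁻¹ • a‖ ≤ 1 := by rw [norm_smul, norm_inv, norm_norm, inv_mul_cancel₀ ha.ne']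
  constructor
  · rw [e1, yh_smul, norm_smul, norm_norm, ← e1, mul_comm]
    gcongr
    exact (h₁ u _ e2).trans (le_max_left _ _)
  · rw [e1, yh'_smul P F hY, norm_smul, norm_norm, ← e1, mul_comm]
    gcongr
    exact (h₂ u _ e2).trans (le_max_right _ _)

theorem cont_EEi (F : Facts e) (hY : ∀ j, Fld (Y j)) (P : PF E M K) (v : UT E M)
    {x : ℝ → CV K} (hx : ContDiff ℝ ∞ x) (a : EuclideanSpace ℝ ι) :
    Continuous fun t => bb e P (phi F (v, t)) (x t + yh P Y (phi F (v, t)) a)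
      (1, deriv x t + yh' F P Y (phi F (v, t)) a) (1, deriv x t + yh' F P Y (phi F (v, t)) a) := by
  have k : ContDiff ℝ ∞ fun t => bb e P (phi F (v, t)) (x t + yh P Y (phi F (v, t)) a)
      (1, deriv x t + yh' F P Y (phi F (v, t)) a)
      (1, deriv x t + yh' F P Y (phi F (v, t)) a) := by
    refine contDiff_iff_contDiffAt.2 fun t => ?_
    have hx' : ContDiff ℝ ∞ (deriv x) := (contDiff_infty_iff_deriv.1 hx).2
    have a1 : (dUT E M).At (fun t : ℝ => phi F (v, t)) t :=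
      map_phi F (u := fun t : ℝ => (v, t)) ⟨at_constUT v t, Sm.of_contDiff contDiff_id _⟩
    have a0 : Sm (fun _ : ℝ => a) t := Sm.of_contDiff contDiff_const _
    have a3 : Sm (fun t : ℝ => x t + yh P Y (phi F (v, t)) a) t :=
      Sm.comp (f := fun r : CV K × CV K => r.1 + r.2) (Sm.of_contDiff (by fun_prop) _)
        ((Sm.of_contDiff hx t).prodMk (sm_yh P hY a1 a0))
    have a2 : Sm (fun t : ℝ => ((1 : ℝ), deriv x t + yh' F P Y (phi F (v, t)) a)) t :=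
      Sm.comp (f := fun r : CV K × CV K => ((1 : ℝ), r.1 + r.2)) (Sm.of_contDiff (by fun_prop) _)
        ((Sm.of_contDiff hx' t).prodMk (sm_yh' P F hY a1 a0))
    exact (sm_bb P F a1 a3 a2 a2).contDiffAt
  exact k.continuous

theorem int_le_add {f g h : ℝ → ℝ} (hf : Continuous f) (hg : Continuous g) (hh : Continuous h)
    {T : ℝ} (hT : 0 ≤ T) (hpt : ∀ t, f t ≤ g t + h t) :
    ∫ t in (0 : ℝ)..T, f t ≤ (∫ t in (0 : ℝ)..T, g t) + ∫ t in (0 : ℝ)..T, h t := by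
  rw [← intervalIntegral.integral_add (hg.intervalIntegrable _ _) (hh.intervalIntegrable _ _)]
  exact intervalIntegral.integral_mono hT (hf.intervalIntegrable _ _)
    ((hg.add hh).intervalIntegrable _ _) hpt

/-- collecting the constants -/
theorem real_collect {C₁ C₂ W κ ρ n : ℝ} (h1 : 0 ≤ C₁) (h2 : 0 ≤ C₂) (hW : 0 < W) (hκ : 0 < κ)
    (hρ : 0 ≤ ρ) (hn : 0 ≤ n) : 2 * (C₂ * W * n) + C₂ * n ^ 2 +
      (C₁ * ρ * (2 * W ^ 2) + C₁ * 2 * n ^ 2) ≤
      (C₁ * (2 * W ^ 2 + 2) + 2 * C₂ * W + C₂ + 1) * ρ +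
      (C₁ * (2 * W ^ 2 + 2) + 2 * C₂ * W + C₂ + 1) * κ +
      (C₁ * (2 * W ^ 2 + 2) + 2 * C₂ * W + C₂ + 1) * (1 + 1 / κ) * n ^ 2 := by
  set A : ℝ := C₁ * (2 * W ^ 2 + 2) + 2 * C₂ * W + C₂ + 1 with hA
  have hA0 : 0 ≤ A := by positivity
  have n5 : n ≤ κ + 1 / κ * n ^ 2 := by
    have k1 : 0 ≤ (κ - n) ^ 2 / κ := by positivity
    have k2 : (κ - n) ^ 2 / κ = κ + 1 / κ * n ^ 2 - 2 * n := by
      field_simp
      ring
    linarith
  have a1 : 0 ≤ C₁ * (2 * W ^ 2 + 2) := by positivity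
  have a2 : 0 ≤ C₁ * (2 * W ^ 2) := by positivity
  have a3 : 0 ≤ 2 * C₂ * W := by positivity
  have s2 : 2 * (C₂ * W * n) ≤ A * κ + A * (1 / κ) * n ^ 2 := by
    have k1 : 2 * C₂ * W ≤ A := by
      rw [hA]
      linarith
    calc 2 * (C₂ * W * n) = (2 * C₂ * W) * n := by ring
      _ ≤ A * n := by gcongr
      _ ≤ A * (κ + 1 / κ * n ^ 2) := by gcongr
      _ = _ := by ring
  have s3 : C₂ * n ^ 2 + C₁ * 2 * n ^ 2 ≤ A * n ^ 2 := by
    rw [← add_mul]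
    gcongr
    rw [hA]
    linarith
  have s4 : C₁ * ρ * (2 * W ^ 2) ≤ A * ρ := by
    have k1 : C₁ * (2 * W ^ 2) ≤ A := by
      rw [hA]
      linarith
    calc C₁ * ρ * (2 * W ^ 2) = (C₁ * (2 * W ^ 2)) * ρ := by ring
      _ ≤ A * ρ := by gcongr
  have s5 : A * (1 + 1 / κ) * n ^ 2 = A * n ^ 2 + A * (1 / κ) * n ^ 2 := by ring
  linarith

/-- the pointwise estimate -/
theorem bb_pt {P : PF E M K} {u : UT E M} {z d : CV K} {w w₂ : ℝ × CV K} {C₁ C₂ W ρ n : ℝ}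
    (hC₁ : 0 ≤ C₁) (hC₂ : 0 ≤ C₂) (hW : 0 < W) (hρ1 : ρ ≤ 1)
    (e1 : |bb e P u (d + z) (w + w₂) (w + w₂) - bb e P u z (w + w₂) (w + w₂)| ≤
      C₁ * ‖d‖ * ‖w + w₂‖ ^ 2)
    (e3 : |bb e P u z w w₂| ≤ C₂ * ‖w‖ * ‖w₂‖) (e4 : |bb e P u z w₂ w₂| ≤ C₂ * ‖w₂‖ * ‖w₂‖)
    (hw : ‖w‖ ≤ W) (hw₂ : ‖w₂‖ ≤ n) (hd : ‖d‖ ≤ ρ) :
    bb e P u (d + z) (w + w₂) (w + w₂) ≤ bb e P u z w w +
      (2 * (C₂ * W * n) + C₂ * n ^ 2 + (C₁ * ρ * (2 * W ^ 2) + C₁ * 2 * n ^ 2)) := by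
  have m0 : 0 ≤ ρ := (norm_nonneg _).trans hd
  have hn : 0 ≤ n := (norm_nonneg _).trans hw₂
  have e2 : bb e P u z (w + w₂) (w + w₂) = bb e P u z w w + 2 * bb e P u z w w₂ +
      bb e P u z w₂ w₂ := by
    rw [bb_add, bb_add_right, bb_add_right, bb_comm P u z w₂ w]
    ring
  have e5 := (abs_le.1 e1).2
  have e6 := (abs_le.1 e3).2
  have e7 := (abs_le.1 e4).2
  have n1 : C₂ * ‖w‖ * ‖w₂‖ ≤ C₂ * W * n := by gcongr
  have n2 : C₂ * ‖w₂‖ * ‖w₂‖ ≤ C₂ * n * n := by gcongr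
  have n3 : ‖w + w₂‖ ^ 2 ≤ 2 * W ^ 2 + 2 * n ^ 2 := by
    have k1 : ‖w + w₂‖ ≤ W + n := (norm_add_le _ _).trans (add_le_add hw hw₂)
    have k2 : ‖w + w₂‖ ^ 2 ≤ (W + n) ^ 2 := by gcongr
    nlinarith [sq_nonneg (W - n)]
  have n4 : C₁ * ‖d‖ * ‖w + w₂‖ ^ 2 ≤ C₁ * ρ * (2 * W ^ 2) + C₁ * 2 * n ^ 2 := by
    calc C₁ * ‖d‖ * ‖w + w₂‖ ^ 2 ≤ C₁ * ρ * (2 * W ^ 2 + 2 * n ^ 2) := by gcongr
      _ = C₁ * ρ * (2 * W ^ 2) + C₁ * ρ * (2 * n ^ 2) := by ring
      _ ≤ C₁ * ρ * (2 * W ^ 2) + C₁ * 1 * (2 * n ^ 2) := by gcongr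
      _ = C₁ * ρ * (2 * W ^ 2) + C₁ * 2 * n ^ 2 := by ring
  have e8 : C₂ * n * n = C₂ * n ^ 2 := by ring
  linarith

/-- the energy of the pushed loop is close to the energy of the pushed geodesic -/
theorem EE_close (F : Facts e) (hY : ∀ j, Fld (Y j)) (hD : 0 < D) (P : PF E M K) :
    ∀ η > 0, ∃ ρ, 0 < ρ ∧ ρ ≤ 1 ∧ ∀ (v : UT E M) (x : ℝ → CV K), ContDiff ℝ ∞ x →
      (∀ t, ‖x t‖ ≤ ρ) → (∫ t in (0 : ℝ)..(2 * D), ‖deriv x t‖ ^ 2) ≤ ρ →
      ∀ a : EuclideanSpace ℝ ι, ‖a‖ ≤ 1 → ∀ l : ℝ, 0 ≤ l → l ≤ 1 →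
        EE F P D Y v (fun t => l • x t) a ≤ EE F P D Y v (fun _ => 0) a + η := by
  intro η hη
  obtain ⟨Cy, hCy, hy⟩ := yh_bound F hY P
  obtain ⟨C₁, hC₁, h₁⟩ := bb_lip F P (Cy + 1) (by positivity)
  obtain ⟨C₂, hC₂, h₂⟩ := bb_bound F P (Cy + 1) (by positivity)
  -- the bound `A (‖x‖ + ‖ξ‖ + ‖ξ‖²)`
  set W : ℝ := 1 + Cy with hW
  have hW0 : 0 < W := by positivity
  set A : ℝ := C₁ * (2 * W ^ 2 + 2) + 2 * C₂ * W + C₂ + 1 with hA
  have hA0 : 0 < A := by positivity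
  set κ : ℝ := η / (4 * A * (2 * D)) with hκ
  have hκ0 : 0 < κ := by positivity
  refine ⟨min 1 (min (η / (4 * A * (2 * D))) (η / (4 * A * (1 + 1 / κ)))),
    lt_min one_pos (lt_min (by positivity) (by positivity)), min_le_left _ _,
    fun v x hx hxρ hint a ha l hl0 hl1 => ?_⟩
  set ρ : ℝ := min 1 (min (η / (4 * A * (2 * D))) (η / (4 * A * (1 + 1 / κ)))) with hρdef
  have hρ1 : ρ ≤ 1 := min_le_left _ _
  have hρ2 : ρ ≤ η / (4 * A * (2 * D)) := (min_le_right _ _).trans (min_le_left _ _)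
  have hρ3 : ρ ≤ η / (4 * A * (1 + 1 / κ)) := (min_le_right _ _).trans (min_le_right _ _)
  have hdl : ∀ t, deriv (fun t => l • x t) t = l • deriv x t := fun t =>
    deriv_const_smul l (hx.differentiable (by simp) t)
  have hpt : ∀ t, bb e P (phi F (v, t)) (l • x t + yh P Y (phi F (v, t)) a)
      (1, deriv (fun t => l • x t) t + yh' F P Y (phi F (v, t)) a)
      (1, deriv (fun t => l • x t) t + yh' F P Y (phi F (v, t)) a) ≤
      bb e P (phi F (v, t)) (0 + yh P Y (phi F (v, t)) a)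
        (1, deriv (fun _ : ℝ => (0 : CV K)) t + yh' F P Y (phi F (v, t)) a)
        (1, deriv (fun _ : ℝ => (0 : CV K)) t + yh' F P Y (phi F (v, t)) a) +
      (A * ρ + A * κ + A * (1 + 1 / κ) * ‖deriv x t‖ ^ 2) := by
    intro t
    rw [hdl t, deriv_const, zero_add, zero_add]
    set u := phi F (v, t) with hu
    set ξ := deriv x t with hξ
    set z := yh P Y u a with hz
    set w : ℝ × CV K := (1, yh' F P Y u a) with hw
    have hzn : ‖z‖ ≤ Cy := ((hy u a).1).trans (by nlinarith)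
    have hwn : ‖w‖ ≤ W := by
      rw [hw, Prod.norm_def, hW]
      refine sup_le ?_ ?_
      · rw [norm_one]
        linarith
      · exact ((hy u a).2).trans (by nlinarith)
    have hlx : ‖l • x t‖ ≤ ‖x t‖ := by
      rw [norm_smul, Real.norm_of_nonneg hl0]
      exact mul_le_of_le_one_left (norm_nonneg _) hl1
    have hlξ : ‖l • ξ‖ ≤ ‖ξ‖ := by
      rw [norm_smul, Real.norm_of_nonneg hl0]
      exact mul_le_of_le_one_left (norm_nonneg _) hl1
    have hw' : ((1 : ℝ), l • ξ + yh' F P Y u a) = w + ((0 : ℝ), l • ξ) := by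
      rw [hw]
      refine Prod.ext (by simp) ?_
      simp only [Prod.mk_add_mk]
      rw [add_comm]
    rw [hw']
    set w₂ : ℝ × CV K := ((0 : ℝ), l • ξ) with hw₂
    have hw₂n : ‖w₂‖ ≤ ‖ξ‖ := by
      rw [hw₂, Prod.norm_def]
      refine sup_le ?_ hlξ
      rw [norm_zero]
      exact norm_nonneg _
    have e1 := h₁ u z (l • x t + z) (hzn.trans (by linarith))
      ((norm_add_le _ _).trans (by linarith [hxρ t])) (w + w₂)
    rw [add_sub_cancel_right] at e1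
    have e3 := h₂ u z (hzn.trans (by linarith)) w w₂
    have e4 := h₂ u z (hzn.trans (by linarith)) w₂ w₂
    have m0 : 0 ≤ ρ := (norm_nonneg _).trans (hxρ t)
    have s1 := bb_pt hC₁ hC₂ hW0 hρ1 e1 e3 e4 hwn hw₂n (hlx.trans (hxρ t))
    have s2 := real_collect hC₁ hC₂ hW0 hκ0 m0 (norm_nonneg ξ)
    rw [← hA] at s2
    linarith
  have c1 := cont_EEi F hY P v (x := fun t => l • x t) (hx.const_smul l) a
  have c2 := cont_EEi F hY P v (x := fun _ => (0 : CV K)) contDiff_const a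
  have c3 : Continuous fun t => ‖deriv x t‖ ^ 2 :=
    (((contDiff_infty_iff_deriv.1 hx).2).continuous).norm.pow 2
  have h2D : (0 : ℝ) ≤ 2 * D := by linarith
  have c4 : Continuous fun t => A * ρ + A * κ + A * (1 + 1 / κ) * ‖deriv x t‖ ^ 2 :=
    continuous_const.add (c3.const_mul _)
  have hmono := int_le_add c1 c2 c4 h2D hpt
  have hlast : ∫ t in (0 : ℝ)..(2 * D), (A * ρ + A * κ + A * (1 + 1 / κ) * ‖deriv x t‖ ^ 2) ≤ η := by
    rw [intervalIntegral.integral_add (f := fun _ => A * ρ + A * κ)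
      (g := fun t => A * (1 + 1 / κ) * ‖deriv x t‖ ^ 2) (continuous_const.intervalIntegrable _ _)
      ((c3.const_mul _).intervalIntegrable _ _), intervalIntegral.integral_const,
      intervalIntegral.integral_const_mul, smul_eq_mul, sub_zero]
    have k1 : 2 * D * (A * ρ) ≤ η / 4 := by
      calc 2 * D * (A * ρ) ≤ 2 * D * (A * (η / (4 * A * (2 * D)))) := by gcongr
        _ = η / 4 := by field_simp
    have k2 : 2 * D * (A * κ) ≤ η / 4 := by
      rw [hκ]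
      exact le_of_eq (by field_simp)
    have k3 : A * (1 + 1 / κ) * ∫ t in (0 : ℝ)..(2 * D), ‖deriv x t‖ ^ 2 ≤ η / 4 := by
      calc A * (1 + 1 / κ) * ∫ t in (0 : ℝ)..(2 * D), ‖deriv x t‖ ^ 2 ≤
          A * (1 + 1 / κ) * (η / (4 * A * (1 + 1 / κ))) := by
            gcongr
            exact hint.trans hρ3
        _ = η / 4 := by
            have : (1 + 1 / κ) ≠ 0 := by positivity
            field_simp
    linarith
  unfold EE
  linarith

end

end Vale.Agent.P231.S3N
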