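import Vale.Agent.P231.S3N.N3
import Vale.Agent.P231.S2N.DF

/-!
# P231, stage 3, block N: the pointwise statement (one loop)
-/

set_option maxSynthPendingDepth 3
set_option linter.unusedSectionVars false
set_option linter.unusedVariables false

open Bundle Manifold Set Filter Module MeasureTheory
open scoped ContDiff Manifold Topology ENNReal

namespace Vale.Agent.P231.S3N

noncomputable section

open Vale.Agent.P234 Vale.Agent.P231 Vale.Agent.P231.Fm Vale.Agent.P231.W Vale.Agent.P231.H775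
open Vale.Agent.P231.X3 Vale.Agent.P231.H997 Vale.Agent.P231.WR Vale.Agent.P231.S2N

attribute [local instance] WF.topUT

variable {E : Type*} [NormedAddCommGroup E] [NormedSpace ℝ E] [FiniteDimensional ℝ E]
  {M : Type*} [MetricSpace M] [ChartedSpace E M] [IsManifold 𝓘(ℝ, E) ∞ M]
  [RiemannianBundle (fun x : M => TangentSpace 𝓘(ℝ, E) x)]
  [IsContMDiffRiemannianBundle 𝓘(ℝ, E) ∞ E (fun x : M => TangentSpace 𝓘(ℝ, E) x)]
  {e : ∀ x : M, TangentSpace 𝓘(ℝ, E) x → M} {K : ℕ} {ι : Type} [Fintype ι] [DecidableEq ι]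
  [CompactSpace M] [ConnectedSpace M] [IsRiemannianManifold 𝓘(ℝ, E) M]
  {Y : ι → UT E M → E} {D : ℝ}

theorem fld_Ya (hY : ∀ j, Fld (Y j)) (δ : EuclideanSpace ℝ ι) : Fld (fun u => Ya Y u δ) :=
  Fld.sum Finset.univ fun j => (hY j).const_smul (δ j)

theorem EE_zero_zero (F : Facts e) (hY : ∀ j, Fld (Y j)) (P : PF E M K) (v : UT E M) :
    EE F P D Y v (fun _ => 0) 0 = 2 * D := by
  have h1 := congrFun (EE_zero_eq (D := D) F hY P v 0) 0
  rw [zero_smul] at h1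
  rw [h1, enZ_zero F]

theorem EE_zero_deriv (F : Facts e) (hD : 0 < D) (hB : InjGE e D)
    (hdiam : ∀ p q : M, dist p q ≤ D) (hY : ∀ j, Fld (Y j)) (P : PF E M K) (v : UT E M)
    (δ : EuclideanSpace ℝ ι) : deriv (fun s : ℝ => EE F P D Y v (fun _ => 0) (s • δ)) 0 = 0 := by
  rw [EE_zero_eq F hY P v δ]
  refine deriv_enZ F hD hB hdiam (fun t => Fld.fa (fld_Ya hY δ) F v t) fun t => ?_
  have k1 := W.phi_per F hD hB hdiam (phi F (v, t))
  rw [phi_add] at k1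
  rw [k1]

/-- the energy of a loop without push -/
theorem EE_noPush (F : Facts e) (hY : ∀ j, Fld (Y j)) (P : PF E M K) (v : UT E M)
    (x : ℝ → CV K) : EE F P D Y v x 0 =
      ∫ t in (0 : ℝ)..(2 * D), bb e P (phi F (v, t)) (x t) (1, deriv x t) (1, deriv x t) := by
  unfold EE
  have e1 : ∀ u, yh P Y u 0 = 0 := fun u => by
    have := yh_smul P Y u 0 0
    rwa [zero_smul, zero_smul] at this
  have e2 : ∀ u, yh' F P Y u 0 = 0 := fun u => by
    have := yh'_smul P F hY u 0 0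
    rwa [zero_smul, zero_smul] at this
  simp only [e1, e2, add_zero]

/-- **the pointwise statement**: strict concavity along the negative directions and the gap -/
theorem NegF.main {F : Facts e} {Em : UT E M → Submodule ℝ (EuclideanSpace ℝ ι)} (h : NegF F D Y Em)
    (hD : 0 < D) (hB : InjGE e D) (hdiam : ∀ p q : M, dist p q ≤ D) (P : PF E M K) :
    ∃ c, 0 < c ∧ ∃ ε₁, 0 < ε₁ ∧ ε₁ ≤ 1 ∧
      (∀ v, ∀ δ ∈ Em v, ‖δ‖ = 1 → ∀ s, 0 < s → s ≤ ε₁ →
        EE F P D Y v (fun _ => 0) (s • δ) < 2 * D) ∧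
      ∀ ε, 0 < ε → ε ≤ ε₁ → ∃ ρ, 0 < ρ ∧ ∀ v x, Lp e P D v x → (∀ t, ‖x t‖ ≤ ρ) →
        EE F P D Y v x 0 ≤ 2 * D + ρ →
        (∀ δ ∈ Em v, ‖δ‖ = 1 → ∀ s, 0 ≤ s → s ≤ ε₁ → EE F P D Y v x (s • δ) ≤
          EE F P D Y v x 0 + deriv (fun s : ℝ => EE F P D Y v x (s • δ)) 0 * s - c / 2 * s ^ 2) ∧
        (∀ δ ∈ Em v, ‖δ‖ = 1 → ∀ l : ℝ, 0 ≤ l → l ≤ 1 →
          EE F P D Y v (fun t => l • x t) (ε • δ) < 2 * D) := by
  obtain ⟨c, hc, ρc, hρc, hρc1, hconc⟩ := h.concave hD P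
  obtain ⟨C, hC, ρ₀, hρ₀, hρ₀1, hh1⟩ := Lp.h1 F hD hB hdiam P
  have hzero : ∀ v, ∀ δ ∈ Em v, ‖δ‖ = 1 → ∀ s, 0 ≤ s → s ≤ ρc →
      EE F P D Y v (fun _ => 0) (s • δ) ≤ 2 * D - c / 2 * s ^ 2 := by
    intro v δ hδ hδ1 s hs0 hs
    have h1 := concave_le (contDiff_EE_ray (P := P) (D := D) F h.fld v (x := fun _ => 0)
      contDiff_const δ) (c := c) (ρ := ρc) (fun s hs => hconc v (fun _ => 0) contDiff_const
        (fun t => by rw [norm_zero]; exact hρc.le) (by simp [hρc.le]) δ hδ hδ1 s hs) hs0 hs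
    rw [EE_zero_deriv F hD hB hdiam h.fld P v δ, zero_smul, EE_zero_zero F h.fld P v] at h1
    linarith
  refine ⟨c, hc, ρc, hρc, hρc1, fun v δ hδ hδ1 s hs0 hs => ?_, fun ε hε hε1 => ?_⟩
  · have h1 := hzero v δ hδ hδ1 s hs0.le hs
    have h2 : 0 < c / 2 * s ^ 2 := by positivity
    linarith
  obtain ⟨ρe, hρe, hρe1, hclose⟩ := EE_close F h.fld hD P (c / 4 * ε ^ 2) (by positivity)
  -- `ρ` small: `4 ρ + C ρ ≤ min ρc ρe`
  set m : ℝ := min ρc ρe with hm
  have hm0 : 0 < m := lt_min hρc hρe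
  refine ⟨min (min ρ₀ m) (m / (4 + C)), lt_min (lt_min hρ₀ hm0) (by positivity),
    fun v x hx hxρ hE => ?_⟩
  set ρ : ℝ := min (min ρ₀ m) (m / (4 + C)) with hρ
  have r1 : ρ ≤ ρ₀ := (min_le_left _ _).trans (min_le_left _ _)
  have r2 : ρ ≤ m := (min_le_left _ _).trans (min_le_right _ _)
  have r3 : ρ ≤ m / (4 + C) := min_le_right _ _
  have hint : ∫ t in (0 : ℝ)..(2 * D), ‖deriv x t‖ ^ 2 ≤ m := by
    have h1 := hh1 v x hx ρ r1 hxρ
    rw [← EE_noPush F h.fld P v x] at h1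
    have h2 : 4 * (EE F P D Y v x 0 - 2 * D) + C * ρ ≤ (4 + C) * ρ := by nlinarith
    have h3 : (4 + C) * ρ ≤ m := by
      calc (4 + C) * ρ ≤ (4 + C) * (m / (4 + C)) := by gcongr
        _ = m := by
            have : 4 + C ≠ 0 := by positivity
            field_simp
    linarith
  refine ⟨fun δ hδ hδ1 s hs0 hs => ?_, fun δ hδ hδ1 l hl0 hl1 => ?_⟩
  · have h1 := concave_le (contDiff_EE_ray (P := P) (D := D) F h.fld v hx.smooth δ) (c := c)
      (ρ := ρc) (fun s hs => hconc v x hx.smooth (fun t => (hxρ t).trans (r2.trans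
        (min_le_left _ _))) (hint.trans (min_le_left _ _)) δ hδ hδ1 s hs) hs0 hs
    simp only [zero_smul] at h1
    exact h1
  · have h1 := hclose v x hx.smooth (fun t => (hxρ t).trans (r2.trans (min_le_right _ _)))
      (hint.trans (min_le_right _ _)) (ε • δ) (by
        rw [norm_smul, hδ1, mul_one, Real.norm_of_nonneg hε.le]
        exact hε1.trans hρc1) l hl0 hl1
    have h2 := hzero v δ hδ hδ1 ε hε.le hε1
    have h3 : 0 < c / 4 * ε ^ 2 := by positivity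
    have h4 : c / 2 * ε ^ 2 = 2 * (c / 4 * ε ^ 2) := by ring
    linarith

/-- if two points of a closed curve have distance `D`, its energy is at least `2 D` -/
theorem energy_ge {c : ℝ → M} (hc : ContMDiff 𝓘(ℝ, ℝ) 𝓘(ℝ, E) ∞ c) (hD : 0 < D)
    (hper : c (2 * D) = c 0) {s : ℝ} (hs0 : 0 ≤ s) (hs : s ≤ 2 * D) (hd : dist (c 0) (c s) = D) :
    2 * D ≤ ∫ t in (0 : ℝ)..(2 * D), nm (c t) (WC.vl c t : E) ^ 2 := by
  by_contra hlt
  push Not at hlt
  have h3 := H766.variation_lt hc hD hlt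
  have h4 : edist (c 0) (c s) ≤ eVariationOn c (Icc 0 s) :=
    eVariationOn.edist_le _ (left_mem_Icc.2 hs0) (right_mem_Icc.2 hs0)
  have h5 : edist (c s) (c (2 * D)) ≤ eVariationOn c (Icc s (2 * D)) :=
    eVariationOn.edist_le _ (left_mem_Icc.2 hs) (right_mem_Icc.2 hs)
  have h6 : eVariationOn c (Icc 0 s) + eVariationOn c (Icc s (2 * D)) =
      eVariationOn c (Icc 0 (2 * D)) := by
    have k1 := eVariationOn.Icc_add_Icc c (s := univ) hs0 hs (mem_univ s)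
    simpa only [univ_inter] using k1
  have hd' : edist (c 0) (c s) = ENNReal.ofReal D := by
    rw [edist_dist, hd]
  rw [hper, edist_comm (c s) (c 0)] at h5
  have h7 : ENNReal.ofReal (2 * D) = ENNReal.ofReal D + ENNReal.ofReal D := by
    rw [← ENNReal.ofReal_add hD.le hD.le]
    congr 1
    ring
  rw [← h6, h7] at h3
  rw [hd'] at h4 h5
  exact absurd (add_le_add h4 h5) (not_le.2 h3)

end

end Vale.Agent.P231.S3N
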