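import Vale.Agent.P231.S3N.Lag
import Vale.Agent.P231.S3N.Cpt

/-!
# P231, stage 3, block N: pushing by a finite family of fields, in frame coordinates
-/

set_option maxSynthPendingDepth 3
set_option linter.unusedSectionVars false
set_option linter.unusedVariables false

open Bundle Manifold Set Filter Module MeasureTheory
open scoped ContDiff Manifold Topology

namespace Vale.Agent.P231.S3N

noncomputable section

open Vale.Agent.P234 Vale.Agent.P231 Vale.Agent.P231.Fm Vale.Agent.P231.W Vale.Agent.P231.H775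
open Vale.Agent.P231.X3 Vale.Agent.P231.H997 Vale.Agent.P231.WR Vale.Agent.P231.S2N

attribute [local instance] WF.topUT

variable {E : Type*} [NormedAddCommGroup E] [NormedSpace ℝ E] [FiniteDimensional ℝ E]
  {M : Type*} [MetricSpace M] [ChartedSpace E M] [IsManifold 𝓘(ℝ, E) ∞ M]
  [RiemannianBundle (fun x : M => TangentSpace 𝓘(ℝ, E) x)]
  [IsContMDiffRiemannianBundle 𝓘(ℝ, E) ∞ E (fun x : M => TangentSpace 𝓘(ℝ, E) x)]
  {e : ∀ x : M, TangentSpace 𝓘(ℝ, E) x → M} {K : ℕ} {ι : Type} [Fintype ι] [DecidableEq ι]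

/-- the combination of the fields with coefficients `a` -/
def Ya (Y : ι → UT E M → E) (u : UT E M) (a : EuclideanSpace ℝ ι) : E := ∑ j, a j • Y j u

theorem Ya_add (Y : ι → UT E M → E) (u : UT E M) (a b : EuclideanSpace ℝ ι) :
    Ya Y u (a + b) = Ya Y u a + Ya Y u b := by
  unfold Ya
  rw [← Finset.sum_add_distrib]
  refine Finset.sum_congr rfl fun i _ => ?_
  rw [PiLp.add_apply, add_smul]

theorem Ya_smul (Y : ι → UT E M → E) (u : UT E M) (c : ℝ) (a : EuclideanSpace ℝ ι) :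
    Ya Y u (c • a) = c • Ya Y u a := by
  unfold Ya
  rw [Finset.smul_sum]
  refine Finset.sum_congr rfl fun i _ => ?_
  rw [PiLp.smul_apply, smul_assoc]

/-- coordinates of the combination of the fields -/
def yh (P : PF E M K) (Y : ι → UT E M → E) (u : UT E M) (a : EuclideanSpace ℝ ι) : CV K :=
  co P (foot u) (Ya Y u a)

variable (P : PF E M K) (Y : ι → UT E M → E)

theorem yh_add (u : UT E M) (a b : EuclideanSpace ℝ ι) : yh P Y u (a + b) = yh P Y u a + yh P Y u b := by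
  unfold yh
  rw [Ya_add, co_add]

theorem yh_smul (u : UT E M) (c : ℝ) (a : EuclideanSpace ℝ ι) : yh P Y u (c • a) = c • yh P Y u a := by
  unfold yh
  rw [Ya_smul, co_smul]

theorem sec_yh (u : UT E M) (a : EuclideanSpace ℝ ι) : sec P (foot u) (yh P Y u a) = Ya Y u a := sec_co P _ _

variable [CompactSpace M] [ConnectedSpace M] [IsRiemannianManifold 𝓘(ℝ, E) M]

theorem smV_Ya {Y : ι → UT E M → E} (hY : ∀ j, Fld (Y j)) {V : Type} [NormedAddCommGroup V]
    [NormedSpace ℝ V] [FiniteDimensional ℝ V] {U : V → UT E M} {a : V → EuclideanSpace ℝ ι} {x : V}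
    (hU : (dUT E M).At U x) (ha : Sm a x) :
    SmV (fun y => foot (U y)) (fun y => (Ya Y (U y) (a y) : E)) x := by
  have hf : ContMDiffAt 𝓘(ℝ, V) 𝓘(ℝ, E) ∞ (fun y => foot (U y)) x :=
    Filter.Eventually.self_of_nhds (map_foot hU :
      ∀ᶠ y in 𝓝 x, ContMDiffAt 𝓘(ℝ, V) 𝓘(ℝ, E) ∞ (fun y => foot (U y)) y)
  refine SmV.sum (E := E) Finset.univ (u := fun j y => (a y j • Y j (U y) : E)) hf fun j _ => ?_
  have h1 : ContDiffAt ℝ ∞ (fun y => a y j) x :=
    (EuclideanSpace.proj (𝕜 := ℝ) j).contDiff.contDiffAt.comp x ha.contDiffAt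
  have h2 : ∀ᶠ y in 𝓝 x, SmV (fun y => foot (U y)) (fun y => (Y j (U y) : E)) y := (hY j).map hU
  exact SmV.smul h1 h2.self_of_nhds

theorem sm_yh {Y : ι → UT E M → E} (hY : ∀ j, Fld (Y j)) {V : Type} [NormedAddCommGroup V]
    [NormedSpace ℝ V] [FiniteDimensional ℝ V] {U : V → UT E M} {a : V → EuclideanSpace ℝ ι} {x : V}
    (hU : (dUT E M).At U x) (ha : Sm a x) : Sm (fun y => yh P Y (U y) (a y)) x := by
  have hUe : ∀ᶠ y in 𝓝 x, (dUT E M).At U y := (dUT E M).open' hU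
  have h1 : ∀ᶠ y in 𝓝 x, ContDiffAt ℝ ∞ (fun y => yh P Y (U y) (a y)) y := by
    filter_upwards [hUe, eventually_eventually_nhds.2 ha.eventually] with y h2 h3
    exact sm_co P (smV_Ya hY h2 (show Sm a y from h3.self_of_nhds))
  exact h1

theorem map_yh {Y : ι → UT E M → E} (hY : ∀ j, Fld (Y j)) :
    ((dUT E M).prod (Dif.lin (EuclideanSpace ℝ ι))).Map (Dif.lin (CV K)) (fun p => yh P Y p.1 p.2) :=
  fun {V} _ _ _ {u x} h => sm_yh P hY (U := fun y => (u y).1) (a := fun y => (u y).2) h.1 h.2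

section Flow

/-- the derivative along the flow -/
def yh' (F : Facts e) (P : PF E M K) (Y : ι → UT E M → E) (u : UT E M) (a : EuclideanSpace ℝ ι) : CV K :=
  deriv (fun t : ℝ => yh P Y (phi F (u, t)) a) 0

theorem map_flow {X : Type*} {DX : Dif X} {f : UT E M × X → CV K} (F : Facts e)
    (hf : ((dUT E M).prod DX).Map (Dif.lin (CV K)) f) :
    (((dUT E M).prod DX).prod (Dif.lin ℝ)).Map (Dif.lin (CV K))
      (fun q => f (phi F (q.1.1, q.2), q.1.2)) := by
  intro V _ _ _ u x h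
  have h1 : (dUT E M).At (fun y => phi F ((u y).1.1, (u y).2)) x :=
    map_phi F (u := fun y => ((u y).1.1, (u y).2)) ⟨h.1.1, h.2⟩
  exact hf (u := fun y => (phi F ((u y).1.1, (u y).2), (u y).1.2)) ⟨h1, h.1.2⟩

theorem map_yh' (F : Facts e) {Y : ι → UT E M → E} (hY : ∀ j, Fld (Y j)) :
    ((dUT E M).prod (Dif.lin (EuclideanSpace ℝ ι))).Map (Dif.lin (CV K)) (fun p => yh' F P Y p.1 p.2) := by
  have h1 : (((dUT E M).prod (Dif.lin (EuclideanSpace ℝ ι))).prod (Dif.lin ℝ)).Map (Dif.lin (CV K))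
      (fun q => deriv (fun r : ℝ => yh P Y (phi F (q.1.1, r)) q.1.2) q.2) :=
    map_derivW (f := fun q : (UT E M × EuclideanSpace ℝ ι) × ℝ => yh P Y (phi F (q.1.1, q.2)) q.1.2)
      (map_flow (DX := Dif.lin (EuclideanSpace ℝ ι)) F (map_yh P hY))
  intro V _ _ _ u x h
  have h2 : Sm (fun _ : V => (0 : ℝ)) x := Sm.of_contDiff contDiff_const x
  exact h1 (u := fun y => (u y, (0 : ℝ))) ⟨h, h2⟩

theorem sm_yh' (F : Facts e) {Y : ι → UT E M → E} (hY : ∀ j, Fld (Y j)) {V : Type}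
    [NormedAddCommGroup V] [NormedSpace ℝ V] [FiniteDimensional ℝ V] {U : V → UT E M}
    {a : V → EuclideanSpace ℝ ι} {x : V} (hU : (dUT E M).At U x) (ha : Sm a x) :
    Sm (fun y => yh' F P Y (U y) (a y)) x :=
  map_yh' P F hY (u := fun y => (U y, a y)) ⟨hU, ha⟩

theorem contDiff_yh_flow (F : Facts e) {Y : ι → UT E M → E} (hY : ∀ j, Fld (Y j))
    (u : UT E M) (a : EuclideanSpace ℝ ι) : ContDiff ℝ ∞ (fun t : ℝ => yh P Y (phi F (u, t)) a) :=
  contDiff_sliceW (map_flow F (map_yh P hY)) (x := (u, a))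
    ⟨at_constUT u 0, Sm.of_contDiff contDiff_const _⟩

theorem hasDerivAt_yh (F : Facts e) {Y : ι → UT E M → E} (hY : ∀ j, Fld (Y j)) (u : UT E M)
    (a : EuclideanSpace ℝ ι) (t : ℝ) :
    HasDerivAt (fun t : ℝ => yh P Y (phi F (u, t)) a) (yh' F P Y (phi F (u, t)) a) t := by
  have h1 : DifferentiableAt ℝ (fun t : ℝ => yh P Y (phi F (u, t)) a) t :=
    (contDiff_yh_flow P F hY u a).differentiable (by simp) t
  have h2 : yh' F P Y (phi F (u, t)) a = deriv (fun t : ℝ => yh P Y (phi F (u, t)) a) t := by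
    unfold yh'
    have e1 : (fun s : ℝ => yh P Y (phi F (phi F (u, t), s)) a) =
        fun s => (fun t : ℝ => yh P Y (phi F (u, t)) a) (t + s) := by
      funext s
      rw [phi_add]
    have e2 := deriv_comp_const_add (f := fun t : ℝ => yh P Y (phi F (u, t)) a) t 0
    rw [add_zero] at e2
    rw [e1]
    exact e2
  rw [h2]
  exact h1.hasDerivAt

theorem yh'_add (F : Facts e) {Y : ι → UT E M → E} (hY : ∀ j, Fld (Y j)) (u : UT E M)
    (a b : EuclideanSpace ℝ ι) : yh' F P Y u (a + b) = yh' F P Y u a + yh' F P Y u b := by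
  unfold yh'
  simp only [yh_add]
  exact deriv_add ((contDiff_yh_flow P F hY u a).differentiable (by simp) 0)
    ((contDiff_yh_flow P F hY u b).differentiable (by simp) 0)

theorem yh'_smul (F : Facts e) {Y : ι → UT E M → E} (hY : ∀ j, Fld (Y j)) (u : UT E M)
    (c : ℝ) (a : EuclideanSpace ℝ ι) : yh' F P Y u (c • a) = c • yh' F P Y u a := by
  unfold yh'
  simp only [yh_smul]
  exact deriv_const_smul c ((contDiff_yh_flow P F hY u a).differentiable (by simp) 0)

/-! ### the pushed Lagrangian along a ray -/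

/-- parameters: coordinates, direction, two velocities -/
abbrev V4 (K : ℕ) (ι : Type) := (CV K × EuclideanSpace ℝ ι) × ((ℝ × CV K) × (ℝ × CV K))

/-- the velocity of the pushed loop -/
def Lw (F : Facts e) (P : PF E M K) (Y : ι → UT E M → E) (u : UT E M) (δ : EuclideanSpace ℝ ι) (s : ℝ)
    (w : ℝ × CV K) : ℝ × CV K :=
  (w.1, w.2 + (s * w.1) • yh' F P Y u δ)

theorem Lw_add (F : Facts e) (u : UT E M) (δ : EuclideanSpace ℝ ι) (s : ℝ) (w w' : ℝ × CV K) :
    Lw F P Y u δ s (w + w') = Lw F P Y u δ s w + Lw F P Y u δ s w' := by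
  unfold Lw
  refine Prod.ext rfl ?_
  simp only [Prod.snd_add, Prod.fst_add]
  rw [mul_add, add_smul]
  abel

theorem Lw_smul (F : Facts e) (u : UT E M) (δ : EuclideanSpace ℝ ι) (s c : ℝ) (w : ℝ × CV K) :
    Lw F P Y u δ s (c • w) = c • Lw F P Y u δ s w := by
  unfold Lw
  refine Prod.ext rfl ?_
  simp only [Prod.smul_snd, Prod.smul_fst, smul_add, smul_smul, smul_eq_mul]
  congr 2
  ring

/-- the bilinear form of the loop pushed by `s • δ` -/
def RR (F : Facts e) (P : PF E M K) (Y : ι → UT E M → E) (q : (UT E M × V4 K ι) × ℝ) : ℝ :=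
  bb e P q.1.1 (q.1.2.1.1 + q.2 • yh P Y q.1.1 q.1.2.1.2)
    (Lw F P Y q.1.1 q.1.2.1.2 q.2 q.1.2.2.1) (Lw F P Y q.1.1 q.1.2.1.2 q.2 q.1.2.2.2)

theorem sm_Lw (F : Facts e) {Y : ι → UT E M → E} (hY : ∀ j, Fld (Y j)) {V : Type}
    [NormedAddCommGroup V] [NormedSpace ℝ V] [FiniteDimensional ℝ V] {U : V → UT E M}
    {δ : V → EuclideanSpace ℝ ι} {s : V → ℝ} {w : V → ℝ × CV K} {x : V} (hU : (dUT E M).At U x) (hδ : Sm δ x)
    (hs : Sm s x) (hw : Sm w x) : Sm (fun y => Lw F P Y (U y) (δ y) (s y) (w y)) x := by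
  have h1 := sm_yh' P F hY hU hδ
  have h2 : Sm (fun y => ((w y, s y), yh' F P Y (U y) (δ y))) x := (hw.prodMk hs).prodMk h1
  exact Sm.comp (f := fun r : ((ℝ × CV K) × ℝ) × CV K => (r.1.1.1, r.1.1.2 + (r.1.2 * r.1.1.1) • r.2))
    (Sm.of_contDiff (by fun_prop) _) h2

theorem map_RR (F : Facts e) {Y : ι → UT E M → E} (hY : ∀ j, Fld (Y j)) :
    (((dUT E M).prod (Dif.lin (V4 K ι))).prod (Dif.lin ℝ)).Map (Dif.lin ℝ) (RR F P Y) := by
  intro V _ _ _ u x h
  have hU : (dUT E M).At (fun y => (u y).1.1) x := h.1.1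
  have hq : Sm (fun y => (u y).1.2) x := h.1.2
  have hs : Sm (fun y => (u y).2) x := h.2
  have h1 : Sm (fun y => (u y).1.2.1.1) x :=
    Sm.comp (f := fun r : V4 K ι => r.1.1) (Sm.of_contDiff (by fun_prop) _) hq
  have h2 : Sm (fun y => (u y).1.2.1.2) x :=
    Sm.comp (f := fun r : V4 K ι => r.1.2) (Sm.of_contDiff (by fun_prop) _) hq
  have h3 : Sm (fun y => (u y).1.2.2.1) x :=
    Sm.comp (f := fun r : V4 K ι => r.2.1) (Sm.of_contDiff (by fun_prop) _) hq
  have h4 : Sm (fun y => (u y).1.2.2.2) x :=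
    Sm.comp (f := fun r : V4 K ι => r.2.2) (Sm.of_contDiff (by fun_prop) _) hq
  have h5 := sm_yh P hY hU h2
  have h6 : Sm (fun y => (u y).1.2.1.1 + (u y).2 • yh P Y (u y).1.1 (u y).1.2.1.2) x :=
    Sm.comp (f := fun r : (CV K × ℝ) × CV K => r.1.1 + r.1.2 • r.2)
      (Sm.of_contDiff (by fun_prop) _) ((h1.prodMk hs).prodMk h5)
  exact sm_bb P F hU h6 (sm_Lw P F hY hU h2 hs h3) (sm_Lw P F hY hU h2 hs h4)

/-- the second derivative in the push parameter -/
def HH (F : Facts e) (P : PF E M K) (Y : ι → UT E M → E) (q : (UT E M × V4 K ι) × ℝ) : ℝ :=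
  deriv (fun r => deriv (fun r' => RR F P Y (q.1, r')) r) q.2

theorem map_HH (F : Facts e) {Y : ι → UT E M → E} (hY : ∀ j, Fld (Y j)) :
    (((dUT E M).prod (Dif.lin (V4 K ι))).prod (Dif.lin ℝ)).Map (Dif.lin ℝ) (HH F P Y) :=
  map_derivW (map_derivW (map_RR P F hY))

theorem contDiff_RR (F : Facts e) {Y : ι → UT E M → E} (hY : ∀ j, Fld (Y j))
    (q : UT E M × V4 K ι) : ContDiff ℝ ∞ (fun s => RR F P Y (q, s)) :=
  contDiff_sliceW (map_RR P F hY) (x := q) ⟨at_constUT q.1 0, Sm.of_contDiff contDiff_const _⟩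

theorem deriv2_add {f g : ℝ → ℝ} (hf : ContDiff ℝ ∞ f) (hg : ContDiff ℝ ∞ g) (s : ℝ) :
    deriv (fun r => deriv (fun r' => f r' + g r') r) s =
      deriv (fun r => deriv f r) s + deriv (fun r => deriv g r) s := by
  have h1 : (fun r => deriv (fun r' => f r' + g r') r) = fun r => deriv f r + deriv g r := by
    funext r
    exact deriv_add (hf.differentiable (by simp) r) (hg.differentiable (by simp) r)
  rw [h1]
  have hf' : ContDiff ℝ ∞ (deriv f) := (contDiff_infty_iff_deriv.1 hf).2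
  have hg' : ContDiff ℝ ∞ (deriv g) := (contDiff_infty_iff_deriv.1 hg).2
  exact deriv_add (hf'.differentiable (by simp) s) (hg'.differentiable (by simp) s)

theorem deriv2_mul {f : ℝ → ℝ} (hf : ContDiff ℝ ∞ f) (c s : ℝ) :
    deriv (fun r => deriv (fun r' => c * f r') r) s = c * deriv (fun r => deriv f r) s := by
  have h1 : (fun r => deriv (fun r' => c * f r') r) = fun r => c * deriv f r := by
    funext r
    exact deriv_const_mul c (hf.differentiable (by simp) r)
  rw [h1]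
  have hf' : ContDiff ℝ ∞ (deriv f) := (contDiff_infty_iff_deriv.1 hf).2
  exact deriv_const_mul c (hf'.differentiable (by simp) s)

variable {P Y}

theorem HH_add (F : Facts e) (hY : ∀ j, Fld (Y j)) (u : UT E M) (x : CV K) (δ : EuclideanSpace ℝ ι) (s : ℝ)
    (w w' w'' : ℝ × CV K) :
    HH F P Y ((u, ((x, δ), (w + w', w''))), s) =
      HH F P Y ((u, ((x, δ), (w, w''))), s) + HH F P Y ((u, ((x, δ), (w', w''))), s) := by
  unfold HH
  have h1 : (fun r' => RR F P Y ((u, ((x, δ), (w + w', w''))), r')) =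
      fun r' => RR F P Y ((u, ((x, δ), (w, w''))), r') + RR F P Y ((u, ((x, δ), (w', w''))), r') := by
    funext r
    unfold RR
    simp only
    rw [Lw_add, bb_add]
  simp only [h1]
  exact deriv2_add (contDiff_RR P F hY _) (contDiff_RR P F hY _) s

theorem HH_smul (F : Facts e) (hY : ∀ j, Fld (Y j)) (u : UT E M) (x : CV K) (δ : EuclideanSpace ℝ ι) (s c : ℝ)
    (w w'' : ℝ × CV K) :
    HH F P Y ((u, ((x, δ), (c • w, w''))), s) = c * HH F P Y ((u, ((x, δ), (w, w''))), s) := by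
  unfold HH
  have h1 : (fun r' => RR F P Y ((u, ((x, δ), (c • w, w''))), r')) =
      fun r' => c * RR F P Y ((u, ((x, δ), (w, w''))), r') := by
    funext r
    unfold RR
    simp only
    rw [Lw_smul, bb_smul]
  simp only [h1]
  exact deriv2_mul (contDiff_RR P F hY _) c s

theorem HH_comm (F : Facts e) (u : UT E M) (x : CV K) (δ : EuclideanSpace ℝ ι) (s : ℝ) (w w' : ℝ × CV K) :
    HH F P Y ((u, ((x, δ), (w, w'))), s) = HH F P Y ((u, ((x, δ), (w', w))), s) := by
  unfold HH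
  have h1 : (fun r' => RR F P Y ((u, ((x, δ), (w, w'))), r')) =
      fun r' => RR F P Y ((u, ((x, δ), (w', w))), r') := by
    funext r
    unfold RR
    simp only
    rw [bb_comm]
  simp only [h1]

end Flow

end

end Vale.Agent.P231.S3N
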